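import Vale.Agent.P073.H235.R2Parts
import Vale.Agent.P073.H194.GoodC

/-!
# P073, block A16: pieces of the producer of rank two, second version (statements)
-/

namespace Vale.Agent.P073.H235

open MeasureTheory Set Filter Topology Metric Vale.Agent.P073.St Vale.Agent.P073.AB
open Vale.Agent.P073.SQ (ev)
open Vale.Agent.P073.LOC (Near Q1 BdClose)
open Vale.Agent.P073.H194 (sInt Gen idx)
open Vale.Agent.P073.H83 (GenB)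
open _root_.P073 (ConHomeo)
open _root_.P073.Net (len dyc dyo IsTile SizeFn)
open scoped ENNReal

/-- `VData`, generic also for the density `H + 1` -/
structure VData2 (p C₀ θ κ : ℝ) (m₀ : ℕ) (Λ : Set V) (f : V → V) (F : V → Mat) extends
    VData p C₀ θ κ m₀ Λ f F where
  gk : ∀ k : ℕ, Gen v nn (fun x => H x + H194.Bk k x) ∧ GenB v nn (fun x => H x + H194.Bk k x)

/-- **[FLAT-V]** -/
def SpecV2 : Prop :=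
  ∀ (p C₀ : ℝ), 1 ≤ p → SpecGSet C₀ → ∀ (θ κ : ℝ) (m₀ : ℕ), 0 < θ → θ ≤ 1 / 2 → 0 < κ →
    ∃ κ' > 0, ∀ (Λ : Set V) (f : V → V) (F : V → Mat), Near p κ' P2 Λ f F →
      Nonempty (VData2 p C₀ θ κ m₀ Λ f F) ∧
      St.IsHomeo (Bx (fl θ)) Λ (cmp (fl θ) f) ∧
      St.IsSobolev p (Bx (fl θ)) (cmp (fl θ) f) (cmpD (fl θ) F)

/-- **[PLATE-T]**, the support of the collapse is in a compact set which does not depend on `mt` -/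
def SpecPlateT2 : Prop :=
  ∀ C₀ ε : ℝ, 0 < C₀ → 0 < ε → ∃ κ > 0, ∀ (Ω Λ : Set V) (f : V → V) (H : V → ℝ≥0∞) (v : V)
    (m₀ : ℕ) (S₀ : Finset (Fin 3 → ℤ)) (B : ℤ), IsOpen Ω → IsOpen Λ → St.IsHomeo Ω Λ f →
    GSet C₀ v Ω f H → (∀ k ∈ S₀, k 2 = B ∧ squ v ((m₀, k), 2) ⊆ Ω) → S₀.card ≤ 4 ^ m₀ →
    ∑ k ∈ S₀, sInt v ((m₀, k), 2) H ≤ ENNReal.ofReal κ →
    ∃ n₀ : ℕ, ∀ n₃ ≥ n₀, ∃ (G : Finset (Fin 3 → ℤ)) (mt₀ : ℕ) (K : Set V), K ⊆ Λ ∧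
      IsCompact K ∧
      -- the good squares of generation `n₃`
      (∀ k ∈ G, ∃ k₀ ∈ S₀, squ v ((n₃, k), 2) ⊆ squ v ((m₀, k₀), 2)) ∧
      (S₀.card : ℝ) / 4 ^ m₀ - (G.card : ℝ) / 4 ^ n₃ ≤ ε ∧
      -- the collapse
      ∀ mt ≥ mt₀, ∀ δ > 0, ∃ (T : ConHomeo Λ Λ) (r : ℝ), 0 < r ∧
        (∀ y ∈ Λ, y ∉ K → T.toFun y = y) ∧
        (∀ y ∈ Λ, ∀ y' ∈ Λ, ‖T.toFun y - T.toFun y'‖ ≤ 2 * ‖y - y'‖) ∧
        (∀ y ∈ Λ, ∀ j, j ≠ 2 → T.toFun y j = y j) ∧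
        ∀ k ∈ G, ∃ t : ℤ, ∀ x ∈ squ v ((n₃, k), 2), ∀ y ∈ Λ, ‖y - f x‖ ≤ r →
          |T.toFun y 2 - t / 2 ^ mt| ≤ δ / 2 ^ mt

end Vale.Agent.P073.H235
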