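import Vale.Agent.P073.H235.R2Spec
import Vale.Agent.P073.H83.GenB

/-!
# P073, block A16: pieces of the producer of rank two (statements)

* `SpecRows`: most squares of the middle plane are nearly monotone (finite sums, one variable);
* `SpecPlateT`: the choice of the plates and the collapse `T`;
* `SpecV`: the generic origin and the good slice.
-/

namespace Vale.Agent.P073.H235

open MeasureTheory Set Filter Topology Metric Vale.Agent.P073.St Vale.Agent.P073.AB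
open Vale.Agent.P073.SQ (ev)
open Vale.Agent.P073.LOC (Near Q1 BdClose)
open Vale.Agent.P073.H73 (MinEdge segP onSeg)
open Vale.Agent.P073.H194 (sInt Gen idx)
open Vale.Agent.P073.H83 (GenB)
open Vale.Agent.P073.H239 (tv)
open _root_.P073 (ConHomeo)
open _root_.P073.Net (len dyc dyo IsTile SizeFn)
open scoped ENNReal

/-! ### Rows -/

/-- the horizontal coordinates of `h` on the square `k` are far from the grid of generation `mt` -/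
def Free (c : ℝ) (v : V) (nS mt : ℕ) (h : V → V) (k : Fin 3 → ℤ) : Prop :=
  ∃ z : Fin 3 → ℤ, ∀ x ∈ squ v ((nS, k), 2), ∀ j, j ≠ 2 →
    (z j + c) / 2 ^ mt ≤ h x j ∧ h x j ≤ (z j + 1 - c) / 2 ^ mt

/-- the square `k` is nearly monotone for `g` -/
def NearMon (r : ℝ) (v : V) (nS : ℕ) (g : V → V) (k : Fin 3 → ℤ) : Prop :=
  ∀ e : Idx × Fin 3, EdgeOfSq e ((nS, k), 2) →
    (1 - r) / 2 ^ nS ≤ g (segP v e).2 e.2 - g (segP v e).1 e.2 ∧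
    tv g (segP v e) Finset.univ ≤ ENNReal.ofReal ((1 + r) / 2 ^ nS)

/-- the sides of the square `k` are not too long for `h` -/
def ShortH (r : ℝ) (v : V) (nS : ℕ) (h : V → V) (k : Fin 3 → ℤ) : Prop :=
  ∀ e : Idx × Fin 3, EdgeOfSq e ((nS, k), 2) →
    tv h (segP v e) (Finset.univ.erase 2) ≤ ENNReal.ofReal ((1 + r) / 2 ^ nS)

/-- the situation on the middle plane; `ε`: small errors, `c`: margin of the sharp clauses -/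
structure RowData {Ω Λ : Set V} (p C D c ε : ℝ) (v : V) (nS mt : ℕ) (a b : Fin 3 → ℤ)
    (G : Finset (Fin 3 → ℤ)) (h g : ConHomeo Ω Λ) (ℓ X : Idx × Fin 3 → ℝ≥0∞) : Prop where
  size : ∀ i, i ≠ 2 → a i < b i ∧ b i - a i ≤ 2 ^ nS
  sub : ∀ k ∈ rect a b, squ v ((nS, k), 2) ⊆ Ω
  Gsub : G ⊆ rect a b
  mtε : 1 / 2 ^ mt ≤ ε
  near : ∀ i, i ≠ 2 → ∀ k ∈ redge a b i, xE h.toFun v ((nS, k), i) ≤ X ((nS, k), i)
  close : ∑ i ∈ Finset.univ.erase (2 : Fin 3), ∑ k ∈ redge a b i,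
    ENNReal.ofReal (1 / 2 ^ nS) * (ENNReal.ofReal ((1 / 2 ^ nS) ^ (1 - p)) *
      X ((nS, k), i) ^ p) ≤ ENNReal.ofReal ε
  osc : ∀ k ∈ rect a b, ∀ x ∈ squ v ((nS, k), 2), ∀ y ∈ squ v ((nS, k), 2),
    ‖h.toFun x - h.toFun y‖ ≤ c / 2 ^ mt
  app : ∀ k ∈ rect a b, ∀ x ∈ squ v ((nS, k), 2), ‖g.toFun x - h.toFun x‖ ≤ D / 2 ^ mt
  /-- sharp clause on the good squares in the middle of the tiles -/
  tv : ∀ k ∈ G, Free c v nS mt h.toFun k → ∀ e : Idx × Fin 3, EdgeOfSq e ((nS, k), 2) →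
    tv g.toFun (segP v e) Finset.univ ≤
      ENNReal.ofReal (1 + c) * tv h.toFun (segP v e) (Finset.univ.erase 2) +
        ENNReal.ofReal (ε / 2 ^ nS)
  /-- the sides of all squares -/
  disp : ∀ k ∈ rect a b, ∀ e : Idx × Fin 3, EdgeOfSq e ((nS, k), 2) →
    ENNReal.ofReal ‖g.toFun (segP v e).2 - g.toFun (segP v e).1‖ ≤
      ENNReal.ofReal D * ∑' e' : {e' : Idx × Fin 3 // EdgeOfSq e' ((nS, k), 2)},
        (ℓ e'.1 + ENNReal.ofReal (ε / 2 ^ nS))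
  area : ENNReal.ofReal (((rect a b \ G).card : ℝ) / 4 ^ nS) ≤ ENNReal.ofReal ε
  bad : ∑ k ∈ rect a b \ G, ∑' e : {e : Idx × Fin 3 // EdgeOfSq e ((nS, k), 2)},
    ENNReal.ofReal (1 / 2 ^ nS) * (ENNReal.ofReal ((1 / 2 ^ nS) ^ (1 - p)) * ℓ e.1 ^ p) ≤
      ENNReal.ofReal ε
  good : ∀ k ∈ G, ∀ e : Idx × Fin 3, EdgeOfSq e ((nS, k), 2) →
    ℓ e ≤ ENNReal.ofReal C * (ENNReal.ofReal (1 / 2 ^ nS) + X e)

/-- **(R2e) [ROWS]** -/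
def SpecRows : Prop :=
  ∀ p C D r ε₁ : ℝ, 1 ≤ p → 0 < C → 0 < D → 0 < r → 0 < ε₁ → ∃ c₁ > 0, ∀ c, 0 < c → c ≤ c₁ →
    ∃ ε > 0, ∀ (Ω Λ : Set V) (v : V) (nS mt : ℕ) (a b : Fin 3 → ℤ) (G : Finset (Fin 3 → ℤ))
      (h g : ConHomeo Ω Λ) (ℓ X : Idx × Fin 3 → ℝ≥0∞), St.IsBoundedDomain Ω →
      RowData p C D c ε v nS mt a b G h g ℓ X →
      ∃ B : Finset (Fin 3 → ℤ), (B.card : ℝ) / 4 ^ nS ≤ ε₁ ∧
        ∀ k ∈ rect a b, k ∉ B → k ∈ G ∧ Free c v nS mt h.toFun k ∧ NearMon r v nS g.toFun k ∧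
          ShortH r v nS h.toFun k

/-! ### Plates -/

/-- (helpers 716, 407) in every dyadic square `s` perpendicular to `ev 2` there is a large closed
set where `f - P2` is Lipschitz with a small constant; `H` is a bound of `|D f - P2|` -/
def GSet (C₀ : ℝ) (v : V) (Ω : Set V) (f : V → V) (H : V → ℝ≥0∞) : Prop :=
  ∀ s : Idx × Fin 3, s.2 = 2 → squ v s ⊆ Ω → ∀ k : ℝ, 0 < k → ∃ G ⊆ squ v s, IsClosed G ∧
    sInt v s (Gᶜ.indicator 1) ≤ ENNReal.ofReal (C₀ / k) * sInt v s H ∧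
    ∀ x ∈ G, ∀ y ∈ G, ‖(f x - P2 x) - (f y - P2 y)‖ ≤ C₀ * k * ‖x - y‖

/-- **(R2a + R2b) [PLATE-T]** the collapse `T`. `S₀`: the squares of generation `m₀` of the core of
the middle plane. -/
def SpecPlateT : Prop :=
  ∀ C₀ ε : ℝ, 0 < C₀ → 0 < ε → ∃ κ > 0, ∀ (Ω Λ : Set V) (f : V → V) (H : V → ℝ≥0∞) (v : V)
    (m₀ : ℕ) (S₀ : Finset (Fin 3 → ℤ)) (B : ℤ), IsOpen Ω → IsOpen Λ → St.IsHomeo Ω Λ f →
    GSet C₀ v Ω f H → (∀ k ∈ S₀, k 2 = B ∧ squ v ((m₀, k), 2) ⊆ Ω) → S₀.card ≤ 4 ^ m₀ →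
    ∑ k ∈ S₀, sInt v ((m₀, k), 2) H ≤ ENNReal.ofReal κ →
    ∃ n₀ : ℕ, ∀ n₃ ≥ n₀, ∃ (G : Finset (Fin 3 → ℤ)) (mt₀ : ℕ),
      -- the good squares of generation `n₃`
      (∀ k ∈ G, ∃ k₀ ∈ S₀, squ v ((n₃, k), 2) ⊆ squ v ((m₀, k₀), 2)) ∧
      (S₀.card : ℝ) / 4 ^ m₀ - (G.card : ℝ) / 4 ^ n₃ ≤ ε ∧
      -- the collapse
      ∀ mt ≥ mt₀, ∀ δ > 0, ∃ (T : ConHomeo Λ Λ) (K : Set V) (r : ℝ), 0 < r ∧ K ⊆ Λ ∧
        IsCompact K ∧ (∀ y ∈ Λ, y ∉ K → T.toFun y = y) ∧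
        (∀ y ∈ Λ, ∀ y' ∈ Λ, ‖T.toFun y - T.toFun y'‖ ≤ 2 * ‖y - y'‖) ∧
        (∀ y ∈ Λ, ‖T.toFun y - y‖ ≤ ε) ∧
        (∀ y ∈ Λ, ∀ j, j ≠ 2 → T.toFun y j = y j) ∧
        ∀ k ∈ G, ∃ t : ℤ, ∀ x ∈ squ v ((n₃, k), 2), ∀ y ∈ Λ, ‖y - f x‖ ≤ r →
          |T.toFun y 2 - t / 2 ^ mt| ≤ δ / 2 ^ mt

/-! ### The generic origin -/

/-- the derivative of `cmp a f` -/
noncomputable def cmpD (a : V) (F : V → Mat) : V → Mat :=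
  fun x i j => F (fun k => x k / a k) i j / a j

/-- `716 (G3)`: almost every origin satisfies `GSet` -/
def SpecGSet (C₀ : ℝ) : Prop :=
  ∀ (p : ℝ) (Ω : Set V) (f : V → V) (F : V → Mat), 1 ≤ p → IsOpen Ω → volume Ω ≠ ⊤ →
    ContinuousOn f Ω → St.IsSobolev p Ω f F →
    ∀ᵐ v : V, GSet C₀ v Ω f fun x => ‖cl (F x) - P2‖ₑ

/-- the generic origin for the compressed map, and a good slice `x 2 = v 2 + B / 2 ^ m₀` -/
structure VData (p C₀ θ κ : ℝ) (m₀ : ℕ) (Λ : Set V) (f : V → V) (F : V → Mat) where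
  v : V
  nn : ℕ → ℕ
  mono : StrictMono nn
  /-- energy density of the compressed map `f` -/
  H : V → ℝ≥0∞
  /-- energy density of `f - P2` -/
  H₁ : V → ℝ≥0∞
  N : Set V
  null : volume N = 0
  rep : ∀ A A' : V → ℝ≥0∞, (∀ x, x ∉ N → A x = A' x) →
    (∀ e, eInt v e A = eInt v e A') ∧ ∀ s, sInt v s A = sInt v s A'
  meas : Measurable H
  meas₁ : Measurable H₁
  fin : ∫⁻ x, H x ≠ ⊤
  eq : ∀ x ∈ Bx (fl θ), x ∉ N → H x = ‖cl (cmpD (fl θ) F x)‖ₑ ^ p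
  eq₁ : ∀ x ∈ Bx (fl θ), x ∉ N → H₁ x = ‖cl (cmpD (fl θ) F x) - P2‖ₑ ^ p
  gen : Gen v nn H
  genB : GenB v nn H
  genB₁ : GenB v nn H₁
  rat : RatGood v (Bx (fl θ)) (cmp (fl θ) f) (cmpD (fl θ) F)
  gset : GSet C₀ v (Bx (fl θ)) (cmp (fl θ) f) fun x => ‖cl (cmpD (fl θ) F x) - P2‖ₑ
  /-- the images of the dyadic planes are null sets -/
  planes : ∀ h : V → V, St.IsInv (Bx (fl θ)) Λ (cmp (fl θ) f) h →
    ∀ᵐ y : V, y ∈ Λ → ∀ n, h y ∈ dyo v n (idx v n (h y))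
  /-- total energy of `f - P2` -/
  small : ∫⁻ x in Bx (fl θ), H₁ x ≤ ENNReal.ofReal κ
  B : ℤ
  mid : |v 2 + B / 2 ^ m₀ - θ| ≤ 1 / 2 ^ m₀
  /-- energy of `f - P2` on the slice -/
  slice : ∀ S : Finset (Fin 3 → ℤ), (∀ k ∈ S, k 2 = B ∧ squ v ((m₀, k), 2) ⊆ Bx (fl θ)) →
    ∑ k ∈ S, sInt v ((m₀, k), 2) H₁ ≤ ENNReal.ofReal κ

/-- **[FLAT-V]** -/
def SpecV : Prop :=
  ∀ (p C₀ : ℝ), 1 ≤ p → SpecGSet C₀ → ∀ (θ κ : ℝ) (m₀ : ℕ), 0 < θ → θ ≤ 1 / 2 → 0 < κ →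
    ∃ κ' > 0, ∀ (Λ : Set V) (f : V → V) (F : V → Mat), Near p κ' P2 Λ f F →
      Nonempty (VData p C₀ θ κ m₀ Λ f F) ∧
      St.IsHomeo (Bx (fl θ)) Λ (cmp (fl θ) f) ∧
      St.IsSobolev p (Bx (fl θ)) (cmp (fl θ) f) (cmpD (fl θ) F)

end Vale.Agent.P073.H235
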