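import Vale.Agent.P073.H235.RedP2
import Vale.Agent.P073.H73.Final3C

/-!
# P073: for `1 ≤ p < 3` the full theorem from finite distortion (face form) and the local theorems
-/

namespace Vale.Agent.P073.H235

open Vale.Agent.P073.St Vale.Agent.P073.RED
open Vale.Agent.P073.AB (FinDist)

/-- finite distortion, face form -/
def FDFace (p : ℝ) : Prop :=
  ∀ (Ω Λ : Set V) (f : V → V) (F : V → Mat), St.IsBoundedDomain Ω → St.IsBoundedDomain Λ →
    St.IsHomeo Ω Λ f → St.IsSobolev p Ω f F → FinDist Ω F →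
    ∀ ε > 0, H73.ConFace p ε Ω Λ f F

theorem m1P_of_face {p : ℝ} (hp : 1 ≤ p) (hp3 : p < 3) (h : FDFace p) : M1P p := by
  intro Ω Λ f F hΩ hΛ hf hF hD ε hε
  exact H73.exists_small_err3 hp hp3 hΩ hΛ hf
    (fun _ hε => H73.goodFace_of_conFace hp hΩ hΛ (h Ω Λ f F hΩ hΛ hf hF hD) hε) hε

/-- **the full theorem for `1 ≤ p < 3`** from its three parts -/
theorem final3_of {p : ℝ} (hp : 1 ≤ p) (hp3 : p < 3) (hFD : FDFace p)
    (hL1 : ∀ L, Rk1 L → Loc p L) (hL2 : ∀ L, Rk2 L → Loc p L) {Ω Λ : Set V} {f : V → V}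
    {F : V → Mat} (hΩ : St.IsBoundedDomain Ω) (hΛ : St.IsBoundedDomain Λ)
    (hf : St.IsHomeo Ω Λ f) (hF : St.IsSobolev p Ω f F) : St.DiffeoApproximable p Ω Λ f F :=
  red_final hp (m1P_of_face hp hp3 hFD) hL1 hL2 hΩ hΛ hf hF

end Vale.Agent.P073.H235
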