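import Vale.Agent.P073.H235.BoxSpec

/-!
# P073, block A16: the producer of rank two, `2 ≤ p < 3` (statements)

`L = P2 = diag (1, 1, 0)`, domain: the flat box `Bx (fl θ)`.

`PreFlat` collects everything that comes from the analysis: target grid (origin `0`), centres,
dyadic partition of the flat box (without protected cells), conical homeomorphism `h`, weighted
lengths `ℓ` of its minimal edges with their sums, and the middle plane `S = {x 2 = v 2 + a 2 / 2 ^ nS}`: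
it is a union of squares of the partition, and most of the squares of `S` in the core are mapped
close to horizontal planes of the target grid.

* `SpecPreFlat`: the data exist;
* `SpecPostFlat`: the face theorem with the sharp clauses turns them into `ConFlat`.
-/

namespace Vale.Agent.P073.H235

open MeasureTheory Set Filter Topology Metric Vale.Agent.P073.St Vale.Agent.P073.AB
open Vale.Agent.P073.SQ (ev)
open Vale.Agent.P073.LOC (Near Q1 BdClose)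
open Vale.Agent.P073.H73 (MinEdge segP onSeg K2AS)
open _root_.P073 (ConHomeo)
open _root_.P073.Net (len dyc dyo IsTile SizeFn)
open scoped ENNReal

/-- positions of the squares of `[a 0, b 0) × [a 1, b 1)` in the plane `a 2` -/
noncomputable def rect (a b : Fin 3 → ℤ) : Finset (Fin 3 → ℤ) :=
  Fintype.piFinset fun j => if j = 2 then {a 2} else Finset.Ico (a j) (b j)

/-- positions of the edges of direction `i` in the closed rectangle -/
noncomputable def redge (a b : Fin 3 → ℤ) (i : Fin 3) : Finset (Fin 3 → ℤ) :=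
  Fintype.piFinset fun j => if j = 2 then {a 2} else if j = i then Finset.Ico (a j) (b j)
    else Finset.Icc (a j) (b j)

/-- distance of the horizontal components of the derivative of `h` along the edge `e` to those of
the identity (an integral over the edge) -/
noncomputable def xE (h : V → V) (v : V) (e : Idx × Fin 3) : ℝ≥0∞ :=
  eInt v e fun x => ∑ j ∈ Finset.univ.erase (2 : Fin 3),
    ENNReal.ofReal |lineDeriv ℝ h x (ev e.2) j - ev e.2 j|

/-- **The data.** `ε`: all errors; `δ`: from the face theorem. -/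
structure PreFlat (p C θ ν τ ε δ : ℝ) (Λ : Set V) (f : V → V) extends
    BoxData δ (Bx (fl θ)) Λ (cmp (fl θ) f) where
  bulk : eSum p v I ℓ univ ≤ ENNReal.ofReal (C * θ)
  frame : eSum p v I ℓ (Fr (fl θ) (2 * ν) {0, 1}) ≤ ENNReal.ofReal (C * ν * θ)
  -- the middle plane
  /-- generation of the squares of the middle plane, in the core -/
  nS : ℕ
  /-- the core rectangle; the plane is `x 2 = v 2 + a 2 / 2 ^ nS` -/
  a : Fin 3 → ℤ
  b : Fin 3 → ℤ
  alt : ∀ i, i ≠ 2 → a i < b i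
  mid : |v 2 + a 2 / 2 ^ nS - θ| ≤ τ
  plane : ∀ q ∈ I, ∀ x : V, x 2 = v 2 + a 2 / 2 ^ nS → x ∉ dyo v q.1 q.2
  minS : ∀ k ∈ rect a b, MinSq v I ((nS, k), 2)
  minE : ∀ i, i ≠ 2 → ∀ k ∈ redge a b i, MinEdge v I ((nS, k), i)
  cov : ∀ x ∈ Bx 1 ∩ Co 1 (ν / 2) {0, 1}, ∃ k ∈ rect a b,
    Function.update x 2 (v 2 + a 2 / 2 ^ nS) ∈ squ v ((nS, k), 2)
  /-- the cells which touch the middle plane -/
  layer : eSum p v I ℓ {x | x 2 = v 2 + a 2 / 2 ^ nS} ≤ ENNReal.ofReal ε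
  -- the target near the middle plane
  /-- generation of the tiles near the image of the core of the middle plane -/
  mt : ℕ
  mtε : 1 / 2 ^ mt ≤ ε
  tile : ∀ k ∈ rect a b, ∀ x ∈ squ v ((nS, k), 2), ∀ z : Fin 3 → ℤ,
    (∃ y ∈ dyc 0 mt z, ‖h.toFun x - y‖ ≤ 4 / 2 ^ mt) → IsTile ρ 0 mt z
  /-- the good squares -/
  G : Finset (Fin 3 → ℤ)
  Gsub : G ⊆ rect a b
  plate : ∀ k ∈ G, ∃ t : ℤ, ∀ x ∈ squ v ((nS, k), 2),
    |h.toFun x 2 - t / 2 ^ mt| ≤ δ / 2 ^ mt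
  /-- area of the bad squares -/
  area : ENNReal.ofReal (((rect a b \ G).card : ℝ) / 4 ^ nS) ≤ ENNReal.ofReal ε
  /-- energy of the bad squares -/
  bad : ∑ k ∈ rect a b \ G, ∑' e : {e : Idx × Fin 3 // EdgeOfSq e ((nS, k), 2)},
    ENNReal.ofReal (1 / 2 ^ nS) * (ENNReal.ofReal ((1 / 2 ^ nS) ^ (1 - p)) * ℓ e.1 ^ p) ≤
      ENNReal.ofReal ε
  /-- the error on the edges of the middle plane -/
  X : Idx × Fin 3 → ℝ≥0∞
  /-- on the middle plane `h` is close to the horizontal identity -/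
  near : ∀ i, i ≠ 2 → ∀ k ∈ redge a b i, xE h.toFun v ((nS, k), i) ≤ X ((nS, k), i)
  /-- on the good squares the weights are bounded -/
  good : ∀ k ∈ G, ∀ e : Idx × Fin 3, EdgeOfSq e ((nS, k), 2) →
    ℓ e ≤ ENNReal.ofReal C * (ENNReal.ofReal (1 / 2 ^ nS) + X e)
  close : ∑ i ∈ Finset.univ.erase (2 : Fin 3), ∑ k ∈ redge a b i,
    ENNReal.ofReal (1 / 2 ^ nS) * (ENNReal.ofReal ((1 / 2 ^ nS) ^ (1 - p)) *
      X ((nS, k), i) ^ p) ≤ ENNReal.ofReal ε

/-- **[PRE-FLAT]** the data exist. -/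
def SpecPreFlat (p : ℝ) : Prop :=
  ∃ C > 0, ∀ ν, 0 < ν → ν ≤ 1 / 4 → ∃ θ₀ > 0, ∀ θ, 0 < θ → θ ≤ θ₀ → ∀ τ > 0, ∀ δ > 0, ∀ ε > 0,
    ∃ κ > 0, ∀ (Λ : Set V) (f : V → V) (F : V → Mat), Near p κ P2 Λ f F →
      Nonempty (PreFlat p C θ ν τ ε δ Λ f)

/-- **[POST-FLAT]** -/
def SpecPostFlat (p : ℝ) : Prop :=
  K2AS p → ∃ D > 0, ∀ (C θ ν : ℝ), 0 < C → 0 < θ → θ ≤ 1 / 2 → 0 < ν → ν ≤ 1 / 4 → ∀ ε > 0,
    ∃ δ > 0, ∃ ε' > 0, ∀ (τ : ℝ) (Λ : Set V) (f : V → V), St.IsBoundedDomain Λ →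
      ContinuousOn f (closure Q1) → τ < θ →
      PreFlat p C θ ν τ ε' δ Λ f → ConFlat p (D * C) θ ν τ ε P2 Λ f

theorem conFlat_mono {p C C' θ ν τ τ' ε ε' : ℝ} {L : V →L[ℝ] V} {Λ : Set V} {f : V → V}
    (hθ : 0 ≤ θ) (hν : 0 ≤ ν) (hC : C ≤ C') (hτ : τ ≤ τ') (hε : ε ≤ ε')
    (H : ConFlat p C θ ν τ ε L Λ f) : ConFlat p C' θ ν τ' ε' L Λ f := by
  obtain ⟨c, W, h, h1, h2, h3, h4, h5, h6⟩ := H
  refine ⟨c, W, h, h1.trans hτ, h2, h3, h4.trans (ENNReal.ofReal_le_ofReal ?_),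
    h5.trans (ENNReal.ofReal_le_ofReal ?_), h6.trans (ENNReal.ofReal_le_ofReal hε)⟩
  · gcongr
  · gcongr

theorem specConFlat_of {p : ℝ} (hK : K2AS p) (h1 : SpecPreFlat p) (h2 : SpecPostFlat p) :
    SpecConFlat p P2 := by
  obtain ⟨D, hD, H2⟩ := h2 hK
  obtain ⟨C, hC, H1⟩ := h1
  refine ⟨D * C, by positivity, fun ν hν hν4 => ?_⟩
  obtain ⟨θ₀, hθ₀, H1'⟩ := H1 ν hν hν4
  refine ⟨min θ₀ (1 / 2), by positivity, fun θ hθ hθ' τ hτ ε hε => ?_⟩
  obtain ⟨δ, hδ, ε', hε', H2'⟩ := H2 C θ ν hC hθ (hθ'.trans (min_le_right _ _)) hν hν4 ε hε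
  obtain ⟨κ, hκ, H1''⟩ := H1' θ hθ (hθ'.trans (min_le_left _ _)) (min τ (θ / 2))
    (by positivity) δ hδ ε' hε'
  refine ⟨κ, hκ, fun Λ f F hN => ?_⟩
  obtain ⟨P⟩ := H1'' Λ f F hN
  have hlt : min τ (θ / 2) < θ := lt_of_le_of_lt (min_le_right _ _) (by linarith)
  exact conFlat_mono hθ.le hν.le le_rfl (min_le_left _ _) le_rfl (H2' _ Λ f hN.dom hN.cont hlt P)

end Vale.Agent.P073.H235
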