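import Vale.Agent.P073.H235.PreFlatC
import Vale.Agent.P073.H16.Rect
import Vale.Agent.P073.H16.FlatV
import Vale.Agent.P073.H16.GSetSpec
import Vale.Agent.P073.H407.PlateT
import Vale.Agent.P073.H523.Count
import Vale.Agent.P073.H407.TW
import Vale.Agent.P073.H439.Ener
import Vale.Agent.P073.H582.XE3

/-!
# P073, block A16, **[PRE-FLAT]** without hypotheses
-/

namespace Vale.Agent.P073.H235

/-- **the producer of rank two, first half** -/
theorem specPreFlat {p : ℝ} (hp : 1 ≤ p) (hp3 : p < 3) : SpecPreFlat p :=
  specPreFlat_of hp hp3 H16.specGSet H16.specV2 H407.specPlateT2 H16.specRect H523.specCount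
    H407.specTW H439.EN.specEner H582.specXE

end Vale.Agent.P073.H235
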