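import Vale.Agent.P073.H333.NetInB
import Vale.Agent.P073.PA285.Top
import Vale.Agent.P073.BV567.Gauge
import Vale.Agent.P073.AB.Graph907
import Vale.Agent.P073.AB.Sum293e
import Vale.Agent.P073.LOC.Spec752

/-!
# P073, block A16, [PRE-MESH], part 2: the conical homeomorphism
-/

namespace Vale.Agent.P073.H235

open MeasureTheory Set Filter Topology Metric Vale.Agent.P073.St Vale.Agent.P073.AB
open Vale.Agent.P073.SQ (ev)
open Vale.Agent.P073.LOC (BdClose)
open _root_.P073 (ConHomeo)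
open _root_.P073.Net (dyc dyo)
open scoped ENNReal

theorem compl_nonempty {U : Set V} (hU : St.IsBoundedDomain U) : (Uᶜ).Nonempty := by
  rw [nonempty_compl]
  rintro rfl
  exact NormedSpace.unbounded_univ ℝ V (AB.S293.isBounded_of hU)

theorem infDist_pos {U : Set V} (hU : St.IsBoundedDomain U) {x : V} (hx : x ∈ U) :
    0 < infDist x Uᶜ :=
  (hU.1.isClosed_compl.notMem_iff_infDist_pos (compl_nonempty hU)).1 (fun h => h hx)

/-- a map whose distance to `f` is at most the distance to the complement -/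
theorem bdClose_of {U : Set V} (hU : St.IsBoundedDomain U) {f g : V → V}
    (h : ∀ x ∈ U, ‖g x - f x‖ ≤ infDist x Uᶜ) : BdClose U f g := by
  intro δ hδ
  have hne := compl_nonempty hU
  refine ⟨{x | δ ≤ infDist x Uᶜ}, fun x hx => ?_, ?_, fun x hx => ?_⟩
  · by_contra hcon
    have h1 : infDist x Uᶜ = 0 := infDist_zero_of_mem hcon
    have h2 : δ ≤ infDist x Uᶜ := hx
    linarith
  · refine Metric.isCompact_of_isClosed_isBounded ?_ ?_
    · exact isClosed_le continuous_const (continuous_infDist_pt _)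
    · refine (AB.S293.isBounded_of hU).subset fun x hx => ?_
      by_contra hcon
      have h1 : infDist x Uᶜ = 0 := infDist_zero_of_mem hcon
      have h2 : δ ≤ infDist x Uᶜ := hx
      linarith
  · have h2 : ¬ δ ≤ infDist x Uᶜ := hx.2
    push Not at h2
    exact (h x hx.1).trans h2.le

/-- composition with a homeomorphism which is the identity off a compact set -/
theorem bdClose_comp {U Λ : Set V} {f : V → V} (h : ConHomeo U Λ) (T : ConHomeo Λ Λ) {K : Set V}
    (hK : IsCompact K) (hKΛ : K ⊆ Λ) (hT : ∀ y ∈ Λ, y ∉ K → T.toFun y = y)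
    (H : BdClose U f h.toFun) : BdClose U f (h.trans T).toFun := by
  intro δ hδ
  obtain ⟨K', hK', hc, h1⟩ := H δ hδ
  refine ⟨K' ∪ h.invFun '' K, union_subset hK' ?_, hc.union
    (hK.image_of_continuousOn (h.cont_inv.mono hKΛ)), fun x hx => ?_⟩
  · rintro _ ⟨y, hy, rfl⟩
    exact h.mapsTo_inv (hKΛ hy)
  · have h2 : h.toFun x ∉ K := by
      intro hcon
      exact hx.2 (Or.inr ⟨h.toFun x, hcon, h.left_inv hx.1⟩)
    have h3 : (h.trans T).toFun x = h.toFun x := hT _ (h.mapsTo hx.1) h2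
    rw [h3]
    exact h1 x ⟨hx.1, fun h4 => hx.2 (Or.inl h4)⟩

/-- **[PRE-MESH, h₀]** the conical homeomorphism: closeness with constants on the cubes of `I₀`,
closeness at the boundary, closeness of the derivatives on the edges of `I`. -/
theorem exists_h0 {U Λ : Set V} {f : V → V} {F : V → Mat} {v : V} {I₀ I : Set Idx}
    (hU : St.IsBoundedDomain U) (hΛ : St.IsBoundedDomain Λ) (hf : St.IsHomeo U Λ f)
    (hI₀ : Part U v I₀) (hI : Part U v I) (rat : RatGood v U f F)
    (fin : ∀ e : Idx × Fin 3, (∃ q ∈ I, EdgeOf e q) →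
      eInt v e (fun x => ENNReal.ofReal ‖cl (F x) (ev e.2)‖) ≠ ⊤)
    {τ : Idx → ℝ} (hτ : ∀ q, 0 < τ q) {δ : Idx × Fin 3 → ℝ} (hδ : ∀ e, 0 < δ e) :
    ∃ h : ConHomeo U Λ, (∀ q ∈ I₀, ∀ x ∈ dyc v q.1 q.2, ‖h.toFun x - f x‖ ≤ τ q) ∧
      BdClose U f h.toFun ∧
      ∀ e : Idx × Fin 3, (∃ q ∈ I, EdgeOf e q) →
        (∀ x ∈ edge v e, ‖h.toFun x - f x‖ ≤ δ e) ∧
        eInt v e (fun x => ENNReal.ofReal ‖lineDeriv ℝ h.toFun x (ev e.2) - cl (F x) (ev e.2)‖) ≤
          ENNReal.ofReal (δ e) := by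
  obtain ⟨m, hmc, hm0, hm1, hm2⟩ := H333.exists_gauge hU.1 hI₀.fin
    (σ := fun x => infDist x Uᶜ) (continuous_infDist_pt _).continuousOn
    (fun x hx => infDist_pos hU hx) (fun q _ => hτ q)
  obtain ⟨h, h1, h2⟩ := _root_.P073.BV567.net_ofN PA285.netOutN AB.specGraph (p := 1) le_rfl
    one_lt_two hU hΛ hf hI rat (by simpa using fin) δ hδ hmc hm0
  simp only [Real.rpow_one] at h2
  exact ⟨h, fun q hq x hx => (h1 x (hI₀.sub q hq hx)).trans (hm2 q hq x (hI₀.sub q hq hx) hx),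
    bdClose_of hU fun x hx => (h1 x hx).trans (hm1 x hx), h2⟩

end Vale.Agent.P073.H235
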