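import Vale.Agent.P073.H235.PreM4
import Vale.Agent.P073.AB.Tiles907
import Vale.Agent.P073.H235.PreM2

/-!
# P073, block A16, [PRE-MESH], part 5: the tiles near a compact set in the target
-/

namespace Vale.Agent.P073.H235

open MeasureTheory Set Filter Topology Metric Vale.Agent.P073.St Vale.Agent.P073.AB
open _root_.P073 (ConHomeo)
open _root_.P073.Net (dyc dyo IsTile SizeFn)
open scoped ENNReal

theorem infDist_near {Λ : Set V} {x y : V} {a b : ℝ} (h : a ≤ infDist y Λᶜ) (hxy : ‖x - y‖ ≤ b) :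
    a - b ≤ infDist x Λᶜ := by
  have h1 : infDist y Λᶜ ≤ infDist x Λᶜ + dist y x := infDist_le_infDist_add_dist
  rw [dist_comm, dist_eq_norm] at h1
  linarith

theorem dist_dyc {w : V} {n : ℕ} {z : Fin 3 → ℤ} {x y : V} (hx : x ∈ dyc w n z)
    (hy : y ∈ dyc w n z) : ‖x - y‖ ≤ 1 / 2 ^ n := by
  rw [pi_norm_le_iff_of_nonneg (by positivity)]
  intro k
  obtain ⟨h1, h2⟩ := hx k
  obtain ⟨h3, h4⟩ := hy k
  rw [P86.div_add_one] at h2 h4
  rw [Pi.sub_apply, Real.norm_eq_abs, abs_le]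
  constructor <;> linarith

/-- cubes of generation `n` deep in `Λ` are tiles -/
theorem tile_of_deep {Λ : Set V} (hΛ : St.IsBoundedDomain Λ) {n : ℕ} {z : Fin 3 → ℤ} {x : V}
    (hx : x ∈ dyc 0 n z) {a : ℝ} (ha : 2 / 2 ^ n ≤ a) (hxa : a ≤ infDist x Λᶜ) :
    IsTile (rho Λ n) 0 n z := by
  have h1 := (AB.specTiles Λ n 0 hΛ.1 (AB.S293.isBounded_of hΛ) hΛ.2.1.nonempty).2.2.2.2 z
    fun x' hx' => ?_
  · exact h1
  · have h2 := infDist_near hxa (dist_dyc hx' hx)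
    have e1 : (2:ℝ) / 2 ^ n = 1 / 2 ^ n + 1 / 2 ^ n := by ring
    linarith

/-- the tiles at a point deep in `Λ` -/
theorem gen_of_deep {Λ : Set V} (hΛ : St.IsBoundedDomain Λ) {n m : ℕ} {z : Fin 3 → ℤ} {x : V}
    (ht : IsTile (rho Λ n) 0 m z) (hx : x ∈ dyc 0 m z) {a : ℝ} (ha : 2 / 2 ^ n ≤ a)
    (hxa : a ≤ infDist x Λᶜ) : m = n := by
  obtain ⟨hρ, hI, h3, h4, -⟩ := AB.specTiles Λ n 0 hΛ.1 (AB.S293.isBounded_of hΛ) hΛ.2.1.nonempty
  have hnm : n ≤ m := h3 (m, z) ht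
  obtain ⟨Z, hZ⟩ := Gr.exists_ancestor' 0 hnm z
  have h5 : IsTile (rho Λ n) 0 n Z := tile_of_deep hΛ (hZ hx) ha hxa
  by_contra hne
  have h6 := hI.disj (m, z) ht (n, Z) h5 (fun h => hne (by rw [Prod.mk.injEq] at h; exact h.1))
  exact Set.disjoint_left.1 h6 (P86.cen_mem 0 m z) (hZ (P86.dyo_sub_dyc (P86.cen_mem 0 m z)))

/-- the distance of a compact set to the complement -/
theorem exists_deep {Λ : Set V} (hΛ : St.IsBoundedDomain Λ) {K : Set V} (hK : IsCompact K)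
    (hKΛ : K ⊆ Λ) : ∃ d > 0, ∀ x ∈ K, d ≤ infDist x Λᶜ := by
  rcases K.eq_empty_or_nonempty with h | h
  · exact ⟨1, one_pos, by simp [h]⟩
  · obtain ⟨x, hx, hmin⟩ := hK.exists_isMinOn h (continuous_infDist_pt Λᶜ).continuousOn
    exact ⟨infDist x Λᶜ, infDist_pos hΛ (hKΛ hx), fun y hy => hmin hy⟩

/-- a homeomorphism which is the identity off `K` maps `K` into itself -/
theorem mapsTo_supp {Λ K : Set V} (T : ConHomeo Λ Λ) (hKΛ : K ⊆ Λ)
    (hT : ∀ y ∈ Λ, y ∉ K → T.toFun y = y) : MapsTo T.toFun K K := by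
  intro y hy
  by_contra hcon
  have h1 := T.mapsTo (hKΛ hy)
  have h2 := hT _ h1 hcon
  have h3 : T.toFun y = y := by
    rw [← T.left_inv h1, h2, T.left_inv (hKΛ hy)]
  rw [h3] at hcon
  exact hcon hy

/-- the images of the points near the compact set `K'` -/
theorem deep_image {Λ K K' : Set V} (T : ConHomeo Λ Λ) (hKΛ : K ⊆ Λ)
    (hT : ∀ y ∈ Λ, y ∉ K → T.toFun y = y) {d r : ℝ} (hr : 0 ≤ r)
    (hd : ∀ x ∈ K ∪ K', d ≤ infDist x Λᶜ) {y x : V} (hy : y ∈ Λ) (hx : x ∈ K') (hyx : ‖y - x‖ ≤ r) :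
    d - r ≤ infDist (T.toFun y) Λᶜ := by
  by_cases h : y ∈ K
  · have := hd _ (Or.inl (mapsTo_supp T hKΛ hT h))
    linarith
  · rw [hT y hy h]
    exact infDist_near (hd x (Or.inr hx)) hyx

end Vale.Agent.P073.H235
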