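import Vale.Agent.P073.H235.PreM3
import Vale.Agent.P073.H235.R2Parts2

/-!
# P073, block A16, [PRE-FLAT]: the domain side
-/

namespace Vale.Agent.P073.H235

open MeasureTheory Set Filter Topology Metric Vale.Agent.P073.St Vale.Agent.P073.AB
open Vale.Agent.P073.SQ (ev)
open Vale.Agent.P073.H194 (sInt Gen idx Rg up KR)
open _root_.P073 (ConHomeo)
open _root_.P073.Net (len dyc dyo IsTile SizeFn)
open scoped ENNReal

/-! ### squares in cubes -/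

/-- a dyadic square is in each larger dyadic cube which contains its centre -/
theorem squ_sub_of_sc {v : V} {s : Idx × Fin 3} {q : Idx} (h : q.1 ≤ s.1.1)
    (hc : P86.sc v s ∈ dyc v q.1 q.2) : squ v s ⊆ dyc v q.1 q.2 := by
  obtain ⟨d, hd⟩ := Nat.exists_eq_add_of_le h
  rintro x ⟨hx1, hx2⟩ j
  obtain ⟨h1, h2⟩ := hc j
  by_cases hj : j = s.2
  · subst hj
    have h3 : P86.sc v s s.2 = x s.2 := by rw [hx1]; simp [P86.sc]
    rw [h3] at h1 h2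
    exact ⟨h1, h2⟩
  · obtain ⟨h3, h4⟩ := hx2 j hj
    have hs : P86.sc v s j = v j + (s.1.2 j + 1 / 2) / 2 ^ s.1.1 := by
      simp only [P86.sc, if_neg hj]
    rw [hs] at h1 h2
    have hp : (0:ℝ) < 2 ^ s.1.1 := by positivity
    have e1 : (q.2 j : ℝ) / 2 ^ q.1 = ((2 ^ d * q.2 j : ℤ) : ℝ) / 2 ^ s.1.1 := by
      rw [hd, pow_add]; push_cast; field_simp
    have e2 : ((q.2 j : ℝ) + 1) / 2 ^ q.1 = ((2 ^ d * (q.2 j + 1) : ℤ) : ℝ) / 2 ^ s.1.1 := by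
      rw [hd, pow_add]; push_cast; field_simp
    rw [e1] at h1 ⊢
    rw [e2] at h2 ⊢
    have h5 : ((2 ^ d * q.2 j : ℤ) : ℝ) / 2 ^ s.1.1 ≤ (s.1.2 j + 1 / 2) / 2 ^ s.1.1 := by linarith
    have h6 : ((s.1.2 j : ℝ) + 1 / 2) / 2 ^ s.1.1 ≤
        ((2 ^ d * (q.2 j + 1) : ℤ) : ℝ) / 2 ^ s.1.1 := by linarith
    rw [div_le_div_iff_of_pos_right hp] at h5 h6
    have h7 : 2 ^ d * q.2 j < s.1.2 j + 1 := by
      have : ((2 ^ d * q.2 j : ℤ) : ℝ) < (s.1.2 j : ℝ) + 1 := by linarith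
      exact_mod_cast this
    have h8 : s.1.2 j < 2 ^ d * (q.2 j + 1) := by
      have : (s.1.2 j : ℝ) < ((2 ^ d * (q.2 j + 1) : ℤ) : ℝ) := by linarith
      exact_mod_cast this
    have h9 : ((2 ^ d * q.2 j : ℤ) : ℝ) ≤ s.1.2 j := by
      exact_mod_cast Int.lt_add_one_iff.1 h7
    have h10 : (s.1.2 j : ℝ) + 1 ≤ ((2 ^ d * (q.2 j + 1) : ℤ) : ℝ) := by
      exact_mod_cast Int.add_one_le_iff.2 h8
    have h11 := (div_le_div_iff_of_pos_right hp).2 h9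
    have h12 := (div_le_div_iff_of_pos_right hp).2 h10
    constructor <;> linarith

/-- the squares of a high generation in the rectangle are in the cubes of the partition -/
theorem list_ok {U : Set V} {v : V} {I : Set Idx} (hI : Part U v I) {m n : ℕ} (hmn : m ≤ n)
    {α β : Fin 3 → ℤ} (hR : Rg v m α β ⊆ U) (hm : ∀ q ∈ I, m ≤ q.1)
    (hn : ∀ q ∈ KR v I m α β, q.1 ≤ n) {k : Fin 3 → ℤ} (hk : k ∈ rect (up m n α) (up m n β)) :
    (∃ q ∈ KR v I m α β, squ v ((n, k), 2) ⊆ dyc v q.1 q.2) ∧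
      ∀ q ∈ I, Disjoint (squ v ((n, k), 2)) (dyo v q.1 q.2) := by
  have h1 := H194.squ_sub_Rg (v := v) (H194.sc_up hmn α β) hk
  constructor
  · have h2 : P86.sc v ((n, k), 2) ∈ squ v ((n, k), 2) := P86.rel_sub P86.sc_mem
    obtain ⟨q, hq, hsq⟩ := hI.cover _ (hR (h1 h2))
    have h3 : q ∈ KR v I m α β := ⟨hq, _, hsq, h1 h2⟩
    exact ⟨q, h3, squ_sub_of_sc (s := ((n, k), 2)) (hn q h3) hsq⟩
  · intro q hq
    rw [Set.disjoint_left]
    intro x hx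
    exact H194.plane_off (hm q hq) (h1 hx).1

/-! ### unions of cubes -/

theorem norm_sub_dyc {w : V} {n : ℕ} {z : Fin 3 → ℤ} {x y : V} (hx : x ∈ dyc w n z)
    (hy : y ∈ dyc w n z) (k : Fin 3) : |x k - y k| ≤ 1 / 2 ^ n := by
  obtain ⟨h1, h2⟩ := hx k
  obtain ⟨h3, h4⟩ := hy k
  rw [P86.div_add_one] at h2 h4
  rw [abs_le]
  constructor <;> linarith

theorem half_pow_le {m n : ℕ} (h : m ≤ n) : (1:ℝ) / 2 ^ n ≤ 1 / 2 ^ m :=
  one_div_le_one_div_of_le (by positivity) (pow_le_pow_right₀ (by norm_num) h)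

/-- the cubes which meet the frame -/
theorem union_frame {θ ν : ℝ} {v : V} {I : Set Idx} (hI : Part (Bx (fl θ)) v I) {n : ℕ}
    (hn : ∀ q ∈ I, n ≤ q.1) (hnν : 1 / 2 ^ n ≤ ν) :
    (⋃ q ∈ {q : Idx | q ∈ I ∧ (dyc v q.1 q.2 ∩ Fr (fl θ) (2 * ν) {0, 1}).Nonempty},
      dyc v q.1 q.2) ⊆ Bx (fl θ) ∩ Fr (fl θ) (3 * ν) {0, 1} := by
  refine iUnion₂_subset ?_
  rintro q ⟨hq, y, hy, i, hi, hyi⟩ x hx
  refine ⟨hI.sub q hq hx, i, hi, ?_⟩
  have h1 := norm_sub_dyc hx hy i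
  have h2 := (half_pow_le (hn q hq)).trans hnν
  have h3 : fl θ i = 1 := by
    simp only [Finset.mem_insert, Finset.mem_singleton] at hi
    rcases hi with rfl | rfl <;> simp [fl]
  rw [h3] at hyi ⊢
  rw [abs_le] at h1
  rcases hyi with h | h
  · left; linarith [h1.2]
  · right; linarith [h1.1]

/-- the cubes which meet the middle plane -/
theorem union_plane {θ c : ℝ} {v : V} {I : Set Idx} (hI : Part (Bx (fl θ)) v I) {n : ℕ}
    (hn : ∀ q ∈ I, n ≤ q.1) :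
    (⋃ q ∈ {q : Idx | q ∈ I ∧ (dyc v q.1 q.2 ∩ {x | x 2 = c}).Nonempty}, dyc v q.1 q.2) ⊆
      Bx (fl θ) ∩ {x | |x 2 - c| ≤ 1 / 2 ^ n} := by
  refine iUnion₂_subset ?_
  rintro q ⟨hq, y, hy, hyc⟩ x hx
  refine ⟨hI.sub q hq hx, ?_⟩
  have h1 := norm_sub_dyc hx hy 2
  have h2 := half_pow_le (hn q hq)
  have h3 : y 2 = c := hyc
  rw [h3] at h1
  exact h1.trans h2

theorem union_univ {U : Set V} {v : V} {I : Set Idx} (hI : Part U v I) :
    (⋃ q ∈ {q : Idx | q ∈ I ∧ (dyc v q.1 q.2 ∩ univ).Nonempty}, dyc v q.1 q.2) ⊆ U :=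
  iUnion₂_subset fun q hq => hI.sub q hq.1

/-! ### the edge integrals of the density -/

theorem le_one_add_rpow {p : ℝ} (hp : 1 ≤ p) (a : ℝ≥0∞) : a ≤ a ^ p + 1 := by
  rcases le_total a 1 with h | h
  · exact h.trans le_add_self
  · calc a = a ^ (1:ℝ) := (ENNReal.rpow_one a).symm
      _ ≤ a ^ p := ENNReal.rpow_le_rpow_of_exponent_le h hp
      _ ≤ _ := le_self_add

/-- the hypothesis `hA` of `exists_mesh` -/
theorem edge_dens {p : ℝ} (hp : 1 ≤ p) {U : Set V} {v : V} {F : V → Mat} {H : V → ℝ≥0∞}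
    {N : Set V} (rep : ∀ A A' : V → ℝ≥0∞, (∀ x, x ∉ N → A x = A' x) →
      (∀ e, eInt v e A = eInt v e A') ∧ ∀ s, sInt v s A = sInt v s A')
    (hH : ∀ x ∈ U, x ∉ N → H x = ‖cl (F x)‖ₑ ^ p) (efin : ∀ e, eInt v e H ≠ ⊤)
    (e : Idx × Fin 3) (he : edge v e ⊆ U) :
    eInt v e (fun x => ‖cl (F x)‖ₑ) ≠ ⊤ ∧
      eInt v e (fun x => ‖cl (F x)‖ₑ + 1) ≤ eInt v e (fun x => H x ^ (1 / p) + 1) := by
  classical
  have hp0 : p ≠ 0 := by linarith
  have hr : ∀ x ∈ U, x ∉ N → H x ^ (1 / p) = ‖cl (F x)‖ₑ := by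
    intro x hx hxN
    rw [hH x hx hxN, one_div, ENNReal.rpow_rpow_inv hp0]
  have key : ∀ a : ℝ≥0∞, eInt v e (fun x => ‖cl (F x)‖ₑ + a) =
      eInt v e (fun x => H x ^ (1 / p) + a) := by
    intro a
    have h1 := (rep (fun x => if x ∈ U then ‖cl (F x)‖ₑ + a else H x ^ (1 / p) + a)
      (fun x => H x ^ (1 / p) + a) (fun x hx => by
        by_cases hxU : x ∈ U
        · simp only [hxU, if_true]
          rw [hr x hxU hx]
        · simp only [hxU, if_false])).1 e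
    rw [← h1]
    refine le_antisymm (H333.eInt_mono_on fun x hx => ?_) (H333.eInt_mono_on fun x hx => ?_)
    · rw [if_pos (he hx)]
    · rw [if_pos (he hx)]
  refine ⟨?_, (key 1).le⟩
  have h2 := key 0
  simp only [add_zero] at h2
  rw [h2]
  have h3 : eInt v e (fun x => H x ^ (1 / p)) ≤ eInt v e (fun x => H x + 1) := by
    refine H333.eInt_mono_on fun x _ => ?_
    have := le_one_add_rpow hp (H x ^ (1 / p))
    rw [one_div, ENNReal.rpow_inv_rpow hp0] at this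
    rw [one_div]
    exact this
  rw [S293.eInt_add v e _ _ aemeasurable_const, S293.eInt_const] at h3
  refine ne_top_of_le_ne_top ?_ h3
  exact ENNReal.add_ne_top.2 ⟨efin e, by rw [mul_one]; exact ENNReal.ofReal_ne_top⟩

end Vale.Agent.P073.H235
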