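import Vale.Agent.P073.H235.R2Parts2
import Vale.Agent.P073.H194.Flat3

/-!
# P073, block A16: pieces of the assembly of `PreFlat` (statements)
-/

namespace Vale.Agent.P073.H235

open MeasureTheory Set Filter Topology Metric Vale.Agent.P073.St Vale.Agent.P073.AB
open Vale.Agent.P073.SQ (ev)
open Vale.Agent.P073.H73 (MinEdge segP onSeg ctr)
open Vale.Agent.P073.H194 (sInt Gen idx Rg up)
open Vale.Agent.P073.H83 (GenB)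
open Vale.Agent.P073.H333 (tw)
open _root_.P073 (ConHomeo)
open _root_.P073.Net (len dyc dyo IsTile SizeFn)
open scoped ENNReal

/-- **[RECT]** the core rectangle of generation `m` in the plane `x 2 = v 2 + B / 2 ^ m` -/
def SpecRect : Prop :=
  ∀ (ν θ : ℝ) (v : V) (m : ℕ) (B : ℤ), 0 < ν → ν ≤ 1 / 4 → 0 < θ → 1 / 2 ^ m ≤ ν / 16 →
    1 / 2 ^ m ≤ θ / 2 → |v 2 + B / 2 ^ m - θ| ≤ 1 / 2 ^ m →
    ∃ α β : Fin 3 → ℤ, α 2 = B ∧ (∀ j, j ≠ 2 → α j < β j) ∧ Rg v m α β ⊆ Bx (fl θ) ∧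
      (rect α β).card ≤ 4 ^ m ∧
      ∀ x ∈ Bx 1 ∩ Co 1 (ν / 2) {0, 1}, ∀ j, j ≠ 2 →
        v j + α j / 2 ^ m ≤ x j ∧ x j ≤ v j + β j / 2 ^ m

/-- **[COUNT]** the squares of the generations `m ≤ n₃ ≤ nS` in the rectangle -/
def SpecCount : Prop :=
  ∀ (v : V) (m n₃ nS : ℕ) (α β : Fin 3 → ℤ), m ≤ n₃ → n₃ ≤ nS →
    ((rect (up m n₃ α) (up m n₃ β)).card : ℝ) / 4 ^ n₃ = (rect α β).card / 4 ^ m ∧
    (∀ k, (∃ k₀ ∈ rect α β, squ v ((n₃, k), 2) ⊆ squ v ((m, k₀), 2)) →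
      k ∈ rect (up m n₃ α) (up m n₃ β)) ∧
    (∀ H : V → ℝ≥0∞, Measurable H → ∑ k ∈ rect (up m n₃ α) (up m n₃ β), sInt v ((n₃, k), 2) H =
      ∑ k ∈ rect α β, sInt v ((m, k), 2) H) ∧
    ∃ par : (Fin 3 → ℤ) → (Fin 3 → ℤ), (∀ k ∈ rect (up m nS α) (up m nS β),
        par k ∈ rect (up m n₃ α) (up m n₃ β) ∧
        squ v ((nS, k), 2) ⊆ squ v ((n₃, par k), 2)) ∧
      ∀ k₃ ∈ rect (up m n₃ α) (up m n₃ β),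
        (((rect (up m nS α) (up m nS β)).filter fun k => par k = k₃).card : ℝ) / 4 ^ nS ≤
          1 / 4 ^ n₃

/-- **[TW]** the weight near a horizontal grid plane -/
def SpecTW : Prop :=
  ∀ (Λ : Set V) (ρ : V → ℝ) (mt : ℕ) (c : ℕ → (Fin 3 → ℤ) → V) (y : V) (t : ℤ), SizeFn Λ ρ →
    (∀ m z, IsTile ρ 0 m z → ‖c m z - ctr 0 m z‖ ≤ 1 / 4 / 2 ^ m) →
    (∀ m z, IsTile ρ 0 m z → y ∈ dyc 0 m z → m = mt) → |y 2 - t / 2 ^ mt| ≤ 1 / 8 / 2 ^ mt →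
    tw ρ c y ≤ 33

/-- **[ENER]** the density `G = H + 1` on the flat box -/
def SpecEner : Prop :=
  ∀ (p C₀ θ κ : ℝ) (m₀ : ℕ) (Λ : Set V) (f : V → V) (F : V → Mat), 1 ≤ p → 0 < θ → θ ≤ 1 / 2 →
    ∀ D : VData2 p C₀ θ κ m₀ Λ f F,
    -- integrals
    (∀ R ⊆ Bx (fl θ), MeasurableSet R → ∫⁻ x in R, (D.H x + H194.Bk 1 x) ≤
      ENNReal.ofReal (2 ^ p) * ((∫⁻ x in R, D.H₁ x) + volume R)) ∧
    (∀ x ∈ Bx (fl θ), H194.Bk 1 x = 1) ∧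
    volume (Bx (fl θ)) ≤ ENNReal.ofReal (2 * θ) ∧
    (∀ ν, 0 < ν → volume (Bx (fl θ) ∩ Fr (fl θ) (3 * ν) {0, 1}) ≤
      ENNReal.ofReal (24 * ν * θ)) ∧
    (∀ (c ε : ℝ) (N : ℕ), 0 < ε → ∃ n ≥ N,
      ∫⁻ x in Bx (fl θ) ∩ {x | |x 2 - c| ≤ 1 / 2 ^ n}, (D.H x + H194.Bk 1 x) ≤
        ENNReal.ofReal ε) ∧
    -- squares
    (∀ (n : ℕ) (S : Finset (Fin 3 → ℤ)), (∀ k ∈ S, squ D.v ((n, k), 2) ⊆ Bx (fl θ)) →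
      (∑ k ∈ S, sInt D.v ((n, k), 2) (fun x => D.H x + H194.Bk 1 x) ≤ ENNReal.ofReal (2 ^ p) *
        ((∑ k ∈ S, sInt D.v ((n, k), 2) D.H₁) + ENNReal.ofReal (S.card / 4 ^ n))) ∧
      ∀ t : ℝ, 0 < t → ∑ k ∈ S, sInt D.v ((n, k), 2) (fun x => ‖cl (cmpD (fl θ) F x) - P2‖ₑ) ≤
        ENNReal.ofReal (t * (S.card / 4 ^ n)) +
          ENNReal.ofReal (t ^ (1 - p)) * ∑ k ∈ S, sInt D.v ((n, k), 2) D.H₁)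

/-- the error on an edge of the middle plane; `b`: distance of `h₀` to `f` -/
noncomputable def XE (θ : ℝ) (v : V) (F : V → Mat) (b : ℝ) (e : Idx × Fin 3) : ℝ≥0∞ :=
  2 * (eInt v e (fun x => ‖cl (cmpD (fl θ) F x) - P2‖ₑ) + ENNReal.ofReal (b / 2 ^ e.1.1))

/-- **[XEDGE]** the edges of the middle plane -/
def SpecXE : Prop :=
  ∀ (p C₀ θ κ : ℝ) (m₀ : ℕ) (Λ : Set V) (f : V → V) (F : V → Mat), 1 ≤ p → 0 < θ → θ ≤ 1 / 2 →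
    0 < κ → ∀ (D : VData2 p C₀ θ κ m₀ Λ f F) (α β : Fin 3 → ℤ), α 2 = D.B →
    (∀ j, j ≠ 2 → α j < β j) →
    Rg D.v m₀ α β ⊆ Bx (fl θ) → (rect α β).card ≤ 4 ^ m₀ → ∀ δ₁ : ℝ, 0 < δ₁ →
    ∃ l₀ : ℕ, ∀ l ≥ l₀, m₀ ≤ D.nn l →
    ∀ (h₀ : ConHomeo (Bx (fl θ)) Λ) (T : ConHomeo Λ Λ) (b : ℝ), 0 < b → b ≤ 1 →
    (∀ y ∈ Λ, ∀ j, j ≠ 2 → T.toFun y j = y j) →
    (∀ i, i ≠ 2 → ∀ k ∈ redge (up m₀ (D.nn l) α) (up m₀ (D.nn l) β) i,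
      eInt D.v ((D.nn l, k), i) (fun x => ENNReal.ofReal ‖lineDeriv ℝ h₀.toFun x (ev i) -
        cl (cmpD (fl θ) F x) (ev i)‖) ≤ ENNReal.ofReal (b / 2 ^ D.nn l)) →
    (∀ i, i ≠ 2 → ∀ k ∈ redge (up m₀ (D.nn l) α) (up m₀ (D.nn l) β) i,
      xE (h₀.trans T).toFun D.v ((D.nn l, k), i) ≤ XE θ D.v F b ((D.nn l, k), i) ∧
      eInt D.v ((D.nn l, k), i) (fun x => D.H x ^ (1 / p) + 1) ≤
        2 * (ENNReal.ofReal (1 / 2 ^ D.nn l) + XE θ D.v F b ((D.nn l, k), i))) ∧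
    ∑ i ∈ Finset.univ.erase (2 : Fin 3),
      ∑ k ∈ redge (up m₀ (D.nn l) α) (up m₀ (D.nn l) β) i, ENNReal.ofReal (1 / 2 ^ D.nn l) *
        (ENNReal.ofReal ((1 / 2 ^ D.nn l) ^ (1 - p)) * XE θ D.v F b ((D.nn l, k), i) ^ p) ≤
      ENNReal.ofReal (4 ^ p * (κ + δ₁ + 2 * b))

end Vale.Agent.P073.H235
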