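import Vale.Agent.P073.H235.PreM4
import Vale.Agent.P073.H235.PreM5
import Vale.Agent.P073.H235.PreM6
import Vale.Agent.P073.H235.PreParts

/-!
# P073, block A16, [PRE-FLAT]: the sums
-/

namespace Vale.Agent.P073.H235

open MeasureTheory Set Filter Topology Metric Vale.Agent.P073.St Vale.Agent.P073.AB
open Vale.Agent.P073.SQ (ev)
open Vale.Agent.P073.H73 (MinEdge segP onSeg ctr)
open Vale.Agent.P073.H194 (sInt Gen idx Rg up KR FlatOut gW cW refine)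
open Vale.Agent.P073.H471 (zt st)
open Vale.Agent.P073.H333 (tw)
open _root_.P073 (ConHomeo)
open _root_.P073.Net (len dyc dyo IsTile SizeFn)
open scoped ENNReal

section

variable {p δ : ℝ} {U Λ : Set V} {f : V → V} {G A : V → ℝ≥0∞} {v : V}
  {I : Set Idx} {ρ : V → ℝ} {cc : ℕ → (Fin 3 → ℤ) → V} {e : Idx → ℝ≥0∞} {τ : Idx → ℝ}
  {K : Set Idx} {S : Finset ((Idx × Fin 3) × Fin 3)} {δ₁ β K₀ : ℝ≥0∞} {B : Set Idx}
  {nf : Idx → ℕ} {nS : ℕ}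

/-- the sum over the cells which meet `X` -/
theorem eSum_bound (H : FlatOut p δ U Λ f G v I (zt ρ 0) (st ρ 0) (fun i => cc i.1.1 i.1.2) e τ K S
    δ₁ B nf nS) (hp : 1 ≤ p) (hU : IsOpen U) (hI : Part U v I) (hK₀ : K₀ ≠ ⊤)
    (hG : ∀ x ∈ U, A x ^ p + β ^ p ≤ G x) {X R : Set V}
    (hR : (⋃ q ∈ {q : Idx | q ∈ I ∧ (dyc v q.1 q.2 ∩ X).Nonempty}, dyc v q.1 q.2) ⊆ R)
    {Kc g e' : ℝ≥0∞} (hc : ∫⁻ x in R, tw ρ cc (f x) ^ p * G x ≤ Kc * ∫⁻ x in R, G x)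
    (hg : ∫⁻ x in R, G x ≤ g) (he : ∑' q, e q ≤ e') :
    eSum p v (refine v I ∅ B nf) (fun e' => eInt v e' (gW ρ cc f K₀ A β)) X ≤
      cW p K₀ * (36 * (Kc * g) + e') := by
  refine (H.eSum_gW hp hU hI hK₀ hG X).trans ?_
  gcongr
  calc _ ≤ ∫⁻ x in R, tw ρ cc (f x) ^ p * G x := lintegral_mono_set hR
    _ ≤ Kc * ∫⁻ x in R, G x := hc
    _ ≤ _ := by gcongr

/-- the sum over the squares in the bad squares -/
theorem bad_bound (H : FlatOut p δ U Λ f G v I (zt ρ 0) (st ρ 0) (fun i => cc i.1.1 i.1.2) e τ K S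
    δ₁ B nf nS) (hp : 1 ≤ p) (hK₀ : K₀ ≠ ⊤) (hG : ∀ x ∈ U, A x ^ p + β ^ p ≤ G x) {n₃ : ℕ}
    (hn : n₃ ≤ nS) {bad : Finset (Fin 3 → ℤ)}
    (hbad : ∀ k ∈ bad, squ v ((n₃, k), 2) ⊆ U ∧ ∀ j, j ≠ 2 → (((n₃, k), 2), j) ∈ S)
    {T : Finset (Fin 3 → ℤ)} {par : (Fin 3 → ℤ) → (Fin 3 → ℤ)}
    (hpar : ∀ k ∈ T, par k ∈ bad ∧ squ v ((nS, k), 2) ⊆ squ v ((n₃, par k), 2)) {Kc : ℝ≥0∞}
    (hc : ∑ k ∈ bad, sInt v ((n₃, k), 2) (fun x => tw ρ cc (f x) ^ p * G x) ≤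
      Kc * ∑ k ∈ bad, sInt v ((n₃, k), 2) G) :
    ∑ k ∈ T, ∑' e : {e : Idx × Fin 3 // EdgeOfSq e ((nS, k), 2)},
      ENNReal.ofReal (1 / 2 ^ nS) * (ENNReal.ofReal ((1 / 2 ^ nS) ^ (1 - p)) *
        eInt v e.1 (gW ρ cc f K₀ A β) ^ p) ≤
    4 * cW p K₀ * (Kc * (∑ k ∈ bad, sInt v ((n₃, k), 2) G) + bad.card * δ₁) := by
  classical
  have h1 := Finset.sum_fiberwise_of_maps_to (s := T) (t := bad) (g := par)
    (fun k hk => (hpar k hk).1) (fun k => ∑' e : {e : Idx × Fin 3 // EdgeOfSq e ((nS, k), 2)},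
      ENNReal.ofReal (1 / 2 ^ nS) * (ENNReal.ofReal ((1 / 2 ^ nS) ^ (1 - p)) *
        eInt v e.1 (gW ρ cc f K₀ A β) ^ p))
  rw [← h1]
  have h2 : ∀ k₃ ∈ bad, ∑ k ∈ T with par k = k₃,
      ∑' e : {e : Idx × Fin 3 // EdgeOfSq e ((nS, k), 2)},
      ENNReal.ofReal (1 / 2 ^ nS) * (ENNReal.ofReal ((1 / 2 ^ nS) ^ (1 - p)) *
        eInt v e.1 (gW ρ cc f K₀ A β) ^ p) ≤
      4 * cW p K₀ * (sInt v ((n₃, k₃), 2) (fun x => tw ρ cc (f x) ^ p * G x) + δ₁) := by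
    intro k₃ hk₃
    refine H.surf_gW hp hK₀ (s := ((n₃, k₃), 2)) (fun x hx => hG x ((hbad k₃ hk₃).1 hx))
      (fun j hj => (hbad k₃ hk₃).2 j hj) hn (T := {k ∈ T | par k = k₃}) fun k hk => ?_
    rw [Finset.mem_filter] at hk
    have h3 := (hpar k hk.1).2
    rwa [hk.2] at h3
  refine (Finset.sum_le_sum h2).trans ?_
  rw [← Finset.mul_sum, Finset.sum_add_distrib, Finset.sum_const, nsmul_eq_mul]
  gcongr

end

/-- the area of the squares in the bad squares -/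
theorem area_bound {n₃ nS : ℕ} {T R bad R₃ : Finset (Fin 3 → ℤ)}
    {par : (Fin 3 → ℤ) → (Fin 3 → ℤ)} (hT : T ⊆ R) (hb : bad ⊆ R₃) (hpar : ∀ k ∈ T, par k ∈ bad)
    (hcnt : ∀ k₃ ∈ R₃, ((R.filter fun k => par k = k₃).card : ℝ) / 4 ^ nS ≤ 1 / 4 ^ n₃) :
    (T.card : ℝ) / 4 ^ nS ≤ bad.card / 4 ^ n₃ := by
  classical
  have h1 : T.card = ∑ k₃ ∈ bad, (T.filter fun k => par k = k₃).card :=
    Finset.card_eq_sum_card_fiberwise fun k hk => hpar k hk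
  rw [h1]
  push_cast
  rw [Finset.sum_div]
  calc ∑ k₃ ∈ bad, ((T.filter fun k => par k = k₃).card : ℝ) / 4 ^ nS
      ≤ ∑ k₃ ∈ bad, 1 / 4 ^ n₃ := by
        refine Finset.sum_le_sum fun k₃ hk₃ => ?_
        refine le_trans ?_ (hcnt k₃ (hb hk₃))
        gcongr
    _ = _ := by rw [Finset.sum_const, nsmul_eq_mul]; ring

/-- the density where the weight is bounded -/
theorem gW_bound {ρ : V → ℝ} {cc : ℕ → (Fin 3 → ℤ) → V} {f : V → V} {A : V → ℝ≥0∞} {v : V}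
    {e : Idx × Fin 3} (h : ∀ x ∈ edge v e, tw ρ cc (f x) ≤ 33) :
    eInt v e (gW ρ cc f 8 A 1) ≤ 574992 * eInt v e (fun x => A x + 1) := by
  rw [← H333.eInt_const_mul v e (by norm_num)]
  refine H333.eInt_mono_on fun x hx => ?_
  unfold gW
  calc 2178 * 8 * (tw ρ cc (f x) * (A x + 1)) ≤ 2178 * 8 * (33 * (A x + 1)) := by
        gcongr
        exact h x hx
    _ = _ := by
        rw [← mul_assoc]
        norm_num

end Vale.Agent.P073.H235
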