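import Vale.Agent.P073.RED.FineOf
import Vale.Agent.P073.RED.Aff907
import Vale.Agent.P073.RED.Zero
import Vale.Agent.P073.RED.Leb
import Vale.Agent.P073.RED.Basis894
import Vale.Agent.P073.H880.Approx

/-!
# P073: block RED for every exponent `1 ≤ p`: the fine cells
-/

namespace Vale.Agent.P073.H235

open MeasureTheory Set Filter Topology Metric Vale.Agent.P073.St Vale.Agent.P073.RED
open Vale.Agent.P073.SQ (ev)
open Vale.Agent.P073.AB (cl)
open scoped ContDiff ENNReal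

variable {p : ℝ} {Ω Λ : Set V} {f : V → V} {F : V → Mat} {x : V} {B : V ≃L[ℝ] V} {t : ℝ}
  {g : V → V}

/-- finite energy of the diffeomorphism -/
theorem energy_ne_top_p (hp : 1 ≤ p) {f : V → V} {F : V → Mat}
    (hF : St.IsSobolev p Q0 f F)
    (hE : ∑ j, ∫⁻ y in Q0, ENNReal.ofReal (‖fderiv ℝ g y (ev j) - cl (F y) (ev j)‖ ^ p) ≠ ⊤)
    (j : Fin 3) : ∫⁻ y in Q0, ENNReal.ofReal (‖fderiv ℝ g y (ev j)‖ ^ p) ≠ ⊤ := by
  have hm : AEMeasurable (fun y => ENNReal.ofReal (‖cl (F y) (ev j)‖ ^ p))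
      (volume.restrict Q0) :=
    (aemeasurable_indicator_iff open_Q0.measurableSet).1
      (PK.aemeasurable_dE open_Q0.measurableSet hF (ev j))
  have hfin : ∫⁻ y in Q0, ENNReal.ofReal (‖cl (F y) (ev j)‖ ^ p) ≠ ⊤ := by
    have := PK.lintegral_dE_ne_top hp open_Q0.measurableSet hF j
    rwa [lintegral_indicator open_Q0.measurableSet] at this
  have h1 : ∫⁻ y in Q0, ENNReal.ofReal (‖fderiv ℝ g y (ev j)‖ ^ p) ≤
      2 ^ (p - 1) * ((∫⁻ y in Q0,
          ENNReal.ofReal (‖fderiv ℝ g y (ev j) - cl (F y) (ev j)‖ ^ p)) +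
        ∫⁻ y in Q0, ENNReal.ofReal (‖cl (F y) (ev j)‖ ^ p)) := by
    rw [← lintegral_add_right' _ hm, ← lintegral_const_mul' _ _ H880.two_rpow_ne_top]
    refine lintegral_mono fun y => ?_
    have := H880.add_rpow_le hp (fderiv ℝ g y (ev j) - cl (F y) (ev j)) (cl (F y) (ev j))
    rwa [sub_add_cancel] at this
  refine ne_top_of_le_ne_top (ENNReal.mul_ne_top H880.two_rpow_ne_top (ENNReal.add_ne_top.2
    ⟨?_, hfin⟩)) h1
  exact ENNReal.sum_ne_top.1 hE j (Finset.mem_univ j)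

theorem sobolev_pert_p (hAff : SpecAff) (hp : 1 ≤ p) (hΩ : IsOpen Ω)
    (hF : St.IsSobolev p Ω f F) (h : box x B ⊆ Ω) {Λ' : Set V} (hΛ' : St.IsBoundedDomain Λ')
    (hg : St.IsDiffeo Q0 Λ' g)
    (hE : ∑ j, ∫⁻ y in Q0, ENNReal.ofReal (‖fderiv ℝ g y (ev j) -
      cl (rescD F x B t y) (ev j)‖ ^ p) ≠ ⊤) :
    St.IsSobolev p Q0 (fun y => g y - resc f x B t y) (fun y => jac g y - rescD F x B t y) := by
  have h1 := sobolev_resc (t := t) hAff hp hΩ hF h
  obtain ⟨D, hD0, hD⟩ := AB.norm_bound_of_domain hΛ'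
  have hv : volume Q0 ≠ ⊤ := by rw [volume_Q0]; exact ENNReal.one_ne_top
  have h2 : St.IsSobolev p Q0 g (jac g) := AB.isSobolev_of_smooth hp open_Q0 hv
    (SQ.isDiffeo_cd hg) (D := D) (fun y hy => hD _ (SQ.isDiffeo_mapsTo hg hy))
    (energy_ne_top_p hp h1 hE)
  exact isSobolev_sub hp open_Q0 hv h2 h1

/-- rank one with kernel spanned by `ev 1`, `ev 2` -/
def Rk1 (L : V →L[ℝ] V) : Prop := L (ev 1) = 0 ∧ L (ev 2) = 0 ∧ L (ev 0) ≠ 0

/-- rank two with kernel spanned by `ev 2` -/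
def Rk2 (L : V →L[ℝ] V) : Prop :=
  L (ev 2) = 0 ∧ ∀ s t : ℝ, s • L (ev 0) + t • L (ev 1) = 0 → s = 0 ∧ t = 0

/-- fine good cells, every exponent -/
theorem fine_p {Ω Λ : Set V} {f : V → V} {F : V → Mat} (hp : 1 ≤ p)
    (hL1 : ∀ L, Rk1 L → Loc p L) (hL2 : ∀ L, Rk2 L → Loc p L)
    (hΩ : St.IsBoundedDomain Ω) (hΛ : St.IsBoundedDomain Λ) (hf : St.IsHomeo Ω Λ f)
    (hF : St.IsSobolev p Ω f F) {ε : ℝ} (hε : 0 < ε) :
    ∀ᵐ x ∂(volume : Measure V), x ∈ Ω → LowRank (F x) → ∃ r₀ > 0, ∀ r, 0 < r → r < r₀ →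
      ∃ (K : Set V) (u : V → V) (U : V → Mat), Cell p Ω f F ε K u U ∧ K ⊆ closedBall x (4 * r) ∧
        (interior K).Nonempty ∧ ENNReal.ofReal (r ^ 3) ≤ volume K := by
  have hAff := specAff
  have hZero := specZero
  have hLeb := specLeb
  have hBasis := specBasis
  filter_upwards [hLeb p Ω f F hp hΩ hF] with x hx hxΩ hlow
  obtain ⟨B₀, hB₀, hdet, hrank⟩ := hBasis (F x) hlow
  set L : V →L[ℝ] V := (cl (F x)).comp (B₀ : V →L[ℝ] V) with hL
  have hLoc : Loc p L := by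
    rcases hrank with ⟨h1, h2, h0⟩ | ⟨h2, h⟩
    · exact hL1 L ⟨h1, h2, h0⟩
    · exact hL2 L ⟨h2, h⟩
  obtain ⟨M, hM0, hM⟩ : ∃ M : ℝ, 0 ≤ M ∧ ∀ j k, |B₀.symm (ev j) k| ≤ M := by
    refine ⟨∑ j, ∑ k, |B₀.symm (ev j) k|, by positivity, fun j k => ?_⟩
    calc |B₀.symm (ev j) k| ≤ ∑ k, |B₀.symm (ev j) k| :=
          Finset.single_le_sum (f := fun k => |B₀.symm (ev j) k|) (fun _ _ => abs_nonneg _)
            (Finset.mem_univ k)
      _ ≤ _ := Finset.single_le_sum (f := fun j => ∑ k, |B₀.symm (ev j) k|)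
            (fun _ _ => Finset.sum_nonneg fun _ _ => abs_nonneg _) (Finset.mem_univ j)
  set A : ℝ := 3 * (M ^ p * 3 ^ p) with hA
  have hA0 : 0 ≤ A := by positivity
  obtain ⟨κ, hκ, hloc⟩ := hLoc (ε / (A + 1)) (by positivity)
  have e1 := (hx hxΩ B₀).eventually_lt_const (u := ENNReal.ofReal κ) (by simpa using hκ)
  obtain ⟨r₁, hr₁, h1⟩ := mem_nhdsGT_iff_exists_Ioo_subset.1 e1
  have hfc : ContinuousOn f Ω := by
    obtain ⟨_, -, hc, -⟩ := hf; exact hc
  have hfx : ContinuousAt f x := hfc.continuousAt (hΩ.1.mem_nhds hxΩ)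
  obtain ⟨δ, hδ, h2⟩ : ∃ δ > 0, ∀ z, dist z x < δ → z ∈ Ω ∧ dist (f z) (f x) < ε / 2 := by
    have h3 : ∀ᶠ z in 𝓝 x, z ∈ Ω ∧ dist (f z) (f x) < ε / 2 :=
      (hΩ.1.eventually_mem hxΩ).and (hfx.eventually (ball_mem_nhds _ (by positivity)))
    obtain ⟨δ, hδ, h4⟩ := Metric.eventually_nhds_iff.1 h3
    exact ⟨δ, hδ, fun z hz => h4 hz⟩
  refine ⟨min r₁ (δ / 4), lt_min hr₁ (by positivity), fun r hr hr' => ?_⟩
  have hr1 : r < r₁ := hr'.trans_le (min_le_left _ _)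
  have hr2 : 4 * r < δ := by
    have := hr'.trans_le (min_le_right _ _); linarith
  set B := sc r hr.ne' B₀ with hB
  have hbb : box x B ⊆ closedBall x (3 * r) := box_sub_ball hB₀ hr
  have hb : ∀ z ∈ box x B, z ∈ Ω ∧ dist (f z) (f x) < ε / 2 := fun z hz =>
    h2 z ((mem_closedBall.1 (hbb hz)).trans_lt (by linarith))
  have hbΩ : box x B ⊆ Ω := fun z hz => (hb z hz).1
  have hS := sobolev_resc (t := r) hAff hp hΩ.1 hF hbΩ
  have hI := isBoundedDomain_rescI hr hΛ hf hbΩ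
  have hκ' : ∑ j, ∫⁻ y in Q0, ENNReal.ofReal (‖cl (rescD F x B r y) (ev j) - L (ev j)‖ ^ p) ≤
      ENNReal.ofReal κ := by
    have h3 := h1 ⟨hr, hr1⟩
    rw [mem_ofPred_eq] at h3
    refine le_trans (le_of_eq ?_) h3.le
    refine Finset.sum_congr rfl fun j _ => ?_
    refine lintegral_congr fun y => ?_
    rw [cl_rescD, hB, sc_apply, sc_apply, map_smul, inv_smul_smul₀ hr.ne']
    rfl
  obtain ⟨g, hg, hgE, hgb⟩ := hloc (rescI f x B r) (resc f x B r) (rescD F x B r) hI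
    (isHomeo_resc hr hf hbΩ) (continuousOn_resc hfc hbΩ) hS hκ'
  have hgc := SQ.isDiffeo_cd hg
  have hP := sobolev_pert_p hAff hp hΩ.1 hF hbΩ hI hg (ne_top_of_le_ne_top
    ENNReal.ofReal_ne_top hgE)
  have hrc : ContinuousOn (resc f x B r) Q0 :=
    (continuousOn_resc hfc hbΩ).mono subset_closure
  obtain ⟨hz1, hz2⟩ := hZero p _ _ hp hP (hgc.continuousOn.sub hrc) hgb
  have hvol : volume (box x B) = ENNReal.ofReal (r ^ 3) := by
    rw [volume_box, hB, det_sc, abs_mul, hdet, mul_one, abs_of_pos (by positivity)]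
  refine ⟨box x B, bu f x B r g, bU F x B r g, ?_, ?_, ?_, ?_⟩
  · refine ⟨isCompact_box x B, hbΩ, ?_, ?_, ?_, ?_, ?_, ?_, ?_, frontier_box x B, ?_⟩
    · exact (hz1.comp (continuous_const.add B.symm.continuous)).const_smul r
    · intro z
      by_cases hz : z ∈ interior (box x B)
      · have h3 := (diffeo_bu hr hg)
        obtain ⟨_, ⟨h4, -⟩, -, -⟩ := h3
        obtain ⟨z', hz', h5⟩ := (h4 z hz).1
        simp only at h5
        have h6 : bu f x B r g z = f z' - f z := by rw [h5]; abel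
        have h7 := (hb z (interior_subset hz)).2
        have h8 := (hb z' (interior_subset hz')).2
        rw [h6, ← dist_eq_norm]
        have h9 := dist_triangle_right (f z') (f z) (f x)
        linarith
      · rw [bu_off hz, norm_zero]; exact hε.le
    · exact fun z hz => ⟨bu_off hz, bU_off hz⟩
    · have h3 := hAff p univ _ _ B.symm (B.symm (-x)) r hp isOpen_univ hz2
      rw [preimage_univ] at h3
      exact h3
    · exact diffeo_bu hr hg
    · exact fun z hz => der_bu hr hgc hz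
    · refine (small_bU hp hS hgc hM0 (fun j k => ?_) hgE).trans ?_
      · rw [hB, sc_symm_apply, Pi.smul_apply, smul_eq_mul, mul_inv_cancel_left₀ hr.ne']
        exact hM j k
      · rw [volume_box, mul_comm]
        gcongr
        have h3 : (3 : ℝ≥0∞) = ENNReal.ofReal 3 := by simp
        rw [h3, ← ENNReal.ofReal_mul (by positivity), ← ENNReal.ofReal_mul (by positivity)]
        refine ENNReal.ofReal_le_ofReal ?_
        rw [← mul_assoc, ← hA, mul_div_assoc', div_le_iff₀ (by positivity)]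
        nlinarith
    · rw [hvol]
      have h3 := diam_box_le hB₀ hr (x := x)
      have h4 : (100 : ℝ≥0∞) = ENNReal.ofReal 100 := by simp
      rw [h4, ← ENNReal.ofReal_mul (by norm_num)]
      refine ENNReal.ofReal_le_ofReal ?_
      calc diam (box x B) ^ 3 ≤ (3 * r) ^ 3 := pow_le_pow_left₀ diam_nonneg h3 3
        _ = 27 * r ^ 3 := by ring
        _ ≤ 100 * r ^ 3 := by
          have : 0 < r ^ 3 := by positivity
          linarith
  · exact hbb.trans (closedBall_subset_closedBall (by linarith))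
  · rw [interior_box]; exact Q0_nonempty.image _
  · exact hvol.ge

end Vale.Agent.P073.H235
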