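import Vale.Agent.P073.H235.FlatSpec
import Vale.Agent.P073.H73.Final3C
import Vale.Agent.P073.H235.RedP1

/-!
# P073: flat boxes; the output for conical homeomorphisms, `1 ≤ p < 3` (statements)

The producers of `SpecFlat`, `SpecBeam` (for `p < 3`) deliver conical homeomorphisms with small
energies on the faces of the cells (`ConFlat`, `ConBeam`).  Smoothing, the squeeze theorem
`specSQ3` and a small shift do the rest.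
-/

namespace Vale.Agent.P073.H235

open MeasureTheory Set Filter Topology Metric Vale.Agent.P073.LOC
open Vale.Agent.P073.St (V Mat)
open Vale.Agent.P073.SQ (ev cube Cells)
open Vale.Agent.P073.AB (cl)
open Vale.Agent.P073.H73 (enL)
open _root_.P073 (ConHomeo)
open scoped ContDiff ENNReal

/-- `W` is a decomposition of the open box with sides `a` (no protected set, all squares
controlled), small cells at the boundary, and no open cell meets the plane `x k = c`. -/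
structure Dec {a : V} (W : Cells (Bx a) ∅) (k : Fin 3) (c : ℝ) : Prop where
  ctrl : ∀ q, q ∈ W.ctrl
  small : ∀ δ > 0, {i | δ ≤ W.ρ i}.Finite
  plane : ∀ i, ∀ x : V, x k = c → ¬ ∀ l, |x l - W.c i l| < W.ρ i

/-- energy of the conical map `h` on the faces of the cells which meet `S` -/
noncomputable def enS {a : V} (W : Cells (Bx a) ∅) (p : ℝ) (h : V → V) (S : Set V) : ℝ≥0∞ :=
  ∑' i : {i : W.ι // (cube (W.c i) (W.ρ i) ∩ S).Nonempty}, enL W p h i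

/-- rank two: the conical output; the middle plane is `x 2 = c`, `|c - θ| ≤ τ` -/
def ConFlat (p C θ ν τ ε : ℝ) (L : V →L[ℝ] V) (Λ : Set V) (f : V → V) : Prop :=
  ∃ (c : ℝ) (W : Cells (Bx (fl θ)) ∅) (h : ConHomeo (Bx (fl θ)) Λ),
    |c - θ| ≤ τ ∧ Dec W 2 c ∧ BdClose (Bx (fl θ)) (cmp (fl θ) f) h.toFun ∧
    enS W p h.toFun univ ≤ ENNReal.ofReal (C * θ) ∧
    enS W p h.toFun (Fr (fl θ) (2 * ν) {0, 1}) ≤ ENNReal.ofReal (C * ν * θ) ∧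
    ∑ j ∈ Finset.univ.erase (2 : Fin 3), ∫⁻ x in Bx 1 ∩ Co 1 (ν / 2) {0, 1},
      ENNReal.ofReal (‖lineDeriv ℝ h.toFun (Function.update x 2 c) (ev j) - L (ev j)‖ ^ p) ≤
        ENNReal.ofReal ε

/-- **producer, rank two** -/
def SpecConFlat (p : ℝ) (L : V →L[ℝ] V) : Prop :=
  ∃ C > 0, ∀ ν, 0 < ν → ν ≤ 1 / 4 → ∃ θ₀ > 0, ∀ θ, 0 < θ → θ ≤ θ₀ → ∀ τ > 0, ∀ ε > 0, ∃ κ > 0,
    ∀ (Λ : Set V) (f : V → V) (F : V → Mat), Near p κ L Λ f F → ConFlat p C θ ν τ ε L Λ f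

/-- rank one: the conical output; the middle plane is `x 1 = c₁`, the middle line is
`x 1 = c₁`, `x 2 = c₂` -/
def ConBeam (p C θ₁ θ₂ ν₁ ν τ ε : ℝ) (L : V →L[ℝ] V) (Λ : Set V) (f : V → V) : Prop :=
  ∃ (c₁ c₂ : ℝ) (W : Cells (Bx (bm θ₁ θ₂)) ∅) (h : ConHomeo (Bx (bm θ₁ θ₂)) Λ),
    |c₁ - θ₁| ≤ τ ∧ |c₂ - θ₂| ≤ τ ∧ Dec W 1 c₁ ∧
    BdClose (Bx (bm θ₁ θ₂)) (cmp (bm θ₁ θ₂) f) h.toFun ∧
    enS W p h.toFun univ ≤ ENNReal.ofReal (C * θ₁ * θ₂) ∧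
    enS W p h.toFun (Fr (bm θ₁ θ₂) (2 * ν₁) {0, 2}) ≤ ENNReal.ofReal (C * ν₁ * θ₁ * θ₂) ∧
    -- the plane `x 1 = c₁`
    ∑ j ∈ Finset.univ.erase (1 : Fin 3), ∫⁻ x in Bx (fl θ₂),
      ENNReal.ofReal (‖lineDeriv ℝ h.toFun (Function.update x 1 c₁) (ev j)‖ ^ p) ≤
        ENNReal.ofReal (C * θ₂) ∧
    ∑ j ∈ Finset.univ.erase (1 : Fin 3), ∫⁻ x in Bx (fl θ₂) ∩ Fr (fl θ₂) (2 * ν) {0},
      ENNReal.ofReal (‖lineDeriv ℝ h.toFun (Function.update x 1 c₁) (ev j)‖ ^ p) ≤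
        ENNReal.ofReal (C * ν * θ₂) ∧
    -- the line `x 1 = c₁`, `x 2 = c₂`
    ∫⁻ x in Bx 1 ∩ Co 1 (ν / 2) {0},
      ENNReal.ofReal (‖lineDeriv ℝ h.toFun (Function.update (Function.update x 1 c₁) 2 c₂) (ev 0) -
        L (ev 0)‖ ^ p) ≤ ENNReal.ofReal ε

/-- **producer, rank one** -/
def SpecConBeam (p : ℝ) (L : V →L[ℝ] V) : Prop :=
  ∃ C > 0, ∀ ν, 0 < ν → ν ≤ 1 / 4 → ∀ θ₂, 0 < θ₂ → θ₂ ≤ 1 / 4 → ∀ ν₁, 0 < ν₁ → ν₁ ≤ ν / 4 →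
    ∃ θ₀ > 0, ∀ θ₁, 0 < θ₁ → θ₁ ≤ θ₀ → ∀ τ > 0, ∀ ε > 0, ∃ κ > 0,
    ∀ (Λ : Set V) (f : V → V) (F : V → Mat), Near p κ L Λ f F →
      ConBeam p C θ₁ θ₂ ν₁ ν τ ε L Λ f

/-! ### The pieces -/

/-- **(C1)** rank two, smoothing and squeeze: the same for a diffeomorphism, same plane -/
def SpecC1 : Prop :=
  ∀ p : ℝ, 1 ≤ p → p < 3 → ∃ D > 0, ∀ (C θ ν τ ε : ℝ) (L : V →L[ℝ] V) (Λ : Set V) (f : V → V),
    0 < C → 0 < θ → 0 < ν → ν ≤ 1 / 4 → τ < θ → 0 < ε → St.IsBoundedDomain Λ →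
    ContinuousOn f (closure Q1) → ConFlat p C θ ν τ ε L Λ f →
    ∃ (c : ℝ) (g : V → V), |c - θ| ≤ τ ∧ St.IsDiffeo (Bx (fl θ)) Λ g ∧
      BdClose (Bx (fl θ)) (cmp (fl θ) f) g ∧
      En p g Finset.univ (Bx (fl θ)) ≤ ENNReal.ofReal (D * C * θ) ∧
      En p g Finset.univ (Bx (fl θ) ∩ Fr (fl θ) (2 * ν) {0, 1}) ≤ ENNReal.ofReal (D * C * ν * θ) ∧
      ∑ j ∈ Finset.univ.erase (2 : Fin 3), ∫⁻ x in Bx 1 ∩ Co 1 (ν / 2) {0, 1},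
        ENNReal.ofReal (‖fderiv ℝ g (Function.update x 2 c) (ev j) - L (ev j)‖ ^ p) ≤
          ENNReal.ofReal (D * ε)

/-- **(C2)** rank one, smoothing and squeeze -/
def SpecC2 : Prop :=
  ∀ p : ℝ, 1 ≤ p → p < 3 → ∃ D > 0, ∀ (C θ₁ θ₂ ν₁ ν τ ε : ℝ) (L : V →L[ℝ] V) (Λ : Set V)
    (f : V → V), 0 < C → 0 < θ₁ → 0 < θ₂ → 0 < ν₁ → ν₁ ≤ ν → ν ≤ 1 / 4 → τ < θ₁ → τ < θ₂ →
    0 < ε → St.IsBoundedDomain Λ →
    ContinuousOn f (closure Q1) → ConBeam p C θ₁ θ₂ ν₁ ν τ ε L Λ f →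
    ∃ (c₁ c₂ : ℝ) (g : V → V), |c₁ - θ₁| ≤ τ ∧ |c₂ - θ₂| ≤ τ ∧
      St.IsDiffeo (Bx (bm θ₁ θ₂)) Λ g ∧ BdClose (Bx (bm θ₁ θ₂)) (cmp (bm θ₁ θ₂) f) g ∧
      En p g Finset.univ (Bx (bm θ₁ θ₂)) ≤ ENNReal.ofReal (D * C * θ₁ * θ₂) ∧
      En p g Finset.univ (Bx (bm θ₁ θ₂) ∩ Fr (bm θ₁ θ₂) (2 * ν₁) {0, 2}) ≤
        ENNReal.ofReal (D * C * ν₁ * θ₁ * θ₂) ∧
      En2 p g (Finset.univ.erase 1) 1 c₁ (Bx (fl θ₂)) ≤ ENNReal.ofReal (D * C * θ₂) ∧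
      En2 p g (Finset.univ.erase 1) 1 c₁ (Bx (fl θ₂) ∩ Fr (fl θ₂) (2 * ν) {0}) ≤
        ENNReal.ofReal (D * C * ν * θ₂) ∧
      ∫⁻ x in Bx 1 ∩ Co 1 (ν / 2) {0},
        ENNReal.ofReal (‖fderiv ℝ g (Function.update (Function.update x 1 c₁) 2 c₂) (ev 0) -
          L (ev 0)‖ ^ p) ≤ ENNReal.ofReal (D * ε)

/-- **(C3)** small shifts: a diffeomorphism of the box which is the translation by `w` on the
compact set `K₀`, the identity off a compact set, and close to the identity -/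
def SpecC3 : Prop :=
  ∀ (a : V), (∀ i, 0 < a i) → ∀ K₀ ⊆ Bx a, IsCompact K₀ → ∃ K ⊆ Bx a, IsCompact K ∧ ∃ τ₀ > 0,
    ∀ w : V, ‖w‖ ≤ τ₀ → ∃ ψ : V → V, St.IsDiffeo (Bx a) (Bx a) ψ ∧
      (∃ U, IsOpen U ∧ K₀ ⊆ U ∧ ∀ x ∈ U, ψ x = x + w) ∧ (∀ x ∉ K, ψ x = x) ∧
      (∀ x, ‖ψ x - x‖ ≤ ‖w‖) ∧
      ∀ (p : ℝ) (g : V → V) (S : Set V), 1 ≤ p → MeasurableSet S → S ⊆ Bx a →
        ContDiffOn ℝ ∞ g (Bx a) →
        En p (fun x => g (ψ x)) Finset.univ S ≤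
          ENNReal.ofReal (8 ^ p * 8) * En p g Finset.univ (ψ '' S)

/-- weaker form of `Beam`: the plane is controlled only over the lateral compact core of relative
size `ν₁` -/
structure Beam2 (p C θ₁ θ₂ ν₁ ν ε : ℝ) (L : V →L[ℝ] V) (Λ : Set V) (f g : V → V) : Prop where
  diffeo : St.IsDiffeo (Bx (bm θ₁ θ₂)) Λ g
  close : BdClose (Bx (bm θ₁ θ₂)) (cmp (bm θ₁ θ₂) f) g
  bulk : En p g Finset.univ (Bx (bm θ₁ θ₂)) ≤ ENNReal.ofReal (C * θ₁ * θ₂)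
  frame : En p g Finset.univ (Bx (bm θ₁ θ₂) ∩ Fr (bm θ₁ θ₂) ν₁ {0, 2}) ≤
    ENNReal.ofReal (C * ν₁ * θ₁ * θ₂)
  /-- the middle plane `x 1 = θ₁` -/
  pl : En2 p g (Finset.univ.erase 1) 1 θ₁ (Bx (fl θ₂) ∩ Co (fl θ₂) ν₁ {0, 2}) ≤
    ENNReal.ofReal (C * θ₂)
  plFrame : En2 p g (Finset.univ.erase 1) 1 θ₁
    (Bx (fl θ₂) ∩ Co (fl θ₂) ν₁ {0, 2} ∩ Fr (fl θ₂) ν {0}) ≤ ENNReal.ofReal (C * ν * θ₂)
  /-- the middle line `x 1 = θ₁`, `x 2 = θ₂` -/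
  line : ∫⁻ x in Bx 1 ∩ Co 1 ν {0},
    ENNReal.ofReal (‖fderiv ℝ g (Function.update (Function.update x 1 θ₁) 2 θ₂) (ev 0) -
      L (ev 0)‖ ^ p) ≤ ENNReal.ofReal ε

/-- the weak beam output exists -/
def SpecBeam2 (p : ℝ) (L : V →L[ℝ] V) : Prop :=
  ∃ C > 0, ∀ ν, 0 < ν → ν ≤ 1 / 4 → ∀ θ₂, 0 < θ₂ → θ₂ ≤ 1 / 4 → ∀ ν₁, 0 < ν₁ → ν₁ ≤ ν / 4 →
    ∃ θ₀ > 0, ∀ θ₁, 0 < θ₁ → θ₁ ≤ θ₀ → ∀ ε > 0, ∃ κ > 0,
    ∀ (Λ : Set V) (f : V → V) (F : V → Mat), Near p κ L Λ f F →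
      ∃ g, Beam2 p C θ₁ θ₂ ν₁ ν ε L Λ f g

/-- **(C4)** as `SpecUncollapse1` (helper761, U8), for the weak form -/
def SpecC4 : Prop :=
  ∀ (p : ℝ) (L : V →L[ℝ] V), 1 ≤ p → L (ev 1) = 0 → L (ev 2) = 0 → SpecBeam2 p L → SpecFlat p L

/-- **(C5)** assembly, rank two -/
def SpecC5 : Prop :=
  ∀ (p : ℝ) (L : V →L[ℝ] V), 1 ≤ p → p < 3 → SpecC1 → SpecC3 → SpecConFlat p L → SpecFlat p L

/-- **(C6)** assembly, rank one -/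
def SpecC6 : Prop :=
  ∀ (p : ℝ) (L : V →L[ℝ] V), 1 ≤ p → p < 3 → SpecC2 → SpecC3 → SpecConBeam p L → SpecBeam2 p L

/-! ### Normal form of the linear map -/

/-- `diag (1, 1, 0)` -/
noncomputable def P2 : V →L[ℝ] V :=
  (ContinuousLinearMap.id ℝ V) - (ContinuousLinearMap.proj (R := ℝ) (φ := fun _ : Fin 3 => ℝ)
    2).smulRight (ev 2)

/-- `diag (1, 0, 0)` -/
noncomputable def P1 : V →L[ℝ] V :=
  (ContinuousLinearMap.proj (R := ℝ) (φ := fun _ : Fin 3 => ℝ) 0).smulRight (ev 0)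

/-- **(C7)** linear change of the target -/
def SpecC7 : Prop :=
  ∀ (p : ℝ) (L : V →L[ℝ] V) (O : V ≃L[ℝ] V), 1 ≤ p → LocThm p (O.toContinuousLinearMap ∘L L) →
    LocThm p L

/-- **(C8)** the two normal forms suffice -/
def SpecC8 : Prop :=
  ∀ p : ℝ, 1 ≤ p → (LocThm p P1 → ∀ L, Rk1 L → RED.Loc p L) ∧
    (LocThm p P2 → ∀ L, Rk2 L → RED.Loc p L)

end Vale.Agent.P073.H235
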