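import Vale.Agent.P073.H73.PreSpec
import Vale.Agent.P073.H73.K2S
import Vale.Agent.P073.H235.ConSpec
import Vale.Agent.P073.AB.Part86

/-!
# P073, block A16: the face theorem on a dyadic partition without protected cells (statements)

`U` is a bounded domain (a flat box or a thin beam), `fc` the map that has to be approximated.

* `BoxData`: grid of the target, centres, partition of `U`, conical homeomorphism, weighted lengths;
* `BoxOut`: the output of the sharp face theorem `K2AS`, in dyadic form;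
* `SpecBoxPost`: `K2AS` gives `BoxOut`;
* `SpecBoxSum`: the energies of the cells.
-/

namespace Vale.Agent.P073.H235

open MeasureTheory Set Filter Topology Metric Vale.Agent.P073.St Vale.Agent.P073.AB
open Vale.Agent.P073.SQ (ev Cells cube)
open Vale.Agent.P073.AB.P86 (sc)
open Vale.Agent.P073.LOC (BdClose)
open Vale.Agent.P073.H73 (MinEdge segP onSeg ctr WLe Mesh Adapted faceL enL K2AS)
open Vale.Agent.P073.H239 (Deep faceI)
open _root_.P073 (ConHomeo)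
open _root_.P073.Net (len dyc dyo IsTile SizeFn)
open scoped ENNReal

/-- the sum of `2^(-i) 2^(-s) 2^(-(1-p) e) ℓ(e) ^ p` over the cells `i` of `I` which meet `S`, the
minimal squares `s` in `i`, and the minimal edges `e` in `s` -/
noncomputable def eSum (p : ℝ) (v : V) (I : Set Idx) (ℓ : Idx × Fin 3 → ℝ≥0∞) (S : Set V) :
    ℝ≥0∞ :=
  ∑' i : {i : Idx // i ∈ I ∧ (dyc v i.1 i.2 ∩ S).Nonempty},
    ∑' s : {s : Idx × Fin 3 // MinSq v I s ∧ squ v s ⊆ dyc v i.1.1 i.1.2},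
      ∑' e : {e : Idx × Fin 3 // MinEdge v I e ∧ edge v e ⊆ squ v s.1},
        ENNReal.ofReal (1 / 2 ^ i.1.1 * (1 / 2 ^ s.1.1.1)) *
          (ENNReal.ofReal ((1 / 2 ^ e.1.1.1) ^ (1 - p)) * ℓ e.1 ^ p)

/-- **The data** for the domain `U`, the target `Λ`, the map `fc`. `δ`: from the face theorem. -/
structure BoxData (δ : ℝ) (U Λ : Set V) (fc : V → V) where
  /-- origin of the domain grid -/
  v : V
  /-- size of the tiles -/
  ρ : V → ℝ
  size : SizeFn Λ ρ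
  /-- centres -/
  c : ℕ → (Fin 3 → ℤ) → V
  cmem : ∀ m z, IsTile ρ 0 m z → ‖c m z - ctr 0 m z‖ ≤ 1 / 4 / 2 ^ m
  /-- domain partition -/
  I : Set Idx
  part : Part U v I
  /-- the conical homeomorphism -/
  h : ConHomeo U Λ
  bd : BdClose U fc h.toFun
  /-- the minimal squares are small, relative to the centres -/
  cond : ∀ s, MinSq v I s → ∀ x ∈ squ v s, ∀ m z, IsTile ρ 0 m z → h.toFun x ∈ dyc 0 m z →
    h.toFun x ≠ c m z ∧ ∀ y ∈ squ v s, ‖h.toFun x - h.toFun y‖ ≤ δ * ‖h.toFun x - c m z‖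
  /-- weighted lengths of the minimal edges -/
  ℓ : Idx × Fin 3 → ℝ≥0∞
  len : ∀ e, MinEdge v I e → ∃ W, WLe 0 ρ c h.toFun (segP v e) W ∧
    ENNReal.ofReal W * len (onSeg h.toFun (segP v e)) (Icc 0 1) ≤ ℓ e

/-- the squares which meet a square of `Y` -/
def meetY (v : V) (Y : Set (Idx × Fin 3)) (s : Set V) : Prop :=
  ∃ s' ∈ Y, (s ∩ squ v s').Nonempty

open Classical in
/-- the output of the face theorem, in dyadic form; `Y`: sharp squares, `β`: arbitrary small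
numbers -/
structure BoxOut {δ : ℝ} {U Λ : Set V} {fc : V → V} (P : BoxData δ U Λ fc) (p D μ D' r c : ℝ)
    (Y : Set (Idx × Fin 3)) (β : Idx × Fin 3 → ℝ) (g : ConHomeo U Λ) : Prop where
  bd : BdClose U fc g.toFun
  close : ∀ s, MinSq P.v P.I s → ∀ x ∈ squ P.v s, ∀ m z, IsTile P.ρ 0 m z →
    P.h.toFun x ∈ dyc 0 m z → ‖g.toFun x - P.h.toFun x‖ ≤ D / 2 ^ m
  energy : ∀ s, MinSq P.v P.I s → faceL p g.toFun (sc P.v s) s.2 (1 / 2 / 2 ^ s.1.1) ≤
    ENNReal.ofReal ((if meetY P.v Y (squ P.v s) then D' else D) * (1 / 2 ^ s.1.1) ^ 2) *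
      ∑' e : {e : Idx × Fin 3 // MinEdge P.v P.I e ∧ edge P.v e ⊆ squ P.v s},
        ENNReal.ofReal ((1 / 2 ^ e.1.1.1) ^ (1 - p)) *
          (P.ℓ e.1 + ENNReal.ofReal (β s)) ^ p
  /-- speed on the edges -/
  elip : ∀ s, MinSq P.v P.I s → ∀ e, MinEdge P.v P.I e → edge P.v e ⊆ squ P.v s → P.ℓ e ≠ ⊤ →
    ∀ x ∈ edge P.v e, ∀ y ∈ edge P.v e, ‖g.toFun x - g.toFun y‖ ≤
      (if meetY P.v Y (squ P.v s) then D' else D) *
        (((P.ℓ e).toReal + β e) * 2 ^ e.1.1) * ‖x - y‖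
  /-- sharp edges -/
  tv : ∀ e, MinEdge P.v P.I e → ∀ A : Finset (Fin 3), A.Nonempty → A ≠ Finset.univ →
    ∀ m z, Deep c δ 0 P.ρ univ A m z (P.h.toFun '' edge P.v e) →
    H239.tv g.toFun (segP P.v e) Finset.univ ≤
      ENNReal.ofReal (1 + c) * H239.tv P.h.toFun (segP P.v e) A + ENNReal.ofReal (β e)
  /-- sharp faces -/
  face : ∀ s ∈ Y, MinSq P.v P.I s → ∀ m z,
    Deep c δ 0 P.ρ univ (Finset.univ.erase s.2) m z (P.h.toFun '' squ P.v s) →
    (∀ e : Idx × Fin 3, EdgeOfSq e s → MinEdge P.v P.I e ∧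
      (1 - r) / 2 ^ s.1.1 ≤ g.toFun (segP P.v e).2 e.2 - g.toFun (segP P.v e).1 e.2 ∧
      H239.tv g.toFun (segP P.v e) Finset.univ ≤ ENNReal.ofReal ((1 + r) / 2 ^ s.1.1) ∧
      H239.tv P.h.toFun (segP P.v e) (Finset.univ.erase s.2) ≤
        ENNReal.ofReal ((1 + r) / 2 ^ s.1.1)) →
    faceI p g.toFun (sc P.v s) s.2 (1 / 2 / 2 ^ s.1.1) ≤
      ENNReal.ofReal ((μ + β s) * (1 / 2 ^ s.1.1) ^ 3)

/-- **[BOX-POST]** from the mesh language to the dyadic language (cut mesh without protected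
cells). -/
def SpecBoxPost (p : ℝ) : Prop :=
  K2AS p → ∃ D : ℝ, 1 ≤ D ∧ ∀ μ > 0, ∃ D' ≥ D, ∃ r > 0, r ≤ 1 ∧ ∀ c, 0 < c → c < 1 / 4 → ∃ δ > 0, δ ≤ c ∧
    ∀ (U Λ : Set V) (fc : V → V), St.IsBoundedDomain U → St.IsBoundedDomain Λ →
    ContinuousOn fc (closure U) →
    ∀ (P : BoxData δ U Λ fc) (Y : Set (Idx × Fin 3)) (β : Idx × Fin 3 → ℝ), (∀ s, 0 < β s) →
    ∃ g : ConHomeo U Λ, BoxOut P p D μ D' r c Y β g

/-- **[BOX-SUM]** the cubes of the partition `I` as cells, and the energies of the cells -/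
def SpecBoxSum : Prop :=
  ∀ p : ℝ, 1 ≤ p → ∃ K > 0, ∀ (a : V) (Λ : Set V) (fc : V → V) (δ : ℝ), (∀ i, 0 < a i) →
    St.IsBoundedDomain Λ → ∀ (P : BoxData δ (Bx a) Λ fc),
    ∃ W : Cells (Bx a) ∅, (∀ (k : Fin 3) (x₀ : ℝ),
        (∀ q ∈ P.I, ∀ x : V, x k = x₀ → x ∉ dyo P.v q.1 q.2) → Dec W k x₀) ∧
      ∀ t > 0, ∃ β : Idx × Fin 3 → ℝ, (∀ s, 0 < β s) ∧
        ∀ (D μ D' r c : ℝ) (Y : Set (Idx × Fin 3)) (g : ConHomeo (Bx a) Λ)
          (β' : Idx × Fin 3 → ℝ), 1 ≤ D → D ≤ D' → (∀ s, β' s ≤ β s / D') →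
          BoxOut P p D μ D' r c Y β' g → ∀ S : Set V,
          enS W p g.toFun S ≤ ENNReal.ofReal (K * D) * eSum p P.v P.I P.ℓ S +
            ENNReal.ofReal (K * D') * eSum p P.v P.I P.ℓ (⋃ s ∈ Y, squ P.v s) +
              ENNReal.ofReal t

end Vale.Agent.P073.H235
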