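import Vale.Agent.P073.LOC.Spec752
import Vale.Agent.P073.RED.Spec

/-!
# P073: flat boxes; low rank local theorems from bounded theorems (statements)

`f : Q1 → Λ` is compressed in the directions of the kernel of `L`: `cmp a f` lives on the box with
sides `a i`.  A bounded theorem on the flat box, which is sharp on the middle plane (`Flat`), gives
the local theorem by an explicit un-collapse.
-/

namespace Vale.Agent.P073.H235

open MeasureTheory Set Filter Topology Metric Vale.Agent.P073.LOC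
open Vale.Agent.P073.St (V Mat)
open Vale.Agent.P073.SQ (ev)
open Vale.Agent.P073.AB (cl)
open scoped ContDiff ENNReal

/-- the open box with sides `a i` -/
def Bx (a : V) : Set V := {x | ∀ i, 0 < x i ∧ x i < a i}

/-- the map `f` on the unit cube, compressed to the box with sides `a i` -/
noncomputable def cmp (a : V) (f : V → V) : V → V := fun x => f (fun i => x i / a i)

/-- the frame of relative width `ν` in the directions `J` -/
def Fr (a : V) (ν : ℝ) (J : Finset (Fin 3)) : Set V :=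
  {x | ∃ i ∈ J, x i ≤ ν * a i ∨ (1 - ν) * a i ≤ x i}

/-- the points with relative coordinates in `[ν / 4, 1 - ν / 4]` in the directions `J` -/
def Co (a : V) (ν : ℝ) (J : Finset (Fin 3)) : Set V :=
  {x | ∀ i ∈ J, ν / 4 * a i ≤ x i ∧ x i ≤ (1 - ν / 4) * a i}

/-- the sides of the flat box -/
noncomputable def fl (θ : ℝ) : V := ![1, 1, 2 * θ]

/-- the sides of the thin beam -/
noncomputable def bm (θ₁ θ₂ : ℝ) : V := ![1, 2 * θ₁, 2 * θ₂]

/-- energy of the directions `J` of `g` on `S` -/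
noncomputable def En (p : ℝ) (g : V → V) (J : Finset (Fin 3)) (S : Set V) : ℝ≥0∞ :=
  ∑ j ∈ J, ∫⁻ x in S, ENNReal.ofReal (‖fderiv ℝ g x (ev j)‖ ^ p)

/-- energy of the directions `J` of `g` on the slice `x k = c`, multiplied by the length `1` of the
interval of the free variable `x k` -/
noncomputable def En2 (p : ℝ) (g : V → V) (J : Finset (Fin 3)) (k : Fin 3) (c : ℝ) (S : Set V) :
    ℝ≥0∞ :=
  ∑ j ∈ J, ∫⁻ x in S, ENNReal.ofReal (‖fderiv ℝ g (Function.update x k c) (ev j)‖ ^ p)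

/-- Output for rank two (or one), kernel `⊇ ℝ e₂`: a diffeomorphism of the flat box of height `2 θ`
onto `Λ`, with bounded energy, and close to `L` on the middle plane. -/
structure Flat (p C θ ν ε : ℝ) (L : V →L[ℝ] V) (Λ : Set V) (f g : V → V) : Prop where
  diffeo : St.IsDiffeo (Bx (fl θ)) Λ g
  close : BdClose (Bx (fl θ)) (cmp (fl θ) f) g
  bulk : En p g Finset.univ (Bx (fl θ)) ≤ ENNReal.ofReal (C * θ)
  frame : En p g Finset.univ (Bx (fl θ) ∩ Fr (fl θ) ν {0, 1}) ≤ ENNReal.ofReal (C * ν * θ)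
  /-- the middle plane `x 2 = θ` -/
  mid : ∑ j ∈ Finset.univ.erase (2 : Fin 3), ∫⁻ x in Bx 1 ∩ Co 1 ν {0, 1},
    ENNReal.ofReal (‖fderiv ℝ g (Function.update x 2 θ) (ev j) - L (ev j)‖ ^ p) ≤
      ENNReal.ofReal ε

/-- the flat output exists -/
def SpecFlat (p : ℝ) (L : V →L[ℝ] V) : Prop :=
  ∃ C > 0, ∀ ν, 0 < ν → ν ≤ 1 / 4 → ∃ θ₀ > 0, ∀ θ, 0 < θ → θ ≤ θ₀ → ∀ ε > 0, ∃ κ > 0,
    ∀ (Λ : Set V) (f : V → V) (F : V → Mat), Near p κ L Λ f F → ∃ g, Flat p C θ ν ε L Λ f g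

/-- **(FLAT)** every exponent `p ≥ 1` -/
def SpecUncollapse : Prop :=
  ∀ (p : ℝ) (L : V →L[ℝ] V), 1 ≤ p → L (ev 2) = 0 → SpecFlat p L → LocThm p L

/-- Output for rank one, kernel `ℝ e₁ + ℝ e₂`: a diffeomorphism of the thin beam onto `Λ` with
bounded energy, with bounded energy on the middle plane `x 1 = θ₁`, and close to `L` on the middle
line. -/
structure Beam (p C θ₁ θ₂ ν₁ ν ε : ℝ) (L : V →L[ℝ] V) (Λ : Set V) (f g : V → V) : Prop where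
  diffeo : St.IsDiffeo (Bx (bm θ₁ θ₂)) Λ g
  close : BdClose (Bx (bm θ₁ θ₂)) (cmp (bm θ₁ θ₂) f) g
  bulk : En p g Finset.univ (Bx (bm θ₁ θ₂)) ≤ ENNReal.ofReal (C * θ₁ * θ₂)
  frame : En p g Finset.univ (Bx (bm θ₁ θ₂) ∩ Fr (bm θ₁ θ₂) ν₁ {0, 2}) ≤
    ENNReal.ofReal (C * ν₁ * θ₁ * θ₂)
  /-- the middle plane `x 1 = θ₁` -/
  pl : En2 p g (Finset.univ.erase 1) 1 θ₁ (Bx (fl θ₂)) ≤ ENNReal.ofReal (C * θ₂)
  plFrame : En2 p g (Finset.univ.erase 1) 1 θ₁ (Bx (fl θ₂) ∩ Fr (fl θ₂) ν {0}) ≤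
    ENNReal.ofReal (C * ν * θ₂)
  /-- the middle line `x 1 = θ₁`, `x 2 = θ₂` -/
  line : ∫⁻ x in Bx 1 ∩ Co 1 ν {0},
    ENNReal.ofReal (‖fderiv ℝ g (Function.update (Function.update x 1 θ₁) 2 θ₂) (ev 0) -
      L (ev 0)‖ ^ p) ≤ ENNReal.ofReal ε

/-- the beam output exists -/
def SpecBeam (p : ℝ) (L : V →L[ℝ] V) : Prop :=
  ∃ C > 0, ∀ ν, 0 < ν → ν ≤ 1 / 4 → ∀ θ₂, 0 < θ₂ → θ₂ ≤ 1 / 4 → ∀ ν₁, 0 < ν₁ → ν₁ ≤ ν / 4 →
    ∃ θ₀ > 0, ∀ θ₁, 0 < θ₁ → θ₁ ≤ θ₀ → ∀ ε > 0, ∃ κ > 0,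
    ∀ (Λ : Set V) (f : V → V) (F : V → Mat), Near p κ L Λ f F →
      ∃ g, Beam p C θ₁ θ₂ ν₁ ν ε L Λ f g

/-- **(BEAM)** every exponent `p ≥ 1` -/
def SpecUncollapse1 : Prop :=
  ∀ (p : ℝ) (L : V →L[ℝ] V), 1 ≤ p → L (ev 1) = 0 → L (ev 2) = 0 → SpecBeam p L → SpecFlat p L

end Vale.Agent.P073.H235
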