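import Vale.Agent.P073.H608.Top23
import Vale.Agent.P073.H333.SpecPre2
import Vale.Agent.P073.H253.Rk1Lt
import Vale.Agent.P073.H235.PreFlat
import Vale.Agent.P073.H267.K2C
import Vale.Agent.P073.H523.PreBeam

/-!
# P073: everything for `2 ≤ p < 3`, plugged in
-/

namespace Vale.Agent.P073.H235

open Vale.Agent.P073

/-- all open propositions for `2 ≤ p < 3` are proved -/
theorem full_two_three {p : ℝ} (hp : 2 ≤ p) (hp3 : p < 3) : H608.Full p :=
  H608.full_lt (by linarith) hp3
    (H608.Open23.openLt hp ⟨_root_.P073.H267.k2c (by linarith), specPreFlat (by linarith) hp3,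
      H523.specPreBeam (by linarith) hp3⟩ (H333.specPre_all hp hp3))

end Vale.Agent.P073.H235
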