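import Vale.Agent.P073.H235.PreFlatA
import Vale.Agent.P073.H761.SmTools
import Vale.Agent.P073.H83.BxLem

/-!
# P073, block A16, [PRE-FLAT]: the data `PreFlat` are built
-/

namespace Vale.Agent.P073.H235

open MeasureTheory Set Filter Topology Metric Vale.Agent.P073.St Vale.Agent.P073.AB
open Vale.Agent.P073.SQ (ev)
open Vale.Agent.P073.LOC (Near Q1 BdClose)
open Vale.Agent.P073.H73 (MinEdge segP onSeg ctr)
open Vale.Agent.P073.H194 (sInt Gen idx Rg up KR FlatOut gW cW refine)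
open Vale.Agent.P073.H83 (GenB)
open Vale.Agent.P073.H471 (zt st)
open Vale.Agent.P073.H333 (tw)
open _root_.P073 (ConHomeo)
open _root_.P073.Net (len dyc dyo IsTile SizeFn)
open scoped ENNReal

theorem exists_pow_le {a : ℝ} (ha : 0 < a) (N : ℕ) : ∃ m ≥ N, (1:ℝ) / 2 ^ m ≤ a := by
  obtain ⟨n, hn⟩ := exists_pow_lt_of_lt_one ha (show (1/2:ℝ) < 1 by norm_num)
  refine ⟨max n N, le_max_right _ _, ?_⟩
  refine (half_pow_le (le_max_left n N)).trans ?_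
  rw [one_div_pow] at hn
  exact hn.le

/-- the edges of the squares of the rectangle -/
theorem edge_in {nS : ℕ} {a b k : Fin 3 → ℤ} (hk : k ∈ rect a b) {e : Idx × Fin 3}
    (he : EdgeOfSq e ((nS, k), 2)) :
    e.2 ≠ 2 ∧ ∃ k' ∈ redge a b e.2, e = ((nS, k'), e.2) := by
  obtain ⟨h1, h2, h3, h4, h5⟩ := he
  have h2' : e.2 ≠ 2 := h2
  refine ⟨h2', e.1.2, ?_, ?_⟩
  · rw [H194.mem_redge h2']
    obtain ⟨h6, h7⟩ := H194.mem_rect.1 hk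
    have h4' : e.1.2 2 = k 2 := h4
    refine ⟨by rw [h4', h6], ?_, fun j hj hj' => ?_⟩
    · have h3' : e.1.2 e.2 = k e.2 := h3
      rw [h3']
      exact h7 e.2 h2'
    · have h8 := h7 j hj
      rcases h5 j hj' hj with h | h
      · have h' : e.1.2 j = k j := h
        rw [h']
        exact ⟨h8.1, h8.2.le⟩
      · have h' : e.1.2 j = k j + 1 := h
        rw [h']
        exact ⟨by omega, by omega⟩
  · have h1' : e.1.1 = nS := h1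
    rw [← h1']

/-- the clause of `SpecEner` on integrals -/
def EnerI {p C₀ θ κ : ℝ} {m₀ : ℕ} {Λ : Set V} {f : V → V} {F : V → Mat}
    (D : VData2 p C₀ θ κ m₀ Λ f F) : Prop :=
  ∀ R ⊆ Bx (fl θ), MeasurableSet R → ∫⁻ x in R, (D.H x + H194.Bk 1 x) ≤
      ENNReal.ofReal (2 ^ p) * ((∫⁻ x in R, D.H₁ x) + volume R)

/-- the clause of `SpecEner` on squares -/
def EnerS {p C₀ θ κ : ℝ} {m₀ : ℕ} {Λ : Set V} {f : V → V} {F : V → Mat}
    (D : VData2 p C₀ θ κ m₀ Λ f F) : Prop :=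
  ∀ (n : ℕ) (S : Finset (Fin 3 → ℤ)), (∀ k ∈ S, squ D.v ((n, k), 2) ⊆ Bx (fl θ)) →
    ∑ k ∈ S, sInt D.v ((n, k), 2) (fun x => D.H x + H194.Bk 1 x) ≤ ENNReal.ofReal (2 ^ p) *
      ((∑ k ∈ S, sInt D.v ((n, k), 2) D.H₁) + ENNReal.ofReal (S.card / 4 ^ n))

/-- the conclusion of `SpecXE` -/
def XOut {p C₀ θ κ : ℝ} {m₀ : ℕ} {Λ : Set V} {f : V → V} {F : V → Mat}
    (D : VData2 p C₀ θ κ m₀ Λ f F) (α β : Fin 3 → ℤ) (δ₁ : ℝ) : Prop :=
    ∃ l₀ : ℕ, ∀ l ≥ l₀, m₀ ≤ D.nn l →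
    ∀ (h₀ : ConHomeo (Bx (fl θ)) Λ) (T : ConHomeo Λ Λ) (b : ℝ), 0 < b → b ≤ 1 →
    (∀ y ∈ Λ, ∀ j, j ≠ 2 → T.toFun y j = y j) →
    (∀ i, i ≠ 2 → ∀ k ∈ redge (up m₀ (D.nn l) α) (up m₀ (D.nn l) β) i,
      eInt D.v ((D.nn l, k), i) (fun x => ENNReal.ofReal ‖lineDeriv ℝ h₀.toFun x (ev i) -
        cl (cmpD (fl θ) F x) (ev i)‖) ≤ ENNReal.ofReal (b / 2 ^ D.nn l)) →
    (∀ i, i ≠ 2 → ∀ k ∈ redge (up m₀ (D.nn l) α) (up m₀ (D.nn l) β) i,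
      xE (h₀.trans T).toFun D.v ((D.nn l, k), i) ≤ XE θ D.v F b ((D.nn l, k), i) ∧
      eInt D.v ((D.nn l, k), i) (fun x => D.H x ^ (1 / p) + 1) ≤
        2 * (ENNReal.ofReal (1 / 2 ^ D.nn l) + XE θ D.v F b ((D.nn l, k), i))) ∧
    ∑ i ∈ Finset.univ.erase (2 : Fin 3),
      ∑ k ∈ redge (up m₀ (D.nn l) α) (up m₀ (D.nn l) β) i, ENNReal.ofReal (1 / 2 ^ D.nn l) *
        (ENNReal.ofReal ((1 / 2 ^ D.nn l) ^ (1 - p)) * XE θ D.v F b ((D.nn l, k), i) ^ p) ≤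
      ENNReal.ofReal (4 ^ p * (κ + δ₁ + 2 * b))

/-- the conclusion of `SpecPlateT2` -/
def POut {p C₀ θ κ : ℝ} {m₀ : ℕ} {Λ : Set V} {f : V → V} {F : V → Mat}
    (D : VData2 p C₀ θ κ m₀ Λ f F) (S₀ : Finset (Fin 3 → ℤ)) (ε : ℝ) : Prop :=
    ∃ n₀ : ℕ, ∀ n₃ ≥ n₀, ∃ (G : Finset (Fin 3 → ℤ)) (mt₀ : ℕ) (K : Set V), K ⊆ Λ ∧
      IsCompact K ∧
      (∀ k ∈ G, ∃ k₀ ∈ S₀, squ D.v ((n₃, k), 2) ⊆ squ D.v ((m₀, k₀), 2)) ∧
      (S₀.card : ℝ) / 4 ^ m₀ - (G.card : ℝ) / 4 ^ n₃ ≤ ε ∧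
      ∀ mt ≥ mt₀, ∀ δ > 0, ∃ (T : ConHomeo Λ Λ) (r : ℝ), 0 < r ∧
        (∀ y ∈ Λ, y ∉ K → T.toFun y = y) ∧
        (∀ y ∈ Λ, ∀ y' ∈ Λ, ‖T.toFun y - T.toFun y'‖ ≤ 2 * ‖y - y'‖) ∧
        (∀ y ∈ Λ, ∀ j, j ≠ 2 → T.toFun y j = y j) ∧
        ∀ k ∈ G, ∃ t : ℤ, ∀ x ∈ squ D.v ((n₃, k), 2), ∀ y ∈ Λ, ‖y - cmp (fl θ) f x‖ ≤ r →
          |T.toFun y 2 - t / 2 ^ mt| ≤ δ / 2 ^ mt

set_option maxHeartbeats 1000000 in
/-- **the data are built** -/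
theorem preFlat_build {p C θ ν τ ε δ κ εP η b δx : ℝ} (hp : 1 ≤ p) (hp3 : p < 3) (hθ : 0 < θ)
    (hθ2 : θ ≤ 1 / 2) (hν : 0 < ν) (hε : 0 < ε) (hδ : 0 < δ) (hη : 0 < η) (hb : 0 < b)
    (hb1 : b ≤ 1) (hTW : SpecTW) (hCo : SpecCount) {m₀ : ℕ} {Λ : Set V} {f : V → V} {F : V → Mat}
    (hΛ : St.IsBoundedDomain Λ) (hhom : St.IsHomeo (Bx (fl θ)) Λ (cmp (fl θ) f))
    (D : VData2 p 16 θ κ m₀ Λ f F) (E1 : EnerI D) (E2 : ∀ x ∈ Bx (fl θ), H194.Bk 1 x = 1)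
    (E3 : volume (Bx (fl θ)) ≤ ENNReal.ofReal (2 * θ))
    (E4 : volume (Bx (fl θ) ∩ Fr (fl θ) (3 * ν) {0, 1}) ≤ ENNReal.ofReal (24 * ν * θ))
    (E5 : ∀ (c ε : ℝ) (N : ℕ), 0 < ε → ∃ n ≥ N,
      ∫⁻ x in Bx (fl θ) ∩ {x | |x 2 - c| ≤ 1 / 2 ^ n}, (D.H x + H194.Bk 1 x) ≤
        ENNReal.ofReal ε)
    (E6 : EnerS D) {α β : Fin 3 → ℤ} (hα : α 2 = D.B) (hlt : ∀ j, j ≠ 2 → α j < β j)
    (hRg : Rg D.v m₀ α β ⊆ Bx (fl θ))
    (hcov : ∀ x ∈ Bx 1 ∩ Co 1 (ν / 2) {0, 1}, ∀ j, j ≠ 2 →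
      D.v j + α j / 2 ^ m₀ ≤ x j ∧ x j ≤ D.v j + β j / 2 ^ m₀)
    (X : XOut D α β δx) (P : POut D (rect α β) εP) (hmτ : 1 / 2 ^ m₀ ≤ τ)
    (N1 : cW p 8 * (36 * (Kc p 4 * (ENNReal.ofReal (2 ^ p) * (ENNReal.ofReal κ +
      ENNReal.ofReal (2 * θ)))) + ENNReal.ofReal η) ≤ ENNReal.ofReal (C * θ))
    (N2 : cW p 8 * (36 * (Kc p 4 * (ENNReal.ofReal (2 ^ p) * (ENNReal.ofReal κ +
      ENNReal.ofReal (24 * ν * θ)))) + ENNReal.ofReal η) ≤ ENNReal.ofReal (C * ν * θ))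
    (N3 : cW p 8 * (36 * (Kc p 4 * ENNReal.ofReal η) + ENNReal.ofReal η) ≤ ENNReal.ofReal ε)
    (N4 : 4 * cW p 8 * (Kc p 4 * (ENNReal.ofReal (2 ^ p) * (ENNReal.ofReal κ +
      ENNReal.ofReal εP)) + ENNReal.ofReal η) ≤ ENNReal.ofReal ε)
    (N5 : 4 ^ p * (κ + δx + 2 * b) ≤ ε) (N6 : εP ≤ ε) (N7 : 1149984 ≤ C) :
    Nonempty (PreFlat p C θ ν τ ε δ Λ f) := by
  classical
  have hUd : St.IsBoundedDomain (Bx (fl θ)) := H761.isBoundedDomain_Bx fun i => by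
    fin_cases i <;> simp [fl, hθ]
  set U : Set V := Bx (fl θ) with hU
  set fc : V → V := cmp (fl θ) f with hfc
  set Fc : V → Mat := cmpD (fl θ) F with hFc
  set G : V → ℝ≥0∞ := fun x => D.H x + H194.Bk 1 x with hG
  set v := D.v with hv
  -- the base partition
  obtain ⟨nθ, -, hnθ⟩ := exists_pow_le hν 0
  obtain ⟨n₀, hn₀, hlay⟩ := E5 (v 2 + D.B / 2 ^ m₀) η (max m₀ nθ) hη
  obtain ⟨-, hI₀, hgen, -, -⟩ := AB.specTiles U n₀ v hUd.1 (AB.S293.isBounded_of hUd)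
    hUd.2.1.nonempty
  set I₀ : Set Idx := tiles U n₀ v with hI₀def
  have hm : ∀ q ∈ I₀, m₀ ≤ q.1 := fun q hq => ((le_max_left _ _).trans hn₀).trans (hgen q hq)
  have hnν : ∀ q ∈ I₀, (1:ℝ) / 2 ^ q.1 ≤ ν := fun q hq =>
    (half_pow_le (((le_max_right _ _).trans hn₀).trans (hgen q hq))).trans hnθ
  have hKf : (KR v I₀ m₀ α β).Finite := H194.KR_finite hI₀ hRg
  -- the good squares
  obtain ⟨nP, hP⟩ := P
  obtain ⟨n₃, hn₃P, hn₃m, hn₃q⟩ : ∃ n₃ : ℕ, nP ≤ n₃ ∧ m₀ ≤ n₃ ∧ ∀ q ∈ KR v I₀ m₀ α β, q.1 ≤ n₃ := by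
    refine ⟨max nP (max m₀ (hKf.toFinset.sup fun q : Idx => q.1)), le_max_left _ _,
      (le_max_left _ _).trans (le_max_right _ _), fun q hq => ?_⟩
    have h1 := Finset.le_sup (f := fun q : Idx => q.1) ((Finite.mem_toFinset hKf).2 hq)
    exact h1.trans ((le_max_right _ _).trans (le_max_right _ _))
  obtain ⟨G₃, mt₀, K, hKΛ, hK, hG₃, hG₃a, hT⟩ := hP n₃ hn₃P
  set R₃ := rect (up m₀ n₃ α) (up m₀ n₃ β) with hR₃
  obtain ⟨hc1, hc2, hc3, -⟩ := hCo v m₀ n₃ n₃ α β hn₃m le_rfl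
  have hGR : G₃ ⊆ R₃ := fun k hk => hc2 k (hG₃ k hk)
  set bad := R₃ \ G₃ with hbad
  have hbadR : bad ⊆ R₃ := Finset.sdiff_subset
  have hbadc : (bad.card : ℝ) / 4 ^ n₃ ≤ εP := by
    rw [hbad, Finset.card_sdiff_of_subset hGR, Nat.cast_sub (Finset.card_le_card hGR), sub_div,
      hc1]
    exact hG₃a
  have hbadU : ∀ k ∈ bad, squ v ((n₃, k), 2) ⊆ U := fun k hk =>
    (H194.squ_sub_Rg (H194.sc_up hn₃m α β) (hbadR hk)).trans hRg
  -- the compact set in the target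
  have hfΛ : ∀ x ∈ U, fc x ∈ Λ := by
    obtain ⟨g, hg, -, -⟩ := hhom
    exact fun x hx => (hg.1 x hx).1
  have hfcc : ContinuousOn fc U := by
    obtain ⟨g, -, hg, -⟩ := hhom
    exact hg
  obtain ⟨d, hd0, hdK⟩ := exists_deep hΛ (hK.union ((H194.isCompact_Rg v m₀ α β).image_of_continuousOn
    (hfcc.mono hRg))) (union_subset hKΛ (by
      rintro _ ⟨x, hx, rfl⟩
      exact hfΛ x (hRg hx)))
  obtain ⟨mt, hmt₀, hmt⟩ := exists_pow_le (lt_min hε (show 0 < d / 8 by positivity)) mt₀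
  have hmtε : (1:ℝ) / 2 ^ mt ≤ ε := hmt.trans (min_le_left _ _)
  have hmtd : 8 * ((1:ℝ) / 2 ^ mt) ≤ d := by
    have := hmt.trans (min_le_right _ _)
    linarith
  obtain ⟨T, r, hr, hT1, hT2, hT3, hT4⟩ := hT mt hmt₀ (min δ (1 / 8)) (lt_min hδ (by norm_num))
  have hpm : (0:ℝ) < 1 / 2 ^ mt := by positivity
  -- the centres
  set ρ := rho Λ mt with hρd
  have hρ : SizeFn Λ ρ := (AB.specTiles Λ mt 0 hΛ.1 (AB.S293.isBounded_of hΛ)
    hΛ.2.1.nonempty).1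
  have hfT := isHomeo_comp hhom T
  have hfTc : ContinuousOn (T.toFun ∘ fc) U := by
    obtain ⟨g, -, hg, -⟩ := hfT
    exact hg
  have hGm : Measurable G := D.meas.add (H194.measurable_Bk 1)
  have hGf : ∫⁻ x, G x ≠ ⊤ := by
    rw [hG, lintegral_add_left D.meas]
    exact ENNReal.add_ne_top.2 ⟨D.fin, H194.lintegral_Bk 1⟩
  have hgood0 := ae_goodC0 hp3 hUd.1 hΛ.1 hfT hGm hGf D.mono (D.gk 1).2
    (planes_comp hhom T hT2 D.planes)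
  set Rf : Set V := U ∩ Fr (fl θ) (3 * ν) {0, 1} with hRf
  set Rl : Set V := U ∩ {x | |x 2 - (v 2 + D.B / 2 ^ m₀)| ≤ 1 / 2 ^ n₀} with hRl
  have hUm : MeasurableSet U := hUd.1.measurableSet
  have hRfm : MeasurableSet Rf := hUm.inter (H83.measurableSet_fr _ _ _)
  have hRlm : MeasurableSet Rl := by
    refine hUm.inter (measurableSet_le ?_ measurable_const)
    exact ((measurable_pi_apply 2).sub_const _).abs
  set μ : Fin 4 → Measure V := ![volume.restrict U, volume.restrict Rf, volume.restrict Rl,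
    surfM v n₃ 2 bad] with hμ
  have hμs : ∀ j, SFinite (μ j) := by
    intro j
    fin_cases j
    · show SFinite (volume.restrict U); infer_instance
    · show SFinite (volume.restrict Rf); infer_instance
    · show SFinite (volume.restrict Rl); infer_instance
    · show SFinite (surfM v n₃ 2 bad); infer_instance
  have hres : ∀ R ⊆ U, (volume.restrict R) Uᶜ = 0 := by
    intro R hR
    rw [Measure.restrict_apply hUm.compl]
    have : Uᶜ ∩ R = ∅ := by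
      rw [Set.eq_empty_iff_forall_notMem]
      rintro x ⟨h1, h2⟩
      exact h1 (hR h2)
    rw [this, measure_empty]
  have hμ0 : ∀ j, μ j Uᶜ = 0 := by
    intro j
    fin_cases j
    · exact hres U subset_rfl
    · exact hres Rf inter_subset_left
    · exact hres Rl inter_subset_left
    · exact surfM_compl hUm hbadU
  obtain ⟨cc, hcc, hgood, hcb⟩ := exists_centers_mu hρ (by linarith : (0:ℝ) ≤ p) μ hUm hμ0 hfTc
    hGm hgood0
  rw [Fintype.card_fin] at hcb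
  have hcb0 : ∫⁻ x in U, tw ρ cc ((T.toFun ∘ fc) x) ^ p * G x ≤ Kc p 4 * ∫⁻ x in U, G x := hcb 0
  have hcb1 : ∫⁻ x in Rf, tw ρ cc ((T.toFun ∘ fc) x) ^ p * G x ≤ Kc p 4 * ∫⁻ x in Rf, G x :=
    hcb 1
  have hcb2 : ∫⁻ x in Rl, tw ρ cc ((T.toFun ∘ fc) x) ^ p * G x ≤ Kc p 4 * ∫⁻ x in Rl, G x :=
    hcb 2
  have hcb3 : ∑ k ∈ bad, sInt v ((n₃, k), 2) (fun x => tw ρ cc ((T.toFun ∘ fc) x) ^ p * G x) ≤
      Kc p 4 * ∑ k ∈ bad, sInt v ((n₃, k), 2) G := by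
    have h1 : AEMeasurable (T.toFun ∘ fc) (surfM v n₃ 2 bad) :=
      aemeasurable_of_U hUm (surfM_compl hUm hbadU) hfTc
    have h2 : ∫⁻ x, tw ρ cc ((T.toFun ∘ fc) x) ^ p * G x ∂(surfM v n₃ 2 bad) ≤
      Kc p 4 * ∫⁻ x, G x ∂(surfM v n₃ 2 bad) := hcb 3
    have h3 : AEMeasurable (fun x => tw ρ cc ((T.toFun ∘ fc) x) ^ p * G x)
      (surfM v n₃ 2 bad) :=
      (((measurable_tw ρ cc).comp_aemeasurable h1).pow_const p).mul hGm.aemeasurable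
    rw [lintegral_surfM h3, lintegral_surfM hGm.aemeasurable] at h2
    exact h2
  -- the numbers `e q`
  obtain ⟨eq, heq0, heqs⟩ := ENNReal.exists_pos_sum_of_countable'
    (show ENNReal.ofReal η ≠ 0 from (ENNReal.ofReal_pos.2 hη).ne') Idx
  -- the list of squares
  set S : Finset ((Idx × Fin 3) × Fin 3) := (bad ×ˢ (Finset.univ.erase (2 : Fin 3))).image
    fun kj => (((n₃, kj.1), 2), kj.2) with hS
  have hSm : ∀ k ∈ bad, ∀ j, j ≠ 2 → ((((n₃, k), 2), j) : (Idx × Fin 3) × Fin 3) ∈ S := by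
    intro k hk j hj
    rw [hS, Finset.mem_image]
    exact ⟨(k, j), Finset.mem_product.2 ⟨hk, Finset.mem_erase.2 ⟨hj, Finset.mem_univ _⟩⟩, rfl⟩
  have hSok : ∀ s ∈ S, s.2 ≠ s.1.2 ∧ ∃ q ∈ KR v I₀ m₀ α β, squ v s.1 ⊆ dyc v q.1 q.2 ∧
      ∀ q ∈ I₀, Disjoint (squ v s.1) (dyo v q.1 q.2) := by
    intro s hs
    rw [hS, Finset.mem_image] at hs
    obtain ⟨⟨k, j⟩, hkj, rfl⟩ := hs
    obtain ⟨hk, hj⟩ := Finset.mem_product.1 hkj
    obtain ⟨⟨q, hq, h1⟩, h2⟩ := list_ok hI₀ hn₃m hRg hm hn₃q (hbadR hk)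
    exact ⟨Finset.ne_of_mem_erase hj, q, hq, h1, h2⟩
  -- the generation of the squares
  obtain ⟨l₀, hX⟩ := X
  set lX := max l₀ (max m₀ n₃) with hlX
  set δ₁ : ℝ≥0∞ := ENNReal.ofReal (η / (bad.card + 1)) with hδ₁
  have hδ₁0 : δ₁ ≠ 0 := (ENNReal.ofReal_pos.2 (by positivity)).ne'
  have hδ₁s : (bad.card : ℝ≥0∞) * δ₁ ≤ ENNReal.ofReal η := by
    rw [hδ₁, ← ENNReal.ofReal_natCast, ← ENNReal.ofReal_mul (Nat.cast_nonneg _)]
    apply ENNReal.ofReal_le_ofReal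
    rw [mul_div_assoc', div_le_iff₀ (by positivity)]
    nlinarith [(Nat.cast_nonneg bad.card : (0:ℝ) ≤ bad.card)]
  obtain ⟨B, τm, nf, nS, h₀, hN, hth, H, hclose, hr0, hbd, hder, hlen⟩ :=
    exists_mesh hp hUd hΛ hhom D.mono D.rat hGm hGf (D.gk 1).1
      (A := fun x => D.H x ^ (1 / p)) (fun e he => edge_dens hp D.rep D.eq D.gen.efin e he)
      hT2 hK hKΛ hT1 hρ hcc hgood hI₀ hδ (fun q => (heq0 q).ne') hKf
      (fun q hq => hq.1) hSok hδ₁0 (lt_min hr hpm) hb hb1 (fun _ => D.nn lX) (max m₀ n₃)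
  have hmS : m₀ ≤ nS := (le_max_left _ _).trans hN
  have hn₃S : n₃ ≤ nS := (le_max_right _ _).trans hN
  -- the index of `nS`
  obtain ⟨l, hl, hlS⟩ : ∃ l, l₀ ≤ l ∧ D.nn l = nS := by
    have hx : (fun j => v j + α j / 2 ^ m₀ : V) ∈ Rg v m₀ α β := by
      refine ⟨rfl, fun j hj => ⟨le_rfl, ?_⟩⟩
      have h1 : (α j : ℝ) ≤ β j := by exact_mod_cast (hlt j hj).le
      have h2 : (α j : ℝ) / 2 ^ m₀ ≤ β j / 2 ^ m₀ := by gcongr
      linarith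
    obtain ⟨q, hq, hxq⟩ := hI₀.cover _ (hRg hx)
    have hqK : q ∈ KR v I₀ m₀ α β := ⟨hq, _, hxq, hx⟩
    have h3 := H.group q hqK
    obtain ⟨h4, l, hl⟩ := hth q hq
    rw [h3] at h4 hl
    refine ⟨l, ?_, hl⟩
    rw [← hl] at h4
    exact (le_max_left _ _).trans (D.mono.le_iff_le.1 h4)
  have hml : m₀ ≤ D.nn l := by rw [hlS]; exact hmS
  set a := up m₀ nS α with ha
  set bb := up m₀ nS β with hbb
  set I := refine v I₀ ∅ B nf with hI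
  have hminE : ∀ i, i ≠ 2 → ∀ k ∈ redge a bb i, MinEdge v I ((nS, k), i) :=
    fun i hi k hk => H.minE hRg hm hmS hi hk
  have hXl := hX l hl hml h₀ T b hb hb1 hT3 (by
    rw [hlS]
    intro i hi k hk
    exact hder ((nS, k), i) (hminE i hi k hk).1)
  rw [hlS] at hXl
  obtain ⟨hX1, hX2⟩ := hXl
  -- the sums over the cells
  have hp0 : p ≠ 0 := by linarith
  have hAG : ∀ x ∈ U, (D.H x ^ (1 / p)) ^ p + (1 : ℝ≥0∞) ^ p ≤ G x := by
    intro x hx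
    rw [one_div, ENNReal.rpow_inv_rpow hp0, ENNReal.one_rpow]
    show D.H x + 1 ≤ D.H x + H194.Bk 1 x
    rw [E2 x hx]
  have hHI : ∀ R ⊆ U, MeasurableSet R → ∀ g : ℝ, volume R ≤ ENNReal.ofReal g →
      ∫⁻ x in R, G x ≤ ENNReal.ofReal (2 ^ p) * (ENNReal.ofReal κ + ENNReal.ofReal g) := by
    intro R hR hRm g hg
    refine (E1 R hR hRm).trans ?_
    gcongr
    exact (lintegral_mono_set hR).trans D.small
  have hes : ∑' q, eq q ≤ ENNReal.ofReal η := heqs.le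
  have h8 : (8 : ℝ≥0∞) ≠ ⊤ := by norm_num
  set ℓ : Idx × Fin 3 → ℝ≥0∞ := fun e' => eInt v e' (gW ρ cc (T.toFun ∘ fc) 8
    (fun x => D.H x ^ (1 / p)) 1) with hℓ
  have hbulk : eSum p v I ℓ univ ≤ ENNReal.ofReal (C * θ) :=
    (eSum_bound H hp hUd.1 hI₀ h8 hAG (union_univ hI₀) hcb0
      (hHI U subset_rfl hUm _ E3) hes).trans N1
  have hframe : eSum p v I ℓ (Fr (fl θ) (2 * ν) {0, 1}) ≤ ENNReal.ofReal (C * ν * θ) :=
    (eSum_bound H hp hUd.1 hI₀ h8 hAG (union_frame hI₀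
      (fun q hq => ((le_max_right _ _).trans hn₀).trans (hgen q hq)) hnθ) hcb1
      (hHI Rf inter_subset_left hRfm _ E4) hes).trans N2
  have hdiv : v 2 + (a 2 : ℝ) / 2 ^ nS = v 2 + D.B / 2 ^ m₀ := by
    rw [ha, (H194.sc_up hmS α β).div_a 2, hα]
  have hlayer : eSum p v I ℓ {x | x 2 = v 2 + a 2 / 2 ^ nS} ≤ ENNReal.ofReal ε := by
    rw [hdiv]
    exact (eSum_bound H hp hUd.1 hI₀ h8 hAG (union_plane hI₀ hgen) hcb2 hlay hes).trans N3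
  -- the parents
  obtain ⟨-, -, -, par, hpar1, hpar2⟩ := hCo v m₀ n₃ nS α β hn₃m hn₃S
  set Gd := (rect a bb).filter fun k => par k ∈ G₃ with hGd
  have hTb : ∀ k ∈ rect a bb \ Gd, par k ∈ bad ∧
      squ v ((nS, k), 2) ⊆ squ v ((n₃, par k), 2) := by
    intro k hk
    rw [Finset.mem_sdiff, hGd, Finset.mem_filter] at hk
    obtain ⟨h1, h2⟩ := hpar1 k hk.1
    exact ⟨Finset.mem_sdiff.2 ⟨h1, fun h3 => hk.2 ⟨hk.1, h3⟩⟩, h2⟩
  have harea : ((rect a bb \ Gd).card : ℝ) / 4 ^ nS ≤ εP :=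
    (area_bound Finset.sdiff_subset hbadR (fun k hk => (hTb k hk).1) hpar2).trans hbadc
  have hsum1 : ∑ k ∈ bad, sInt v ((n₃, k), 2) G ≤
      ENNReal.ofReal (2 ^ p) * (ENNReal.ofReal κ + ENNReal.ofReal εP) := by
    refine (E6 n₃ bad hbadU).trans ?_
    gcongr
    calc ∑ k ∈ bad, sInt v ((n₃, k), 2) D.H₁ ≤ ∑ k ∈ R₃, sInt v ((n₃, k), 2) D.H₁ :=
          Finset.sum_le_sum_of_subset hbadR
      _ = ∑ k ∈ rect α β, sInt v ((m₀, k), 2) D.H₁ := hc3 _ D.meas₁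
      _ ≤ _ := D.slice _ fun k hk => ⟨by rw [(H194.mem_rect.1 hk).1, hα],
          (H194.squ_sub_Rg (a := α) (b := β) ⟨le_rfl, by simp, by simp⟩ hk).trans hRg⟩
  have hbadsum := bad_bound H hp h8 hAG hn₃S (fun k hk => ⟨hbadU k hk, hSm k hk⟩) hTb hcb3
  have hbadsum' : ∑ k ∈ rect a bb \ Gd, ∑' e : {e : Idx × Fin 3 // EdgeOfSq e ((nS, k), 2)},
      ENNReal.ofReal (1 / 2 ^ nS) * (ENNReal.ofReal ((1 / 2 ^ nS) ^ (1 - p)) * ℓ e.1 ^ p) ≤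
      ENNReal.ofReal ε := by
    refine hbadsum.trans (le_trans ?_ N4)
    gcongr
  -- the target
  have hdeep : ∀ x ∈ Rg v m₀ α β, ∀ y ∈ Λ, ‖y - fc x‖ ≤ 1 / 2 ^ mt →
      d - 1 / 2 ^ mt ≤ infDist (T.toFun y) Λᶜ := fun x hx y hy hyx =>
    deep_image T hKΛ hT1 hpm.le hdK hy (mem_image_of_mem _ hx) hyx
  have hsub : ∀ k ∈ rect a bb, squ v ((nS, k), 2) ⊆ Rg v m₀ α β := fun k hk =>
    H194.squ_sub_Rg (H194.sc_up hmS α β) hk
  have htile : ∀ k ∈ rect a bb, ∀ x ∈ squ v ((nS, k), 2), ∀ z : Fin 3 → ℤ,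
      (∃ y ∈ dyc 0 mt z, ‖(h₀.trans T).toFun x - y‖ ≤ 4 / 2 ^ mt) → IsTile ρ 0 mt z := by
    rintro k hk x hx z ⟨y, hy, hxy⟩
    have hxR := hsub k hk hx
    have hxU := hRg hxR
    have h1 := hdeep x hxR _ (h₀.mapsTo hxU) ((hr0 x hxU).trans (min_le_right _ _))
    have h2 := infDist_near (x := y) (b := 4 / 2 ^ mt) h1 (by rw [norm_sub_rev]; exact hxy)
    refine tile_of_deep hΛ hy le_rfl (le_trans ?_ h2)
    have e1 : (2:ℝ) / 2 ^ mt = 2 * (1 / 2 ^ mt) := by ring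
    have e2 : (4:ℝ) / 2 ^ mt = 4 * (1 / 2 ^ mt) := by ring
    rw [e1, e2]
    linarith
  have hplate : ∀ k ∈ Gd, ∃ t : ℤ, ∀ x ∈ squ v ((nS, k), 2),
      |(h₀.trans T).toFun x 2 - t / 2 ^ mt| ≤ δ / 2 ^ mt := by
    intro k hk
    rw [hGd, Finset.mem_filter] at hk
    obtain ⟨t, ht⟩ := hT4 _ hk.2
    refine ⟨t, fun x hx => ?_⟩
    have hxU := hRg (hsub k hk.1 hx)
    refine (ht x ((hpar1 k hk.1).2 hx) (h₀.toFun x) (h₀.mapsTo hxU)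
      ((hr0 x hxU).trans (min_le_left _ _))).trans ?_
    gcongr
    exact min_le_left _ _
  have hgd : ∀ k ∈ Gd, ∀ e : Idx × Fin 3, EdgeOfSq e ((nS, k), 2) →
      ℓ e ≤ ENNReal.ofReal C * (ENNReal.ofReal (1 / 2 ^ nS) + XE θ v F b e) := by
    intro k hk e he
    rw [hGd, Finset.mem_filter] at hk
    obtain ⟨he2, k', hk', hek⟩ := edge_in hk.1 he
    obtain ⟨t, ht⟩ := hT4 _ hk.2
    have h1 : ∀ x ∈ edge v e, tw ρ cc ((T.toFun ∘ fc) x) ≤ 33 := by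
      intro x hx
      have hxs := S308.edge_sub_squ he hx
      have hxR := hsub k hk.1 hxs
      have hxU := hRg hxR
      have h2 := ht x ((hpar1 k hk.1).2 hxs) (fc x) (hfΛ x hxU) (by
        rw [hfc, sub_self, norm_zero]; exact hr.le)
      have h3 := hdeep x hxR (fc x) (hfΛ x hxU) (by rw [sub_self, norm_zero]; exact hpm.le)
      refine hTW Λ ρ mt cc _ t hρ hcc (fun m z hz hyz => gen_of_deep hΛ hz hyz
        (a := d - 1 / 2 ^ mt) ?_ h3) (h2.trans ?_)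
      · have e1 : (2:ℝ) / 2 ^ mt = 2 * (1 / 2 ^ mt) := by ring
        rw [e1]; linarith
      · gcongr
        exact min_le_right _ _
    refine (gW_bound h1).trans ?_
    have h2 := (hX1 e.2 he2 k' hk').2
    rw [← hek] at h2
    calc 574992 * eInt v e (fun x => D.H x ^ (1 / p) + 1)
        ≤ 574992 * (2 * (ENNReal.ofReal (1 / 2 ^ nS) + XE θ v F b e)) := by gcongr
      _ = 1149984 * (ENNReal.ofReal (1 / 2 ^ nS) + XE θ v F b e) := by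
          rw [← mul_assoc]; norm_num
      _ ≤ _ := by
          gcongr
          calc (1149984 : ℝ≥0∞) = ENNReal.ofReal 1149984 := by
                rw [ENNReal.ofReal_ofNat]
            _ ≤ _ := ENNReal.ofReal_le_ofReal N7
  exact ⟨{
    v := v
    ρ := ρ
    size := hρ
    c := cc
    cmem := hcc
    I := I
    part := H.part
    h := h₀.trans T
    bd := hbd
    cond := H.cond hclose
    ℓ := ℓ
    len := H.len_le hUd.1 hclose h8 hlen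
    bulk := hbulk
    frame := hframe
    nS := nS
    a := a
    b := bb
    alt := fun i hi => by
      show 2 ^ (nS - m₀) * α i < 2 ^ (nS - m₀) * β i
      exact mul_lt_mul_of_pos_left (hlt i hi) (by positivity)
    mid := by rw [hdiv]; exact D.mid.trans hmτ
    plane := fun q hq x hx => H.plane hm hmS hq hx
    minS := fun k hk => H.minS hRg hm hmS hk
    minE := hminE
    cov := fun x hx => H194.cov_rect (H194.sc_up hmS α β) x hlt (hcov x hx)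
    layer := hlayer
    mt := mt
    mtε := hmtε
    tile := htile
    G := Gd
    Gsub := Finset.filter_subset _ _
    plate := hplate
    area := ENNReal.ofReal_le_ofReal (harea.trans N6)
    bad := hbadsum'
    X := XE θ v F b
    near := fun i hi k hk => (hX1 i hi k hk).1
    good := hgd
    close := hX2.trans (ENNReal.ofReal_le_ofReal N5) }⟩

end Vale.Agent.P073.H235
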