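import Vale.Agent.P073.H235.PreFlatB

/-!
# P073, block A16, **[PRE-FLAT]**: `SpecPreFlat`
-/

namespace Vale.Agent.P073.H235

open MeasureTheory Set Filter Topology Metric Vale.Agent.P073.St Vale.Agent.P073.AB
open Vale.Agent.P073.SQ (ev)
open Vale.Agent.P073.LOC (Near Q1 BdClose)
open Vale.Agent.P073.H194 (sInt Gen idx Rg up KR FlatOut gW cW refine)
open _root_.P073 (ConHomeo)
open scoped ENNReal

theorem specPreFlat_of {p : ℝ} (hp : 1 ≤ p) (hp3 : p < 3) (hG : SpecGSet 16) (hV : SpecV2)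
    (hPT : SpecPlateT2) (hR : SpecRect) (hCo : SpecCount) (hTW : SpecTW) (hE : SpecEner)
    (hXE : SpecXE) : SpecPreFlat p := by
  have hcW : cW p 8 ≠ ⊤ := H194.cW_ne_top hp (by norm_num)
  have hKc : Kc p 4 ≠ ⊤ := Kc_ne_top (by linarith) hp3 4
  set E : ℝ≥0∞ := 36 * (Kc p 4 * (ENNReal.ofReal (2 ^ p) * 25)) + 1 with hEd
  have hEt : E ≠ ⊤ := by
    refine ENNReal.add_ne_top.2 ⟨ENNReal.mul_ne_top (by norm_num) (ENNReal.mul_ne_top hKc
      (ENNReal.mul_ne_top ENNReal.ofReal_ne_top (by norm_num))), ENNReal.one_ne_top⟩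
  have hDt : cW p 8 * E ≠ ⊤ := ENNReal.mul_ne_top hcW hEt
  set D₁ : ℝ := (cW p 8 * E).toReal with hD₁
  have hD : ENNReal.ofReal D₁ = cW p 8 * E := ENNReal.ofReal_toReal hDt
  have hD0 : 0 ≤ D₁ := ENNReal.toReal_nonneg
  set M : ℝ := D₁ + 1149984 with hM
  have hM0 : 0 < M := by positivity
  have h2p : (1 : ℝ≥0∞) ≤ ENNReal.ofReal (2 ^ p) := by
    rw [← ENNReal.ofReal_one]
    exact ENNReal.ofReal_le_ofReal (Real.one_le_rpow (by norm_num) (by linarith))
  refine ⟨M, hM0, fun ν hν hν4 => ⟨1 / 2, by norm_num, fun θ hθ hθ2 τ hτ δ hδ ε hε => ?_⟩⟩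
  obtain ⟨m₀, -, hm₀⟩ := exists_pow_le (lt_min (show 0 < ν / 16 by positivity)
    (lt_min (show 0 < θ / 2 by positivity) hτ)) 0
  have hm1 : (1:ℝ) / 2 ^ m₀ ≤ ν / 16 := hm₀.trans (min_le_left _ _)
  have hm2 : (1:ℝ) / 2 ^ m₀ ≤ θ / 2 := (hm₀.trans (min_le_right _ _)).trans (min_le_left _ _)
  have hm3 : (1:ℝ) / 2 ^ m₀ ≤ τ := (hm₀.trans (min_le_right _ _)).trans (min_le_right _ _)
  set t : ℝ := ε / (12 * M) with ht
  have ht0 : 0 < t := by positivity
  have h4p : (0:ℝ) < 4 ^ p := Real.rpow_pos_of_pos (by norm_num) _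
  set u : ℝ := ε / (4 * 4 ^ p) with hu
  have hu0 : 0 < u := by positivity
  set εP : ℝ := min ε t with hεP
  have hεP0 : 0 < εP := lt_min hε ht0
  obtain ⟨κP, hκP, HP⟩ := hPT 16 εP (by norm_num) hεP0
  have hs0 : 0 < (κP / 2) ^ (1 - p) := Real.rpow_pos_of_pos (by positivity) _
  set κ : ℝ := min (min (ν * θ) t) (min u (κP / 2 / (κP / 2) ^ (1 - p))) with hκ
  have hκ0 : 0 < κ := lt_min (lt_min (by positivity) ht0) (lt_min hu0 (by positivity))
  have hκ1 : κ ≤ ν * θ := (min_le_left _ _).trans (min_le_left _ _)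
  have hκ2 : κ ≤ t := (min_le_left _ _).trans (min_le_right _ _)
  have hκ3 : κ ≤ u := (min_le_right _ _).trans (min_le_left _ _)
  have hκ4 : (κP / 2) ^ (1 - p) * κ ≤ κP / 2 := by
    have h1 : κ ≤ κP / 2 / (κP / 2) ^ (1 - p) := (min_le_right _ _).trans (min_le_right _ _)
    rw [le_div_iff₀ hs0] at h1
    linarith
  have hνθ : ν * θ ≤ θ := by nlinarith
  set η : ℝ := min (ν * θ) t with hη
  have hη0 : 0 < η := lt_min (by positivity) ht0
  have hη1 : η ≤ ν * θ := min_le_left _ _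
  have hη2 : η ≤ t := min_le_right _ _
  set b : ℝ := min 1 u with hb
  obtain ⟨κ', hκ', HV⟩ := hV p 16 hp hG θ κ m₀ hθ hθ2 hκ0
  refine ⟨κ', hκ', fun Λ f F hN => ?_⟩
  obtain ⟨⟨D⟩, hhom, -⟩ := HV Λ f F hN
  have hΛ := hN.dom
  obtain ⟨E1, E2, E3, E4, E5, E6⟩ := hE p 16 θ κ m₀ Λ f F hp hθ hθ2 D
  obtain ⟨α, β, hα, hlt, hRg, hcard, hcov⟩ := hR ν θ D.v m₀ D.B hν hν4 hθ hm1 hm2 D.mid
  have hUd : St.IsBoundedDomain (Bx (fl θ)) := H761.isBoundedDomain_Bx fun i => by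
    fin_cases i <;> simp [fl, hθ]
  have hS₀ : ∀ k ∈ rect α β, k 2 = D.B ∧ squ D.v ((m₀, k), 2) ⊆ Bx (fl θ) := fun k hk =>
    ⟨by rw [(H194.mem_rect.1 hk).1, hα],
      (H194.squ_sub_Rg (a := α) (b := β) ⟨le_rfl, by simp, by simp⟩ hk).trans hRg⟩
  have hsum : ∑ k ∈ rect α β, sInt D.v ((m₀, k), 2) (fun x => ‖cl (cmpD (fl θ) F x) - P2‖ₑ) ≤
      ENNReal.ofReal κP := by
    refine ((E6 m₀ _ fun k hk => (hS₀ k hk).2).2 (κP / 2) (by positivity)).trans ?_
    calc _ ≤ ENNReal.ofReal (κP / 2) + ENNReal.ofReal ((κP / 2) ^ (1 - p)) * ENNReal.ofReal κ := by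
          gcongr
          · have h1 : ((rect α β).card : ℝ) ≤ 4 ^ m₀ := by exact_mod_cast hcard
            have h2 : ((rect α β).card : ℝ) / 4 ^ m₀ ≤ 1 := by
              rw [div_le_one (by positivity)]; exact h1
            nlinarith
          · exact D.slice _ hS₀
      _ ≤ ENNReal.ofReal (κP / 2) + ENNReal.ofReal (κP / 2) := by
          rw [← ENNReal.ofReal_mul hs0.le]
          gcongr
      _ = _ := by rw [← ENNReal.ofReal_add (by positivity) (by positivity)]; congr 1; ring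
  have P : POut D (rect α β) εP := HP (Bx (fl θ)) Λ (cmp (fl θ) f) _ D.v m₀ (rect α β) D.B hUd.1
    hΛ.1 hhom D.gset hS₀ hcard hsum
  have X : XOut D α β u := hXE p 16 θ κ m₀ Λ f F hp hθ hθ2 hκ0 D α β hα hlt hRg hcard u hu0
  -- the basic estimate
  have key : ∀ (a c g : ℝ), 0 ≤ g → a ≤ g → c ≤ 24 * g →
      cW p 8 * (36 * (Kc p 4 * (ENNReal.ofReal (2 ^ p) * (ENNReal.ofReal a + ENNReal.ofReal c))) +
        ENNReal.ofReal g) ≤ ENNReal.ofReal (D₁ * g) := by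
    intro a c g hg ha hc
    rw [ENNReal.ofReal_mul hD0, hD, mul_assoc]
    refine mul_le_mul' le_rfl ?_
    rw [hEd, add_mul, one_mul]
    refine add_le_add ?_ le_rfl
    calc 36 * (Kc p 4 * (ENNReal.ofReal (2 ^ p) * (ENNReal.ofReal a + ENNReal.ofReal c)))
        ≤ 36 * (Kc p 4 * (ENNReal.ofReal (2 ^ p) * (25 * ENNReal.ofReal g))) := by
          gcongr
          rw [← ENNReal.ofReal_ofNat 25, ← ENNReal.ofReal_mul (by norm_num)]
          calc ENNReal.ofReal a + ENNReal.ofReal c ≤ ENNReal.ofReal g + ENNReal.ofReal (24 * g) := by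
                gcongr
            _ = ENNReal.ofReal (25 * g) := by
                rw [← ENNReal.ofReal_add hg (by positivity)]; congr 1; ring
      _ = _ := by ring
  have hDM : D₁ ≤ M := by rw [hM]; linarith
  have hMt : D₁ * t ≤ ε / 12 := by
    have h1 : M * t = ε / 12 := by rw [ht]; field_simp
    rw [← h1]
    gcongr
  refine preFlat_build (εP := εP) (η := η) (b := b) (δx := u) hp hp3 hθ hθ2 hν hε hδ hη0
    (lt_min one_pos hu0) (min_le_left _ _) hTW hCo hΛ hhom D E1 E2 E3 (E4 ν hν) E5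
    (fun n S hS => (E6 n S hS).1) hα hlt hRg hcov X P hm3 ?_ ?_ ?_ ?_ ?_ (min_le_left _ _) ?_
  · -- N1
    refine le_trans ?_ ((key κ (2 * θ) θ hθ.le (hκ1.trans hνθ) (by linarith)).trans
      (ENNReal.ofReal_le_ofReal (by gcongr)))
    gcongr
    exact hη1.trans hνθ
  · -- N2
    refine le_trans ?_ ((key κ (24 * ν * θ) (ν * θ) (by positivity) hκ1 (by linarith)).trans
      (ENNReal.ofReal_le_ofReal (by rw [mul_assoc M]; gcongr)))
    gcongr
  · -- N3
    refine le_trans ?_ ((key η 0 η hη0.le le_rfl (by positivity)).trans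
      (ENNReal.ofReal_le_ofReal (?_ : D₁ * η ≤ ε)))
    · gcongr
      rw [ENNReal.ofReal_zero, add_zero]
      exact le_mul_of_one_le_left (zero_le) h2p
    · have h1 : D₁ * η ≤ D₁ * t := by gcongr
      linarith
  · -- N4
    have h1 : cW p 8 * (Kc p 4 * (ENNReal.ofReal (2 ^ p) * (ENNReal.ofReal κ +
        ENNReal.ofReal εP)) + ENNReal.ofReal η) ≤ ENNReal.ofReal (D₁ * t) := by
      refine le_trans ?_ (key κ εP t ht0.le hκ2 ((min_le_right _ _).trans (by linarith)))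
      refine mul_le_mul' le_rfl (add_le_add ?_ (ENNReal.ofReal_le_ofReal hη2))
      exact le_mul_of_one_le_left zero_le (by norm_num)
    calc 4 * cW p 8 * (Kc p 4 * (ENNReal.ofReal (2 ^ p) * (ENNReal.ofReal κ +
          ENNReal.ofReal εP)) + ENNReal.ofReal η)
        = 4 * (cW p 8 * (Kc p 4 * (ENNReal.ofReal (2 ^ p) * (ENNReal.ofReal κ +
          ENNReal.ofReal εP)) + ENNReal.ofReal η)) := by ring
      _ ≤ ENNReal.ofReal 4 * ENNReal.ofReal (D₁ * t) := by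
          rw [ENNReal.ofReal_ofNat]
          gcongr
      _ ≤ ENNReal.ofReal ε := by
          rw [← ENNReal.ofReal_mul (by norm_num)]
          apply ENNReal.ofReal_le_ofReal
          linarith
  · -- N5
    have h1 : b ≤ u := min_le_right _ _
    calc (4:ℝ) ^ p * (κ + u + 2 * b) ≤ 4 ^ p * (4 * u) := by gcongr; linarith
      _ = ε := by rw [hu]; field_simp
  · rw [hM]; linarith

end Vale.Agent.P073.H235
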