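import Vale.Agent.P073.H83.Center
import Vale.Agent.P073.H471.TileSt
import Vale.Agent.P073.H194.GoodC

/-!
# P073, block A16, [PRE-MESH], part 1: centres which are good for finitely many measures
-/

namespace Vale.Agent.P073.H235

open MeasureTheory Set Filter Topology Metric Vale.Agent.P073.St
open Vale.Agent.P073.H471 (Cubes wgt wt Cw TI zt st)
open _root_.P073.Net (dyc dyo IsTile SizeFn)
open scoped ENNReal

/-- **Choice of the centres**, for finitely many measures. -/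
theorem exists_centers_fin {ι : Type*} [Countable ι] {Λ : Set V} {z : ι → V} {σ : ι → ℝ}
    (W : Cubes Λ z σ) {p : ℝ} (hp : 0 ≤ p) {J : Type*} [Fintype J] {X : J → Type*}
    [∀ j, MeasurableSpace (X j)] (ν : ∀ j, Measure (X j)) [∀ j, SFinite (ν j)]
    {f : ∀ j, X j → V} (hf : ∀ j, AEMeasurable (f j) (ν j)) {N : Set V} (hN : volume N = 0) :
    ∃ c : ι → V, (∀ i, ‖c i - z i‖ ≤ σ i / 2) ∧ (∀ i, c i ∉ N) ∧
      ∀ j, ∫⁻ x, wgt z σ c (f j x) ^ p ∂(ν j) ≤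
        9 ^ p * (1 + 8 * (4 * Fintype.card J * Cw p)) * ν j univ := by
  have key := fun i => H83.exists_center_fin (p := p) ν hf (z i) (W.pos i) hN (E := ∅)
    (by rw [empty_inter, measure_empty]; exact bot_le)
  choose c h1 h2 h3 h4 using key
  refine ⟨c, fun i => by rw [← dist_eq_norm]; exact mem_closedBall.1 (h1 i), h2, fun j => ?_⟩
  refine H471.lintegral_wgt_le' W hp (ν j) (hf j) fun i => ?_
  refine (h4 i j).trans (le_of_eq ?_)
  ring

/-- the centres of the tiles -/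
abbrev ct {ρ : V → ℝ} (c : ℕ → (Fin 3 → ℤ) → V) (i : TI ρ 0) : V := c i.1.1 i.1.2

/-- the factor -/
noncomputable def Kc (p : ℝ) (n : ℕ) : ℝ≥0∞ := 9 ^ p * (1 + 8 * (4 * n * Cw p))

theorem Kc_ne_top {p : ℝ} (hp : 0 ≤ p) (hp3 : p < 3) (n : ℕ) : Kc p n ≠ ⊤ := by
  have h1 := H471.Cw_ne_top hp3
  unfold Kc
  refine ENNReal.mul_ne_top (ENNReal.rpow_ne_top_of_nonneg hp (by norm_num)) ?_
  refine ENNReal.add_ne_top.2 ⟨ENNReal.one_ne_top, ENNReal.mul_ne_top (by norm_num) ?_⟩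
  exact ENNReal.mul_ne_top (ENNReal.mul_ne_top (by norm_num) (ENNReal.natCast_ne_top n)) h1

/-- **[PRE-MESH, centres]** one family of centres for the tiles, good for finitely many measures,
and outside of a null set. -/
theorem exists_tile_centers {Λ : Set V} {ρ : V → ℝ} (hρ : SizeFn Λ ρ) {p : ℝ} (hp : 0 ≤ p)
    {J : Type*} [Fintype J] {X : J → Type*} [∀ j, MeasurableSpace (X j)]
    (ν : ∀ j, Measure (X j)) [∀ j, SFinite (ν j)] {f : ∀ j, X j → V}
    (hf : ∀ j, AEMeasurable (f j) (ν j)) {Good : V → Prop} (hG : ∀ᵐ c : V, Good c) :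
    ∃ c : ℕ → (Fin 3 → ℤ) → V,
      (∀ m z, IsTile ρ 0 m z → ‖c m z - H73.ctr 0 m z‖ ≤ 1 / 4 / 2 ^ m) ∧
      (∀ m z, IsTile ρ 0 m z → Good (c m z)) ∧
      ∀ j, ∫⁻ x, wgt (zt ρ 0) (st ρ 0) (ct c) (f j x) ^ p ∂(ν j) ≤
        Kc p (Fintype.card J) * ν j univ := by
  classical
  obtain ⟨c, h1, h2, h3⟩ := exists_centers_fin (H471.cubes_tiles hρ 0) hp ν hf (ae_iff.1 hG)
  set c' : ℕ → (Fin 3 → ℤ) → V := fun m z =>
    if h : IsTile ρ 0 m z then c ⟨(m, z), h⟩ else 0 with hc'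
  have hcc : (ct c' : TI ρ 0 → V) = c := by
    funext i
    show c' i.1.1 i.1.2 = c i
    rw [hc']
    exact dif_pos i.2
  refine ⟨c', fun m z h => ?_, fun m z h => ?_, fun j => ?_⟩
  · have h4 := h1 ⟨(m, z), h⟩
    have h5 : c' m z = c ⟨(m, z), h⟩ := dif_pos h
    rw [h5]
    refine h4.trans (le_of_eq ?_)
    show (1:ℝ) / 2 / 2 ^ m / 2 = 1 / 4 / 2 ^ m
    ring
  · have h4 := h2 ⟨(m, z), h⟩
    have h5 : c' m z = c ⟨(m, z), h⟩ := dif_pos h
    rw [h5]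
    simpa using h4
  · rw [hcc]
    exact h3 j

end Vale.Agent.P073.H235
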