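import Vale.Agent.P073.H235.PreM1
import Vale.Agent.P073.H235.PreM2
import Vale.Agent.P073.H194.Flat3
import Vale.Agent.P073.H655.FillT

/-!
# P073, block A16, [PRE-MESH], part 3: the refined partition, the map `T ∘ h₀`, the lengths
-/

namespace Vale.Agent.P073.H235

open MeasureTheory Set Filter Topology Metric Vale.Agent.P073.St Vale.Agent.P073.AB
open Vale.Agent.P073.SQ (ev)
open Vale.Agent.P073.LOC (BdClose)
open Vale.Agent.P073.H73 (MinEdge WLe segP onSeg)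
open Vale.Agent.P073.H194 (sInt fSum Gen idx GoodC FlatOut FlatIn gW refine wH)
open Vale.Agent.P073.H83 (GenB)
open Vale.Agent.P073.H471 (Cubes wgt TI zt st)
open _root_.P073 (ConHomeo)
open _root_.P073.Net (len dyc dyo IsTile SizeFn)
open scoped ENNReal

/-! ### `T` -/

/-- the composition with a Lipschitz map -/
theorem len_comp_T {T : V → V} {Λ : Set V}
    (hT : ∀ y ∈ Λ, ∀ y' ∈ Λ, ‖T y - T y'‖ ≤ 2 * ‖y - y'‖) {γ : ℝ → V} {s : Set ℝ}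
    (hγ : MapsTo γ s Λ) : len (fun t => T (γ t)) s ≤ 4 * len γ s := by
  set t : Set (EuclideanSpace ℝ (Fin 3)) := {w | (WithLp.ofLp w : V) ∈ Λ} with ht
  have h1 : LipschitzOnWith 4 (fun w : EuclideanSpace ℝ (Fin 3) =>
      (WithLp.toLp 2 (T (WithLp.ofLp w)) : EuclideanSpace ℝ (Fin 3))) t := by
    refine LipschitzOnWith.of_dist_le_mul fun a ha b hb => ?_
    rw [dist_eq_norm, dist_eq_norm, ← WithLp.toLp_sub]
    set x : V := WithLp.ofLp a with hx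
    set y : V := WithLp.ofLp b with hy
    have h2 : ‖(WithLp.toLp 2 (T x - T y) : EuclideanSpace ℝ (Fin 3))‖ ≤ 2 * ‖T x - T y‖ := by
      have := _root_.P073.Net.euc_le (T x - T y)
      rwa [_root_.P073.Net.euc_eq] at this
    have h3 : ‖x - y‖ ≤ ‖a - b‖ := by
      have := EuclideanSpace.norm_eq (a - b)
      rw [pi_norm_le_iff_of_nonneg (norm_nonneg _)]
      intro i
      have h4 := PiLp.norm_apply_le (a - b) i
      exact h4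
    calc _ ≤ 2 * ‖T x - T y‖ := h2
      _ ≤ 2 * (2 * ‖x - y‖) := by gcongr; exact hT x ha y hb
      _ ≤ 2 * (2 * ‖a - b‖) := by gcongr
      _ = _ := by push_cast; ring
  have h2 := h1.comp_eVariationOn_le
    (g := fun t => (WithLp.toLp 2 (γ t) : EuclideanSpace ℝ (Fin 3))) (s := s) (fun x hx => hγ hx)
  simpa [len, Function.comp_def] using h2

theorem isHomeo_comp {U Λ : Set V} {f : V → V} (hf : St.IsHomeo U Λ f) (T : ConHomeo Λ Λ) :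
    St.IsHomeo U Λ (T.toFun ∘ f) := by
  obtain ⟨g, ⟨h1, h2⟩, h3, h4⟩ := hf
  refine ⟨g ∘ T.invFun, ⟨fun x hx => ⟨T.mapsTo (h1 x hx).1, ?_⟩, fun y hy => ⟨?_, ?_⟩⟩,
    T.cont.comp h3 fun x hx => (h1 x hx).1, h4.comp T.cont_inv T.mapsTo_inv⟩
  · show g (T.invFun (T.toFun (f x))) = x
    rw [T.left_inv (h1 x hx).1]
    exact (h1 x hx).2
  · exact (h2 _ (T.mapsTo_inv hy)).1
  · show T.toFun (f (g (T.invFun y))) = y
    rw [(h2 _ (T.mapsTo_inv hy)).2]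
    exact T.right_inv hy

/-- the dyadic planes, for `T ∘ f` -/
theorem planes_comp {U Λ : Set V} {f : V → V} {v : V} (hf : St.IsHomeo U Λ f) (T : ConHomeo Λ Λ)
    (hT : ∀ y ∈ Λ, ∀ y' ∈ Λ, ‖T.toFun y - T.toFun y'‖ ≤ 2 * ‖y - y'‖)
    (hpl : ∀ h : V → V, St.IsInv U Λ f h → ∀ᵐ y : V, y ∈ Λ → ∀ n, h y ∈ dyo v n (idx v n (h y))) :
    ∀ᵐ c : V, ∀ x ∈ U, (T.toFun ∘ f) x = c → ∀ m, x ∈ dyo v m (idx v m x) := by
  obtain ⟨g, hg, -, -⟩ := hf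
  have h1 := ae_iff.1 (hpl g hg)
  set S : Set V := {y | ¬ (y ∈ Λ → ∀ n, g y ∈ dyo v n (idx v n (g y)))} with hS
  have hSΛ : S ⊆ Λ := fun y hy => by
    by_contra hcon
    exact hy fun h => absurd h hcon
  have hL : LipschitzOnWith 2 T.toFun Λ := LipschitzOnWith.of_dist_le_mul fun a ha b hb => by
    rw [dist_eq_norm, dist_eq_norm]
    exact hT a ha b hb
  have h2 := H655.null_image_lip hL h1 hSΛ
  rw [ae_iff]
  refine measure_mono_null (fun c hc => ?_) h2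
  simp only [mem_ofPred_eq, not_forall] at hc
  obtain ⟨x, hx, hxc, m, hm⟩ := hc
  refine ⟨f x, ?_, hxc⟩
  intro h
  have h3 := h (hg.1 x hx).1 m
  rw [(hg.1 x hx).2] at h3
  exact hm h3

/-- almost every point is a good centre (no good cells) -/
theorem ae_goodC0 {p : ℝ} (hp3 : p < 3) {Ω Λ : Set V} (hΩ : IsOpen Ω) (hΛ : IsOpen Λ) {f : V → V}
    (hf : St.IsHomeo Ω Λ f) {G : V → ℝ≥0∞} (hG : Measurable G) (hfin : ∫⁻ x, G x ≠ ⊤) {v : V}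
    {nn : ℕ → ℕ} (hnn : StrictMono nn) (hGB : GenB v nn G)
    (hpl : ∀ᵐ c : V, ∀ x ∈ Ω, f x = c → ∀ m, x ∈ dyo v m (idx v m x)) :
    ∀ᵐ c : V, GoodC p Ω f G v nn ∅ (fun _ => id) c := by
  obtain ⟨h, hinv, hfc, hhc⟩ := hf
  have h1 := H83.ae_big hp3 hΛ hΩ hfc hhc hinv.2 hG hfin hnn hGB
  filter_upwards [h1, hpl] with c hc hc2
  refine ⟨fun x hx hxc => ⟨hc2 x hx hxc, ?_⟩, fun z hz => absurd hz (Finset.notMem_empty z)⟩
  have h5 := hinv.1 x hx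
  have h6 := hc (hxc ▸ h5.1)
  rwa [← hxc, h5.2, hxc] at h6

/-! ### The mesh -/

/-- **[PRE-MESH]** the refined partition and the conical homeomorphism `T ∘ h₀` -/
theorem exists_mesh {p : ℝ} (hp : 1 ≤ p) {U Λ : Set V} (hU : St.IsBoundedDomain U)
    (hΛ : St.IsBoundedDomain Λ) {f : V → V} {F : V → Mat} (hf : St.IsHomeo U Λ f) {v : V}
    {nn : ℕ → ℕ} (hnn : StrictMono nn) (rat : RatGood v U f F) {G : V → ℝ≥0∞}
    (hGm : Measurable G) (hGf : ∫⁻ x, G x ≠ ⊤) (hG : Gen v nn G) {A : V → ℝ≥0∞}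
    (hA : ∀ e, edge v e ⊆ U → eInt v e (fun x => ‖cl (F x)‖ₑ) ≠ ⊤ ∧
      eInt v e (fun x => ‖cl (F x)‖ₑ + 1) ≤ eInt v e (fun x => A x + 1))
    {T : ConHomeo Λ Λ}
    (hT : ∀ y ∈ Λ, ∀ y' ∈ Λ, ‖T.toFun y - T.toFun y'‖ ≤ 2 * ‖y - y'‖) {K : Set V}
    (hK : IsCompact K) (hKΛ : K ⊆ Λ) (hTK : ∀ y ∈ Λ, y ∉ K → T.toFun y = y) {ρ : V → ℝ}
    (hρ : SizeFn Λ ρ) {cc : ℕ → (Fin 3 → ℤ) → V}
    (hc : ∀ m z, IsTile ρ 0 m z → ‖cc m z - H73.ctr 0 m z‖ ≤ 1 / 4 / 2 ^ m)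
    (hgood : ∀ m z, IsTile ρ 0 m z → GoodC p U (T.toFun ∘ f) G v nn ∅ (fun _ => id) (cc m z))
    {I₀ : Set Idx} (hI₀ : Part U v I₀) {δ : ℝ} (hδ : 0 < δ) {e : Idx → ℝ≥0∞} (he : ∀ q, e q ≠ 0)
    {KK : Set Idx} (hKK : KK.Finite) (hKI : KK ⊆ I₀) {S : Finset ((Idx × Fin 3) × Fin 3)}
    (hS : ∀ s ∈ S, s.2 ≠ s.1.2 ∧ ∃ q ∈ KK, squ v s.1 ⊆ dyc v q.1 q.2 ∧
      ∀ q ∈ I₀, Disjoint (squ v s.1) (dyo v q.1 q.2)) {δ₁ : ℝ≥0∞} (hδ₁ : δ₁ ≠ 0) {r b : ℝ}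
    (hr : 0 < r) (hb : 0 < b) (hb1 : b ≤ 1) (th : Idx → ℕ) (N₁ : ℕ) :
    ∃ (B : Set Idx) (τ : Idx → ℝ) (nf : Idx → ℕ) (nS : ℕ) (h₀ : ConHomeo U Λ), N₁ ≤ nS ∧
      (∀ q ∈ I₀, th q ≤ nf q ∧ nf q ∈ range nn) ∧
      FlatOut p δ U Λ (T.toFun ∘ f) G v I₀ (zt ρ 0) (st ρ 0) (fun i => cc i.1.1 i.1.2) e τ KK S
        δ₁ B nf nS ∧
      (∀ q ∈ I₀, ∀ x ∈ dyc v q.1 q.2, ‖(h₀.trans T).toFun x - (T.toFun ∘ f) x‖ ≤ τ q) ∧
      (∀ x ∈ U, ‖h₀.toFun x - f x‖ ≤ r) ∧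
      BdClose U f (h₀.trans T).toFun ∧
      (∀ e : Idx × Fin 3, (∃ q ∈ refine v I₀ ∅ B nf, EdgeOf e q) →
        eInt v e (fun x => ENNReal.ofReal ‖lineDeriv ℝ h₀.toFun x (ev e.2) -
          cl (F x) (ev e.2)‖) ≤ ENNReal.ofReal (b / 2 ^ e.1.1)) ∧
      ∀ e', MinEdge v (refine v I₀ ∅ B nf) e' →
        len (onSeg (h₀.trans T).toFun (segP v e')) (Icc 0 1) ≤
          8 * eInt v e' (fun x => A x + 1) := by
  have D : FlatIn p U Λ (T.toFun ∘ f) G v nn I₀ (fun i : TI ρ 0 => cc i.1.1 i.1.2) :=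
    { oΩ := hU.1
      oΛ := hΛ.1
      hom := isHomeo_comp hf T
      mono := hnn
      meas := hGm
      fin := hGf
      gen := hG
      part := hI₀
      good := fun i => hgood _ _ i.2 }
  obtain ⟨B, τ, hτ, hmain⟩ := H194.mesh_flat D (by linarith) (H471.cubes_tiles hρ 0)
    (fun i => by
      refine (hc _ _ i.2).trans (le_of_eq ?_)
      show (1:ℝ) / 4 / 2 ^ i.1.1 = 1 / 2 / 2 ^ i.1.1 / 2
      ring) hδ he hKK hKI hS hδ₁
  obtain ⟨nf, nS, hN, hth, hO⟩ := hmain th N₁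
  have hsub : ∀ e : Idx × Fin 3, (∃ q ∈ refine v I₀ ∅ B nf, EdgeOf e q) → edge v e ⊆ U := by
    rintro e ⟨q, hq, he⟩
    exact (Gr.edge_subset_dyc he).trans (hO.part.sub q hq)
  have hle : ∀ (k : Fin 3) x, ENNReal.ofReal ‖cl (F x) (ev k)‖ ≤ ‖cl (F x)‖ₑ := by
    intro k x
    rw [ofReal_norm]
    have h3 : ‖cl (F x) (ev k)‖ ≤ ‖cl (F x)‖ := by
      have h4 := (cl (F x)).le_opNorm (ev k)
      rwa [S293.ev_norm, mul_one] at h4
    exact enorm_le_iff_norm_le.2 h3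
  have hfin : ∀ e : Idx × Fin 3, (∃ q ∈ refine v I₀ ∅ B nf, EdgeOf e q) →
      eInt v e (fun x => ENNReal.ofReal ‖cl (F x) (ev e.2)‖) ≠ ⊤ := fun e he =>
    ne_top_of_le_ne_top (hA e (hsub e he)).1 (H333.eInt_mono_on fun x _ => hle e.2 x)
  obtain ⟨h₀, h1, h2, h3⟩ := exists_h0 hU hΛ hf hI₀ hO.part rat hfin
    (τ := fun q => min (τ q / 2) r) (fun q => lt_min (by have := hτ q; positivity) hr)
    (δ := fun e => b / 2 ^ e.1.1) (fun e => by positivity)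
  have hfΛ : ∀ x ∈ U, f x ∈ Λ := by
    obtain ⟨g, hg, -, -⟩ := hf
    exact fun x hx => (hg.1 x hx).1
  refine ⟨B, τ, nf, nS, h₀, hN, hth, hO, fun q hq x hx => ?_, fun x hx => ?_,
    bdClose_comp h₀ T hK hKΛ hTK h2, fun e he => (h3 e he).2, fun e' he' => ?_⟩
  · have hxU := hI₀.sub q hq hx
    refine (hT _ (h₀.mapsTo hxU) _ (hfΛ x hxU)).trans ?_
    have h4 := (h1 q hq x hx).trans (min_le_left _ _)
    linarith
  · obtain ⟨q, hq, hxq⟩ := hI₀.cover x hx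
    exact (h1 q hq x hxq).trans (min_le_right _ _)
  · have hes := hsub e' he'.1
    have h4 : MapsTo (onSeg h₀.toFun (segP v e')) (Icc 0 1) Λ := by
      intro t ht
      refine h₀.mapsTo (hes ?_)
      rw [edge, segment_eq_image']
      refine ⟨t, ht, ?_⟩
      simp only [segP]
    have h5 := len_comp_T (T := T.toFun) hT h4
    have h6 := H194.len_close h₀ rat hes (hA e' hes).1 hb.le (h3 e' he'.1).2
    calc len (onSeg (h₀.trans T).toFun (segP v e')) (Icc 0 1)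
        ≤ 4 * len (onSeg h₀.toFun (segP v e')) (Icc 0 1) := h5
      _ ≤ 4 * (2 * eInt v e' fun x => ‖cl (F x)‖ₑ + ENNReal.ofReal b) := by gcongr
      _ ≤ 4 * (2 * eInt v e' fun x => ‖cl (F x)‖ₑ + 1) := by
          gcongr
          refine H333.eInt_mono_on fun x _ => ?_
          gcongr
          exact ENNReal.ofReal_le_one.2 hb1
      _ ≤ 4 * (2 * eInt v e' fun x => A x + 1) := by
          gcongr
          exact (hA e' hes).2
      _ = _ := by rw [← mul_assoc]; norm_num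

end Vale.Agent.P073.H235
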