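import Vale.Agent.P073.H235.PreM1
import Vale.Agent.P073.H333.PreDefs

/-!
# P073, block A16, [PRE-MESH], part 4: centres, for measures on the domain
-/

namespace Vale.Agent.P073.H235

open MeasureTheory Set Filter Topology Metric Vale.Agent.P073.St Vale.Agent.P073.AB
open Vale.Agent.P073.H471 (Cubes wgt wt Cw TI zt st)
open Vale.Agent.P073.H194 (sInt)
open Vale.Agent.P073.H333 (tw)
open _root_.P073.Net (dyc dyo IsTile SizeFn)
open scoped ENNReal

theorem measurable_wgt {ι : Type*} [Countable ι] (z c : ι → V) (σ : ι → ℝ) :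
    Measurable (wgt z σ c) := by
  unfold wgt
  refine measurable_const.add (Measurable.ennreal_tsum fun i => ?_)
  refine Measurable.indicator ?_ measurableSet_closedBall
  exact measurable_const.div ((measurable_id.sub_const (c i)).norm.ennreal_ofReal)

theorem measurable_tw (ρ : V → ℝ) (c : ℕ → (Fin 3 → ℤ) → V) : Measurable (tw ρ c) :=
  measurable_wgt _ _ _

theorem aemeasurable_of_U {μ : Measure V} {U : Set V} (hU : MeasurableSet U) (hμ : μ Uᶜ = 0)
    {f : V → V} (hf : ContinuousOn f U) : AEMeasurable f μ := by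
  have h1 : μ.restrict U = μ := Measure.restrict_eq_self_of_ae_mem (by
    rw [ae_iff]; exact hμ)
  rw [← h1]
  exact hf.aemeasurable hU

/-- **[PRE-MESH, centres]** for finitely many measures on `U` -/
theorem exists_centers_mu {Λ : Set V} {ρ : V → ℝ} (hρ : SizeFn Λ ρ) {p : ℝ} (hp : 0 ≤ p)
    {J : Type*} [Fintype J] (μ : J → Measure V) [∀ j, SFinite (μ j)] {U : Set V}
    (hU : MeasurableSet U) (hμ : ∀ j, μ j Uᶜ = 0) {f : V → V} (hf : ContinuousOn f U)
    {G : V → ℝ≥0∞} (hG : Measurable G) {Good : V → Prop} (hGood : ∀ᵐ c : V, Good c) :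
    ∃ c : ℕ → (Fin 3 → ℤ) → V,
      (∀ m z, IsTile ρ 0 m z → ‖c m z - H73.ctr 0 m z‖ ≤ 1 / 4 / 2 ^ m) ∧
      (∀ m z, IsTile ρ 0 m z → Good (c m z)) ∧
      ∀ j, ∫⁻ x, tw ρ c (f x) ^ p * G x ∂(μ j) ≤
        Kc p (Fintype.card J) * ∫⁻ x, G x ∂(μ j) := by
  have hfm : ∀ j, AEMeasurable f (μ j) := fun j => aemeasurable_of_U hU (hμ j) hf
  have hfm' : ∀ j, AEMeasurable f ((μ j).withDensity G) := fun j =>
    (hfm j).mono_ac (withDensity_absolutelyContinuous _ _)
  obtain ⟨c, h1, h2, h3⟩ := exists_tile_centers hρ hp (J := J) (X := fun _ => V)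
    (fun j => (μ j).withDensity G) (f := fun _ => f) hfm' hGood
  refine ⟨c, h1, h2, fun j => ?_⟩
  have h4 := h3 j
  have h5 : AEMeasurable (fun x => tw ρ c (f x) ^ p) (μ j) :=
    ((measurable_tw ρ c).pow_const p).comp_aemeasurable (hfm j)
  rw [withDensity_apply _ MeasurableSet.univ, Measure.restrict_univ] at h4
  refine le_trans (le_of_eq ?_) h4
  have h6 := lintegral_withDensity_eq_lintegral_mul₀ (μ := μ j) hG.aemeasurable h5
  refine Eq.trans ?_ h6.symm
  refine lintegral_congr fun x => ?_
  rw [Pi.mul_apply, mul_comm]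

/-- the surface measure on the squares `((n, k), l)`, `k ∈ S` -/
noncomputable def surfM (v : V) (n : ℕ) (l : Fin 3) (S : Finset (Fin 3 → ℤ)) : Measure V :=
  ∑ k ∈ S, (2 ^ n : ℝ≥0∞) • (volume.restrict (dyc v n k)).map
    fun x => Function.update x l (pt v n k l)

theorem measurable_upd (l : Fin 3) (t : ℝ) : Measurable fun x : V => Function.update x l t :=
  (continuous_id.update l continuous_const).measurable

instance (v : V) (n : ℕ) (l : Fin 3) (S : Finset (Fin 3 → ℤ)) : SFinite (surfM v n l S) := by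
  unfold surfM
  classical
  induction S using Finset.induction_on with
  | empty => rw [Finset.sum_empty]; infer_instance
  | insert k S hk ih => rw [Finset.sum_insert hk]; infer_instance

theorem lintegral_surfM {v : V} {n : ℕ} {l : Fin 3} {S : Finset (Fin 3 → ℤ)} {F : V → ℝ≥0∞}
    (hF : AEMeasurable F (surfM v n l S)) :
    ∫⁻ x, F x ∂(surfM v n l S) = ∑ k ∈ S, sInt v ((n, k), l) F := by
  classical
  unfold surfM at hF ⊢
  rw [lintegral_finset_sum_measure]
  refine Finset.sum_congr rfl fun k hk => ?_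
  rw [lintegral_smul_measure]
  have h1 : AEMeasurable F ((volume.restrict (dyc v n k)).map
      fun x => Function.update x l (pt v n k l)) := by
    refine hF.mono_ac ?_
    intro s hs
    rw [Measure.finset_sum_apply, Finset.sum_eq_zero_iff] at hs
    have h2 := hs k hk
    rw [Measure.smul_apply, smul_eq_mul, mul_eq_zero] at h2
    rcases h2 with h2 | h2
    · exact absurd h2 (by positivity)
    · exact h2
  rw [lintegral_map' h1 (measurable_upd l _).aemeasurable]
  rfl

theorem surfM_compl {v : V} {n : ℕ} {l : Fin 3} {S : Finset (Fin 3 → ℤ)} {U : Set V}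
    (hU : MeasurableSet U) (hS : ∀ k ∈ S, squ v ((n, k), l) ⊆ U) : surfM v n l S Uᶜ = 0 := by
  unfold surfM
  rw [Measure.finset_sum_apply]
  refine Finset.sum_eq_zero fun k hk => ?_
  rw [Measure.smul_apply, Measure.map_apply (measurable_upd l _) hU.compl,
    Measure.restrict_apply (measurable_upd l _ hU.compl)]
  have h1 : (fun x : V => Function.update x l (pt v n k l)) ⁻¹' Uᶜ ∩ dyc v n k = ∅ := by
    rw [Set.eq_empty_iff_forall_notMem]
    rintro x ⟨hx1, hx2⟩
    refine hx1 (hS k hk ⟨?_, fun j hj => ?_⟩)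
    · simp [pt]
    · have hj' : j ≠ l := hj
      have e1 : (fun x : V => Function.update x l (pt v n k l)) x j = x j :=
        Function.update_of_ne hj' _ _
      rw [e1]
      exact hx2 j
  rw [h1, measure_empty, smul_zero]

end Vale.Agent.P073.H235
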