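import Vale.Agent.P073.H235.FlatSpec

/-!
# P073: the profile of the un-collapse (one variable)
-/

namespace Vale.Agent.P073.H235

open MeasureTheory Set Filter Topology Metric
open scoped ContDiff ENNReal

/-- symmetric smooth step -/
noncomputable def sg (t : ℝ) : ℝ := Real.smoothTransition ((1 + t) / 2)

theorem sg_nonneg (t : ℝ) : 0 ≤ sg t := Real.smoothTransition.nonneg _

theorem sg_le_one (t : ℝ) : sg t ≤ 1 := Real.smoothTransition.le_one _

theorem sg_of_le {t : ℝ} (h : t ≤ -1) : sg t = 0 :=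
  Real.smoothTransition.zero_of_nonpos (by linarith)

theorem sg_of_ge {t : ℝ} (h : 1 ≤ t) : sg t = 1 :=
  Real.smoothTransition.one_of_one_le (by linarith)

theorem sg_add_neg (t : ℝ) : sg t + sg (-t) = 1 := by
  unfold sg Real.smoothTransition
  have h1 : 1 - (1 + t) / 2 = (1 + -t) / 2 := by ring
  have h2 : 1 - (1 + -t) / 2 = (1 + t) / 2 := by ring
  rw [h1, h2]
  have h3 : expNegInvGlue ((1 + t) / 2) + expNegInvGlue ((1 + -t) / 2) ≠ 0 := by
    have a1 := expNegInvGlue.nonneg ((1 + t) / 2)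
    have a2 := expNegInvGlue.nonneg ((1 + -t) / 2)
    rcases lt_or_ge 0 ((1 + t) / 2) with h | h
    · have := expNegInvGlue.pos_of_pos h
      positivity
    · have : 0 < (1 + -t) / 2 := by linarith
      have := expNegInvGlue.pos_of_pos this
      positivity
  rw [add_comm (expNegInvGlue ((1 + -t) / 2)) (expNegInvGlue ((1 + t) / 2)), ← add_div,
    div_self h3]

theorem contDiff_sg : ContDiff ℝ ∞ sg :=
  Real.smoothTransition.contDiff.comp ((contDiff_const.add contDiff_id).div_const 2)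

theorem continuous_sg : Continuous sg := contDiff_sg.continuous

/-- the primitive of `sg` -/
noncomputable def Sg (t : ℝ) : ℝ := ∫ s in (-1 : ℝ)..t, sg s

theorem hasDerivAt_Sg (t : ℝ) : HasDerivAt Sg (sg t) t :=
  intervalIntegral.integral_hasDerivAt_right (continuous_sg.intervalIntegrable _ _)
    (continuous_sg.stronglyMeasurableAtFilter _ _) continuous_sg.continuousAt

theorem contDiff_Sg : ContDiff ℝ ∞ Sg := by
  rw [contDiff_infty_iff_deriv]
  refine ⟨fun t => (hasDerivAt_Sg t).differentiableAt, ?_⟩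
  have : deriv Sg = sg := funext fun t => (hasDerivAt_Sg t).deriv
  rw [this]
  exact contDiff_sg

theorem Sg_of_le {t : ℝ} (h : t ≤ -1) : Sg t = 0 := by
  unfold Sg
  rw [intervalIntegral.integral_congr (g := fun _ => (0 : ℝ))]
  · simp
  · intro s hs
    rw [uIcc_of_ge h] at hs
    exact sg_of_le hs.2

theorem Sg_sub_neg (t : ℝ) : Sg t - Sg (-t) = t := by
  have h1 : ∀ s, HasDerivAt (fun s => Sg s - Sg (-s) - s) 0 s := by
    intro s
    have := ((hasDerivAt_Sg s).sub (((hasDerivAt_Sg (-s)).comp s (hasDerivAt_neg s)))).sub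
      (hasDerivAt_id s)
    refine HasDerivAt.congr_deriv this ?_
    have := sg_add_neg s
    linarith
  have h2 := is_const_of_deriv_eq_zero (fun s => (h1 s).differentiableAt) (fun s => (h1 s).deriv)
    t 0
  simp only [neg_zero, sub_self, sub_zero] at h2
  linarith

theorem Sg_of_ge {t : ℝ} (h : 1 ≤ t) : Sg t = t := by
  have := Sg_sub_neg t
  rw [Sg_of_le (by linarith : -t ≤ -1)] at this
  linarith

/-- the profile -/
noncomputable def Apr (δ τ u x : ℝ) : ℝ :=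
  u - δ * Sg ((u - x) / δ) + δ * Sg ((x - 1 + u) / δ) + τ * x

/-- the derivative of the profile, without the summand `τ` -/
noncomputable def Spr (δ u x : ℝ) : ℝ := sg ((u - x) / δ) + sg ((x - 1 + u) / δ)

/-- the height in the compressed box -/
noncomputable def dpr (θ δ τ u x : ℝ) : ℝ := 2 * θ * Apr δ τ u x / (2 * u + τ)

section

variable {θ δ τ u x : ℝ}

theorem Spr_nonneg : 0 ≤ Spr δ u x := add_nonneg (sg_nonneg _) (sg_nonneg _)

theorem Spr_le_two : Spr δ u x ≤ 2 := by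
  unfold Spr; linarith [sg_le_one ((u - x) / δ), sg_le_one ((x - 1 + u) / δ)]

theorem Apr_zero (hδ : 0 < δ) (h1 : δ ≤ u) (h2 : u ≤ 1 - δ) : Apr δ τ u 0 = 0 := by
  unfold Apr
  rw [Sg_of_ge (t := (u - 0) / δ) (by rw [sub_zero, le_div_iff₀ hδ]; linarith),
    Sg_of_le (t := (0 - 1 + u) / δ) (by rw [div_le_iff₀ hδ]; linarith)]
  field_simp
  ring

theorem Apr_one (hδ : 0 < δ) (h1 : δ ≤ u) (h2 : u ≤ 1 - δ) : Apr δ τ u 1 = 2 * u + τ := by
  unfold Apr
  rw [Sg_of_le (t := (u - 1) / δ) (by rw [div_le_iff₀ hδ]; linarith),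
    Sg_of_ge (t := (1 - 1 + u) / δ) (by rw [le_div_iff₀ hδ]; linarith)]
  field_simp
  ring

theorem Apr_half (hδ : 0 < δ) : Apr δ τ (1 / 2) x = (1 + τ) * x := by
  unfold Apr
  have h := Sg_sub_neg ((1 / 2 - x) / δ)
  have h2 : (x - 1 + 1 / 2) / δ = -((1 / 2 - x) / δ) := by ring
  rw [h2]
  have h3 : δ * (Sg ((1 / 2 - x) / δ) - Sg (-((1 / 2 - x) / δ))) = 1 / 2 - x := by
    rw [h]; field_simp
  linarith

theorem dpr_half (hδ : 0 < δ) (hτ : 0 ≤ τ) : dpr θ δ τ (1 / 2) x = 2 * θ * x := by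
  unfold dpr
  rw [Apr_half hδ]
  have : (2 * (1 / 2) + τ : ℝ) ≠ 0 := by linarith
  field_simp

theorem Spr_half : Spr δ (1 / 2) x = 1 := by
  unfold Spr
  have h2 : (x - 1 + 1 / 2) / δ = -((1 / 2 - x) / δ) := by ring
  rw [h2]
  exact sg_add_neg _

theorem hasDerivAt_Apr (hδ : δ ≠ 0) : HasDerivAt (fun x => Apr δ τ u x) (Spr δ u x + τ) x := by
  unfold Apr Spr
  have h1 : HasDerivAt (fun x => (u - x) / δ) (-1 / δ) x := by
    simpa using ((hasDerivAt_id x).const_sub u).div_const δ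
  have h2 : HasDerivAt (fun x => (x - 1 + u) / δ) (1 / δ) x := by
    simpa using (((hasDerivAt_id x).sub_const 1).add_const u).div_const δ
  have h3 := (((hasDerivAt_Sg _).comp x h1).const_mul δ).const_sub u
  have h4 := ((hasDerivAt_Sg _).comp x h2).const_mul δ
  have h5 := (h3.add h4).add ((hasDerivAt_id x).const_mul τ)
  refine HasDerivAt.congr_deriv h5 ?_
  field_simp

theorem hasDerivAt_Apr_u (hδ : δ ≠ 0) : HasDerivAt (fun u => Apr δ τ u x)
    (1 - sg ((u - x) / δ) + sg ((x - 1 + u) / δ)) u := by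
  unfold Apr
  have h1 : HasDerivAt (fun u => (u - x) / δ) (1 / δ) u := by
    simpa using ((hasDerivAt_id u).sub_const x).div_const δ
  have h2 : HasDerivAt (fun u => (x - 1 + u) / δ) (1 / δ) u := by
    simpa using ((hasDerivAt_id u).const_add (x - 1)).div_const δ
  have h3 := (hasDerivAt_id u).sub (((hasDerivAt_Sg _).comp u h1).const_mul δ)
  have h4 := ((hasDerivAt_Sg _).comp u h2).const_mul δ
  have h5 := (h3.add h4).add_const (τ * x)
  refine HasDerivAt.congr_deriv h5 ?_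
  field_simp

/-- the derivative of the height in the direction `x` -/
noncomputable def dx (θ δ τ u x : ℝ) : ℝ := 2 * θ * (Spr δ u x + τ) / (2 * u + τ)

/-- the derivative of the height in the direction `u` -/
noncomputable def du (θ δ τ u x : ℝ) : ℝ :=
  2 * θ * ((1 - sg ((u - x) / δ) + sg ((x - 1 + u) / δ)) * (2 * u + τ) - Apr δ τ u x * 2) /
    (2 * u + τ) ^ 2

theorem hasDerivAt_dpr (hδ : δ ≠ 0) : HasDerivAt (fun x => dpr θ δ τ u x) (dx θ δ τ u x) x :=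
  ((hasDerivAt_Apr hδ).const_mul (2 * θ)).div_const (2 * u + τ)

theorem hasDerivAt_dpr_u (hδ : δ ≠ 0) (h : 2 * u + τ ≠ 0) :
    HasDerivAt (fun u => dpr θ δ τ u x) (du θ δ τ u x) u := by
  have h1 : HasDerivAt (fun u => 2 * u + τ) 2 u := by
    simpa using ((hasDerivAt_id u).const_mul 2).add_const τ
  have h2 := ((hasDerivAt_Apr_u (τ := τ) (x := x) hδ).const_mul (2 * θ)).div h1 h
  refine HasDerivAt.congr_deriv h2 ?_
  unfold du
  ring

theorem dx_pos (hθ : 0 < θ) (hτ : 0 < τ) (hu : 0 < u) : 0 < dx θ δ τ u x := by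
  unfold dx
  have := Spr_nonneg (δ := δ) (u := u) (x := x)
  positivity

theorem strictMono_Apr (hδ : δ ≠ 0) (hτ : 0 < τ) : StrictMono fun x => Apr δ τ u x := by
  refine strictMono_of_deriv_pos fun x => ?_
  rw [(hasDerivAt_Apr hδ).deriv]
  have := Spr_nonneg (δ := δ) (u := u) (x := x)
  linarith

theorem strictMono_dpr (hδ : δ ≠ 0) (hθ : 0 < θ) (hτ : 0 < τ) (hu : 0 < u) :
    StrictMono fun x => dpr θ δ τ u x := by
  refine strictMono_of_deriv_pos fun x => ?_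
  rw [(hasDerivAt_dpr hδ).deriv]
  exact dx_pos hθ hτ hu

theorem dpr_zero (hδ : 0 < δ) (h1 : δ ≤ u) (h2 : u ≤ 1 - δ) : dpr θ δ τ u 0 = 0 := by
  unfold dpr; rw [Apr_zero hδ h1 h2]; simp

theorem dpr_one (hδ : 0 < δ) (hτ : 0 ≤ τ) (h1 : δ ≤ u) (h2 : u ≤ 1 - δ) :
    dpr θ δ τ u 1 = 2 * θ := by
  unfold dpr
  rw [Apr_one hδ h1 h2]
  have : 2 * u + τ ≠ 0 := by linarith
  field_simp

theorem Apr_mem (hδ : 0 < δ) (hτ : 0 < τ) (h1 : δ ≤ u) (h2 : u ≤ 1 - δ) (h0 : 0 ≤ x)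
    (hx : x ≤ 1) : 0 ≤ Apr δ τ u x ∧ Apr δ τ u x ≤ 2 * u + τ := by
  have hm := (strictMono_Apr (u := u) hδ.ne' hτ).monotone
  have e0 := Apr_zero (τ := τ) hδ h1 h2
  have e1 := Apr_one (τ := τ) hδ h1 h2
  constructor
  · have := hm h0; simp only [e0] at this; exact this
  · have := hm hx; simp only [e1] at this; exact this

/-- where the derivative is not small -/
theorem dx_lower (hθ : 0 < θ) (hτ : 0 < τ) (hu : 0 < u) (hτu : τ ≤ 2 * u)
    (hS : 1 / 2 ≤ Spr δ u x) : θ / (4 * u) ≤ dx θ δ τ u x := by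
  unfold dx
  rw [div_le_div_iff₀ (by positivity) (by positivity)]
  have h1 : 2 * u + τ ≤ 4 * u := by linarith
  have h2 : 1 / 2 ≤ Spr δ u x + τ := by linarith
  calc θ * (2 * u + τ) ≤ θ * (4 * u) := by gcongr
    _ = 2 * θ * (1 / 2) * (4 * u) := by ring
    _ ≤ 2 * θ * (Spr δ u x + τ) * (4 * u) := by gcongr

theorem dx_upper (hθ : 0 < θ) (hτ : 0 < τ) (hτ1 : τ ≤ 1) (hu : 0 < u) :
    dx θ δ τ u x ≤ 3 * θ / u := by
  unfold dx
  rw [div_le_div_iff₀ (by positivity) (by positivity)]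
  have h1 : Spr δ u x + τ ≤ 3 := by linarith [Spr_le_two (δ := δ) (u := u) (x := x)]
  calc 2 * θ * (Spr δ u x + τ) * u ≤ 2 * θ * 3 * u := by gcongr
    _ = 3 * θ * (2 * u) := by ring
    _ ≤ 3 * θ * (2 * u + τ) := by gcongr; linarith

theorem abs_du_le (hθ : 0 < θ) (hδ : 0 < δ) (hτ : 0 < τ) (h1 : δ ≤ u) (h2 : u ≤ 1 - δ)
    (h0 : 0 ≤ x) (hx : x ≤ 1) : |du θ δ τ u x| ≤ 2 * θ / u := by
  have hu : 0 < u := hδ.trans_le h1
  obtain ⟨a1, a2⟩ := Apr_mem hδ hτ h1 h2 h0 hx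
  unfold du
  have b1 := sg_nonneg ((u - x) / δ)
  have b2 := sg_le_one ((u - x) / δ)
  have b3 := sg_nonneg ((x - 1 + u) / δ)
  have b4 := sg_le_one ((x - 1 + u) / δ)
  have hw : 0 < 2 * u + τ := by linarith
  set s1 := sg ((u - x) / δ)
  set s2 := sg ((x - 1 + u) / δ)
  set A := Apr δ τ u x
  have h3 : |(1 - s1 + s2) * (2 * u + τ) - A * 2| ≤ 2 * (2 * u + τ) := by
    rw [abs_le]
    constructor
    · have : 0 ≤ (1 - s1 + s2) * (2 * u + τ) := by
        apply mul_nonneg _ hw.le; linarith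
      linarith
    · have : (1 - s1 + s2) * (2 * u + τ) ≤ 2 * (2 * u + τ) := by
        gcongr; linarith
      linarith
  rw [abs_div, abs_mul, abs_of_pos (by positivity : (0:ℝ) < 2 * θ),
    abs_of_pos (by positivity : (0:ℝ) < (2 * u + τ) ^ 2), div_le_div_iff₀ (by positivity) hu]
  calc 2 * θ * |(1 - s1 + s2) * (2 * u + τ) - A * 2| * u
      ≤ 2 * θ * (2 * (2 * u + τ)) * u := by gcongr
    _ = 2 * θ * (2 * u) * (2 * u + τ) := by ring
    _ ≤ 2 * θ * (2 * u + τ) * (2 * u + τ) := by gcongr; linarith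
    _ = 2 * θ * (2 * u + τ) ^ 2 := by ring

/-- in the fat part -/
theorem fat (hδ : 0 < δ) (h1 : u + δ ≤ x) (h2 : x ≤ 1 - u - δ) :
    sg ((u - x) / δ) = 0 ∧ sg ((x - 1 + u) / δ) = 0 ∧ Apr δ τ u x = u + τ * x := by
  have e1 : (u - x) / δ ≤ -1 := by rw [div_le_iff₀ hδ]; linarith
  have e2 : (x - 1 + u) / δ ≤ -1 := by rw [div_le_iff₀ hδ]; linarith
  refine ⟨sg_of_le e1, sg_of_le e2, ?_⟩
  unfold Apr
  rw [Sg_of_le e1, Sg_of_le e2]
  ring

/-- in the thin parts -/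
theorem thin (hδ : 0 < δ) (h : x ≤ u - δ ∨ 1 - u + δ ≤ x) : 1 ≤ Spr δ u x := by
  unfold Spr
  rcases h with h | h
  · rw [sg_of_ge (t := (u - x) / δ) (by rw [le_div_iff₀ hδ]; linarith)]
    linarith [sg_nonneg ((x - 1 + u) / δ)]
  · rw [sg_of_ge (t := (x - 1 + u) / δ) (by rw [le_div_iff₀ hδ]; linarith)]
    linarith [sg_nonneg ((u - x) / δ)]

theorem fat_dx (hδ : 0 < δ) (hθ : 0 < θ) (hτ : 0 < τ) (hu : θ ≤ u) (h1 : u + δ ≤ x)
    (h2 : x ≤ 1 - u - δ) : dx θ δ τ u x ≤ τ := by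
  obtain ⟨a1, a2, -⟩ := fat (τ := τ) hδ h1 h2
  unfold dx Spr
  rw [a1, a2, div_le_iff₀ (by linarith)]
  nlinarith

theorem fat_du (hδ : 0 < δ) (hθ : 0 < θ) (hτ : 0 < τ) (hu : θ ≤ u) (h0 : 0 ≤ x) (hx : x ≤ 1)
    (h1 : u + δ ≤ x) (h2 : x ≤ 1 - u - δ) : |du θ δ τ u x| ≤ τ / θ := by
  obtain ⟨a1, a2, a3⟩ := fat (τ := τ) hδ h1 h2
  have hu0 : 0 < u := hθ.trans_le hu
  unfold du
  rw [a1, a2, a3]
  have e : 2 * θ * ((1 - 0 + 0) * (2 * u + τ) - (u + τ * x) * 2) = 2 * θ * (τ * (1 - 2 * x)) := by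
    ring
  rw [e, abs_div, abs_of_pos (by positivity : (0:ℝ) < (2 * u + τ) ^ 2),
    div_le_div_iff₀ (by positivity) hθ, abs_mul (2 * θ), abs_mul τ,
    abs_of_pos (by positivity : (0:ℝ) < 2 * θ), abs_of_pos hτ]
  have h3 : |1 - 2 * x| ≤ 1 := by rw [abs_le]; constructor <;> linarith
  have h4 : 2 * θ * θ ≤ (2 * u + τ) ^ 2 := by nlinarith
  calc 2 * θ * (τ * |1 - 2 * x|) * θ ≤ 2 * θ * (τ * 1) * θ := by gcongr
    _ = τ * (2 * θ * θ) := by ring
    _ ≤ τ * (2 * u + τ) ^ 2 := by gcongr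

theorem fat_dpr (hδ : 0 < δ) (hθ : 0 < θ) (hτ : 0 < τ) (hu : θ ≤ u) (h0 : 0 ≤ x) (hx : x ≤ 1)
    (h1 : u + δ ≤ x) (h2 : x ≤ 1 - u - δ) : |dpr θ δ τ u x - θ| ≤ τ := by
  obtain ⟨a1, a2, a3⟩ := fat (τ := τ) hδ h1 h2
  have hu0 : 0 < u := hθ.trans_le hu
  have hw : 0 < 2 * u + τ := by linarith
  unfold dpr
  rw [a3]
  have e : 2 * θ * (u + τ * x) / (2 * u + τ) - θ = θ * τ * (2 * x - 1) / (2 * u + τ) := by
    field_simp
    ring
  rw [e, abs_div, abs_of_pos hw, div_le_iff₀ hw, abs_mul, abs_of_pos (by positivity : 0 < θ * τ)]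
  have h3 : |2 * x - 1| ≤ 1 := by rw [abs_le]; constructor <;> linarith
  calc θ * τ * |2 * x - 1| ≤ θ * τ * 1 := by gcongr
    _ = τ * θ := by ring
    _ ≤ τ * (2 * u + τ) := by gcongr; linarith

/-- in the transition zones the height is close to `θ` -/
theorem trans_dpr (hδ : 0 < δ) (hθ : 0 < θ) (hτ : 0 < τ) (hu : θ ≤ u) (hδu : δ ≤ θ)
    (hu1 : u ≤ 1 - δ) (h0 : 0 ≤ x) (hx : x ≤ 1) (h1 : u - δ ≤ x) (h2 : x ≤ 1 - u + δ) :
    |dpr θ δ τ u x - θ| ≤ 2 * δ + τ := by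
  have hu0 : 0 < u := hθ.trans_le hu
  have hw : 0 < 2 * u + τ := by linarith
  have hm := (strictMono_Apr (u := u) (τ := τ) hδ.ne' hτ).monotone
  -- lower and upper bounds for the profile
  have key : ∀ t : ℝ, 0 ≤ Sg t := by
    intro t
    rcases le_or_gt t (-1) with h | h
    · rw [Sg_of_le h]
    · unfold Sg
      exact intervalIntegral.integral_nonneg h.le fun s _ => sg_nonneg s
  have keym : Monotone Sg := monotone_of_deriv_nonneg (fun t => (hasDerivAt_Sg t).differentiableAt)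
    fun t => by rw [(hasDerivAt_Sg t).deriv]; exact sg_nonneg t
  have b1 : Sg ((u - x) / δ) ≤ 1 := by
    have : (u - x) / δ ≤ 1 := by rw [div_le_iff₀ hδ]; linarith
    have := keym this
    rwa [Sg_of_ge le_rfl] at this
  have b2 : Sg ((x - 1 + u) / δ) ≤ 1 := by
    have : (x - 1 + u) / δ ≤ 1 := by rw [div_le_iff₀ hδ]; linarith
    have := keym this
    rwa [Sg_of_ge le_rfl] at this
  have c1 : u - δ ≤ Apr δ τ u x := by
    unfold Apr
    have := mul_le_mul_of_nonneg_left b1 hδ.le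
    have := mul_nonneg hδ.le (key ((x - 1 + u) / δ))
    have := mul_nonneg hτ.le h0
    linarith
  have c2 : Apr δ τ u x ≤ u + δ + τ := by
    unfold Apr
    have := mul_le_mul_of_nonneg_left b2 hδ.le
    have := mul_nonneg hδ.le (key ((u - x) / δ))
    have := mul_le_mul_of_nonneg_left hx hτ.le
    linarith
  unfold dpr
  have e : 2 * θ * Apr δ τ u x / (2 * u + τ) - θ =
      θ * (2 * Apr δ τ u x - (2 * u + τ)) / (2 * u + τ) := by
    field_simp
  rw [e, abs_div, abs_of_pos hw, div_le_iff₀ hw, abs_mul, abs_of_pos hθ]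
  have h3 : |2 * Apr δ τ u x - (2 * u + τ)| ≤ 2 * δ + τ := by
    rw [abs_le]; constructor <;> linarith
  calc θ * |2 * Apr δ τ u x - (2 * u + τ)| ≤ θ * (2 * δ + τ) := by gcongr
    _ = (2 * δ + τ) * θ := by ring
    _ ≤ (2 * δ + τ) * (2 * u + τ) := by gcongr; linarith

end

end Vale.Agent.P073.H235
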