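import Vale.Agent.P073.H235.RedP1
import Vale.Agent.P073.RED.Vit
import Vale.Agent.P073.RED.Red225
import Vale.Agent.P073.RED720.GlueS

/-!
# P073: block RED for every exponent `1 ≤ p`: the reduction to finite distortion and to the local
theorems of rank one and two
-/

namespace Vale.Agent.P073.H235

open MeasureTheory Set Filter Topology Metric Vale.Agent.P073.St Vale.Agent.P073.RED
open Vale.Agent.P073.SQ (ev)
open Vale.Agent.P073.AB (cl err FinDist)
open Vale.Agent.P073.PK (cl_apply)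
open scoped ContDiff ENNReal

/-- the theorem for finite distortion, exponent `p`, in error form -/
def M1P (p : ℝ) : Prop :=
  ∀ (Ω Λ : Set V) (f : V → V) (F : V → Mat), St.IsBoundedDomain Ω → St.IsBoundedDomain Λ →
    St.IsHomeo Ω Λ f → St.IsSobolev p Ω f F → FinDist Ω F →
    ∀ ε > 0, ∃ g : V → V, St.IsDiffeo Ω Λ g ∧ err p Ω f F g ≤ ENNReal.ofReal ε

open Red225 GlueH in
/-- **(RED)** for every exponent, error form -/
theorem red_err {p : ℝ} (hp : 1 ≤ p) (hM1 : M1P p) (hL1 : ∀ L, Rk1 L → Loc p L)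
    (hL2 : ∀ L, Rk2 L → Loc p L) {Ω Λ : Set V} {f : V → V} {F : V → Mat}
    (hΩ : St.IsBoundedDomain Ω) (hΛ : St.IsBoundedDomain Λ) (hf : St.IsHomeo Ω Λ f)
    (hF : St.IsSobolev p Ω f F) {ε : ℝ} (hε : 0 < ε) :
    ∃ g : V → V, St.IsDiffeo Ω Λ g ∧ err p Ω f F g ≤ ENNReal.ofReal ε := by
  have hp0 : 0 ≤ p := by linarith
  have hΩt : volume Ω ≠ ⊤ := PK.volume_ne_top_of_domain hΩ
  set m : ℝ := (volume Ω).toReal with hm
  have hm0 : 0 ≤ m := ENNReal.toReal_nonneg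
  have hmv : volume Ω = ENNReal.ofReal m := (ENNReal.ofReal_toReal hΩt).symm
  have h2P : (1 : ℝ) ≤ 2 ^ (p - 1) := Real.one_le_rpow (by norm_num) (by linarith)
  have h2pos : (0 : ℝ) < 2 ^ (p - 1) := by positivity
  have h2E : (2 : ℝ≥0∞) ^ (p - 1) = ENNReal.ofReal (2 ^ (p - 1)) := by
    rw [← ENNReal.ofReal_rpow_of_pos (by norm_num)]
    simp
  set ε₁ : ℝ := min 1 (ε / 2 ^ (p - 1) / (4 * (m + 1))) with hε₁
  have hε₁0 : 0 < ε₁ := lt_min one_pos (by positivity)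
  have hε₁1 : ε₁ ≤ 1 := min_le_left _ _
  obtain ⟨ι, K, u, U, hι, hC, hd, hn⟩ := specVit p Ω f F ε₁ hΩ (fine_p hp hL1 hL2 hΩ hΛ hf hF hε₁0)
  have hf1 := specGlueH p Ω Λ f F hp hΩ hΛ hf ι hι ε₁ K u U hC hd
  have hF1 := specGlueS p Ω Λ f F hp hΩ hΛ hf hF ι hι ε₁ K u U hC hd
  obtain ⟨g, hg, hge⟩ := hM1 Ω Λ _ _ hΩ hΛ hf1 hF1 (finDist hC hd hn)
    (ε / 2 ^ (p - 1) / 2) (by positivity)
  refine ⟨g, hg, ?_⟩
  have hfc : ContinuousOn f Ω := by
    obtain ⟨_, _, h, _⟩ := hf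
    exact h
  have hgc : ContinuousOn (glue K u) Ω := continuousOn_glue hΩ hfc hC hd
  have hmu : AEMeasurable (fun x => ENNReal.ofReal (‖glue K u x‖ ^ p)) (volume.restrict Ω) :=
    ((hgc.aemeasurable hΩ.1.measurableSet).norm.pow_const p).ennreal_ofReal
  have hmU : ∀ j, AEMeasurable (fun x => ENNReal.ofReal (‖cl (glue K U x) (ev j)‖ ^ p))
      (volume.restrict Ω) := by
    intro j
    have h1 : AEMeasurable (fun x => cl (F x + glue K U x) (ev j)) (volume.restrict Ω) :=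
      ((ContinuousLinearMap.apply ℝ V (ev j)).continuous.comp_aestronglyMeasurable
        (PK.IsSob.aesm hF1)).aemeasurable
    have h2 : AEMeasurable (fun x => cl (F x) (ev j)) (volume.restrict Ω) :=
      ((ContinuousLinearMap.apply ℝ V (ev j)).continuous.comp_aestronglyMeasurable
        (PK.IsSob.aesm hF)).aemeasurable
    have e : (fun x => cl (glue K U x) (ev j)) =
        fun x => cl (F x + glue K U x) (ev j) - cl (F x) (ev j) := by
      funext x i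
      rw [Pi.sub_apply, cl_apply, cl_apply, cl_apply, ← Finset.sum_sub_distrib]
      exact Finset.sum_congr rfl fun l _ => by simp only [Pi.add_apply]; ring
    have h3 : AEMeasurable (fun x => cl (glue K U x) (ev j)) (volume.restrict Ω) := by
      rw [e]; exact h1.sub h2
    exact (h3.norm.pow_const p).ennreal_ofReal
  -- the two parts of the error
  have hA : ∫⁻ x in Ω, ENNReal.ofReal (‖g x - f x‖ ^ p) ≤
      2 ^ (p - 1) * ((∫⁻ x in Ω, ENNReal.ofReal (‖g x - (f x + glue K u x)‖ ^ p)) +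
        ∫⁻ x in Ω, ENNReal.ofReal (‖glue K u x‖ ^ p)) := by
    rw [← lintegral_add_right' _ hmu, ← lintegral_const_mul' _ _ H880.two_rpow_ne_top]
    refine lintegral_mono fun x => ?_
    have h1 := H880.add_rpow_le hp (g x - (f x + glue K u x)) (glue K u x)
    have e : g x - (f x + glue K u x) + glue K u x = g x - f x := by abel
    rwa [e] at h1
  have hB : ∀ j, ∫⁻ x in Ω, ENNReal.ofReal (‖fderiv ℝ g x (ev j) - cl (F x) (ev j)‖ ^ p) ≤
      2 ^ (p - 1) * ((∫⁻ x in Ω, ENNReal.ofReal (‖fderiv ℝ g x (ev j) -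
        cl (F x + glue K U x) (ev j)‖ ^ p)) +
        ∫⁻ x in Ω, ENNReal.ofReal (‖cl (glue K U x) (ev j)‖ ^ p)) := by
    intro j
    rw [← lintegral_add_right' _ (hmU j), ← lintegral_const_mul' _ _ H880.two_rpow_ne_top]
    refine lintegral_mono fun x => ?_
    have h1 := H880.add_rpow_le hp (fderiv ℝ g x (ev j) - cl (F x + glue K U x) (ev j))
      (cl (glue K U x) (ev j))
    have e : fderiv ℝ g x (ev j) - cl (F x + glue K U x) (ev j) + cl (glue K U x) (ev j) =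
        fderiv ℝ g x (ev j) - cl (F x) (ev j) := by
      funext i
      simp only [Pi.sub_apply, Pi.add_apply, cl_apply, add_mul, Finset.sum_add_distrib]
      ring
    rwa [e] at h1
  have hE : err p Ω f F g ≤ 2 ^ (p - 1) * err p Ω (fun x => f x + glue K u x)
      (fun x => F x + glue K U x) g + 2 ^ (p - 1) * (2 * (ENNReal.ofReal ε₁ * volume Ω)) := by
    have h1 := sup_le hp hε₁0.le hε₁1 hC hd
    have h2 := energy_le hp hC hd
    unfold err
    calc (∫⁻ x in Ω, ENNReal.ofReal (‖g x - f x‖ ^ p)) +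
        ∑ j, ∫⁻ x in Ω, ENNReal.ofReal (‖fderiv ℝ g x (ev j) - cl (F x) (ev j)‖ ^ p)
        ≤ 2 ^ (p - 1) * ((∫⁻ x in Ω, ENNReal.ofReal (‖g x - (f x + glue K u x)‖ ^ p)) +
          ∫⁻ x in Ω, ENNReal.ofReal (‖glue K u x‖ ^ p)) +
          ∑ j, 2 ^ (p - 1) * ((∫⁻ x in Ω, ENNReal.ofReal (‖fderiv ℝ g x (ev j) -
          cl (F x + glue K U x) (ev j)‖ ^ p)) +
          ∫⁻ x in Ω, ENNReal.ofReal (‖cl (glue K U x) (ev j)‖ ^ p)) :=
          add_le_add hA (Finset.sum_le_sum fun j _ => hB j)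
      _ = 2 ^ (p - 1) * ((∫⁻ x in Ω, ENNReal.ofReal (‖g x - (f x + glue K u x)‖ ^ p)) +
          ∑ j, ∫⁻ x in Ω, ENNReal.ofReal (‖fderiv ℝ g x (ev j) -
          cl (F x + glue K U x) (ev j)‖ ^ p)) +
          2 ^ (p - 1) * ((∫⁻ x in Ω, ENNReal.ofReal (‖glue K u x‖ ^ p)) +
          ∑ j, ∫⁻ x in Ω, ENNReal.ofReal (‖cl (glue K U x) (ev j)‖ ^ p)) := by
          rw [← Finset.mul_sum, Finset.sum_add_distrib]
          ring
      _ ≤ 2 ^ (p - 1) * ((∫⁻ x in Ω, ENNReal.ofReal (‖g x - (f x + glue K u x)‖ ^ p)) +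
          ∑ j, ∫⁻ x in Ω, ENNReal.ofReal (‖fderiv ℝ g x (ev j) -
          cl (F x + glue K U x) (ev j)‖ ^ p)) +
          2 ^ (p - 1) * (ENNReal.ofReal ε₁ * volume Ω + ENNReal.ofReal ε₁ * volume Ω) := by
          gcongr
      _ = _ := by ring
  refine hE.trans ?_
  have h2 : (2 : ℝ≥0∞) = ENNReal.ofReal 2 := by norm_num
  calc 2 ^ (p - 1) * err p Ω (fun x => f x + glue K u x) (fun x => F x + glue K U x) g +
        2 ^ (p - 1) * (2 * (ENNReal.ofReal ε₁ * volume Ω))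
      ≤ 2 ^ (p - 1) * ENNReal.ofReal (ε / 2 ^ (p - 1) / 2) +
        2 ^ (p - 1) * (2 * (ENNReal.ofReal ε₁ * ENNReal.ofReal m)) := by
        rw [hmv]; gcongr
    _ = ENNReal.ofReal (2 ^ (p - 1) * (ε / 2 ^ (p - 1) / 2) +
        2 ^ (p - 1) * (2 * (ε₁ * m))) := by
        rw [ENNReal.ofReal_add (by positivity) (by positivity), ENNReal.ofReal_mul h2pos.le,
          ENNReal.ofReal_mul h2pos.le, ENNReal.ofReal_mul (by norm_num), ENNReal.ofReal_mul hε₁0.le,
          ← h2E, ← h2]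
    _ ≤ ENNReal.ofReal ε := by
        apply ENNReal.ofReal_le_ofReal
        have h5 : ε₁ * (4 * (m + 1)) ≤ ε / 2 ^ (p - 1) := by
          calc ε₁ * (4 * (m + 1)) ≤ ε / 2 ^ (p - 1) / (4 * (m + 1)) * (4 * (m + 1)) := by
                gcongr; exact min_le_right _ _
            _ = ε / 2 ^ (p - 1) := by field_simp
        have h6 : 2 * (ε₁ * m) ≤ ε / 2 ^ (p - 1) / 2 := by nlinarith
        calc 2 ^ (p - 1) * (ε / 2 ^ (p - 1) / 2) + 2 ^ (p - 1) * (2 * (ε₁ * m))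
            ≤ 2 ^ (p - 1) * (ε / 2 ^ (p - 1) / 2) + 2 ^ (p - 1) * (ε / 2 ^ (p - 1) / 2) := by
              gcongr
          _ = ε := by field_simp; ring

/-- **(RED)** for every exponent -/
theorem red_final {p : ℝ} (hp : 1 ≤ p) (hM1 : M1P p) (hL1 : ∀ L, Rk1 L → Loc p L)
    (hL2 : ∀ L, Rk2 L → Loc p L) {Ω Λ : Set V} {f : V → V} {F : V → Mat}
    (hΩ : St.IsBoundedDomain Ω) (hΛ : St.IsBoundedDomain Λ) (hf : St.IsHomeo Ω Λ f)
    (hF : St.IsSobolev p Ω f F) : St.DiffeoApproximable p Ω Λ f F := by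
  have hc : ContinuousOn f Ω := by
    obtain ⟨h, _, hc, _⟩ := hf
    exact hc
  exact H880.approximable_of' hp hΩ hΛ hc hF fun _ hε => red_err hp hM1 hL1 hL2 hΩ hΛ hf hF hε

end Vale.Agent.P073.H235
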