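import Vale.Agent.P073.H235.Prof
import Vale.Agent.P073.SQ.RadDiffeo

/-!
# P073: the un-collapse map
-/

namespace Vale.Agent.P073.H235

open MeasureTheory Set Filter Topology Metric
open Vale.Agent.P073.St (V Mat)
open Vale.Agent.P073.SQ (ev)
open scoped ContDiff ENNReal

/-! ### The lateral cut-off -/

theorem exists_lip_st : ∃ C : ℝ, 0 < C ∧ ∀ s t : ℝ,
    |Real.smoothTransition s - Real.smoothTransition t| ≤ C * |s - t| := by
  have hcd : ContDiff ℝ 1 Real.smoothTransition := Real.smoothTransition.contDiff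
  have hd : Continuous (deriv Real.smoothTransition) := hcd.continuous_deriv le_rfl
  obtain ⟨C, hC⟩ := (isCompact_Icc (a := (0:ℝ)) (b := 1)).exists_bound_of_continuousOn
    hd.continuousOn
  have hall : ∀ x, ‖deriv Real.smoothTransition x‖ ≤ |C| + 1 := by
    intro x
    by_cases hx : x ∈ Icc (0:ℝ) 1
    · exact (hC x hx).trans (by linarith [le_abs_self C])
    · have : deriv Real.smoothTransition x = 0 := by
        rcases lt_or_ge x 0 with h | h
        · have : Real.smoothTransition =ᶠ[𝓝 x] fun _ => 0 := by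
            filter_upwards [Iio_mem_nhds h] with y hy
            exact Real.smoothTransition.zero_of_nonpos (le_of_lt hy)
          rw [this.deriv_eq, deriv_const]
        · have h1 : 1 < x := by
            by_contra h2
            exact hx ⟨h, not_lt.1 h2⟩
          have : Real.smoothTransition =ᶠ[𝓝 x] fun _ => 1 := by
            filter_upwards [Ioi_mem_nhds h1] with y hy
            exact Real.smoothTransition.one_of_one_le (le_of_lt hy)
          rw [this.deriv_eq, deriv_const]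
      rw [this, norm_zero]
      positivity
  refine ⟨|C| + 1, by positivity, fun s t => ?_⟩
  have := Convex.norm_image_sub_le_of_norm_deriv_le
    (fun x _ => (hcd.differentiable (by simp)).differentiableAt) (fun x _ => hall x)
    convex_univ (mem_univ t) (mem_univ s)
  simpa [Real.norm_eq_abs] using this

/-- one variable cut-off -/
noncomputable def chi (ν t : ℝ) : ℝ :=
  Real.smoothTransition (4 * t / ν - 1) * Real.smoothTransition (4 * (1 - t) / ν - 1)

theorem chi_nonneg (ν t : ℝ) : 0 ≤ chi ν t :=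
  mul_nonneg (Real.smoothTransition.nonneg _) (Real.smoothTransition.nonneg _)

theorem chi_le_one (ν t : ℝ) : chi ν t ≤ 1 :=
  mul_le_one₀ (Real.smoothTransition.le_one _) (Real.smoothTransition.nonneg _)
    (Real.smoothTransition.le_one _)

theorem chi_zero {ν t : ℝ} (hν : 0 < ν) (h : t ≤ ν / 4 ∨ 1 - ν / 4 ≤ t) : chi ν t = 0 := by
  unfold chi
  rcases h with h | h
  · rw [Real.smoothTransition.zero_of_nonpos (x := 4 * t / ν - 1), zero_mul]
    rw [sub_nonpos, div_le_iff₀ hν]; linarith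
  · rw [Real.smoothTransition.zero_of_nonpos (x := 4 * (1 - t) / ν - 1), mul_zero]
    rw [sub_nonpos, div_le_iff₀ hν]; linarith

theorem chi_one {ν t : ℝ} (hν : 0 < ν) (h : ν / 2 ≤ t) (h' : t ≤ 1 - ν / 2) : chi ν t = 1 := by
  unfold chi
  rw [Real.smoothTransition.one_of_one_le (x := 4 * t / ν - 1),
    Real.smoothTransition.one_of_one_le (x := 4 * (1 - t) / ν - 1), mul_one]
  · rw [le_sub_iff_add_le, le_div_iff₀ hν]; linarith
  · rw [le_sub_iff_add_le, le_div_iff₀ hν]; linarith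

theorem contDiff_chi (ν : ℝ) : ContDiff ℝ ∞ (chi ν) := by
  refine ContDiff.mul ?_ ?_
  · exact Real.smoothTransition.contDiff.comp
      (((contDiff_const.mul contDiff_id).div_const ν).sub contDiff_const)
  · exact Real.smoothTransition.contDiff.comp
      (((contDiff_const.mul (contDiff_const.sub contDiff_id)).div_const ν).sub contDiff_const)

theorem abs_mul_sub_mul_le {a b c d : ℝ} (ha : |a| ≤ 1) (hd : |d| ≤ 1) :
    |a * b - c * d| ≤ |a - c| + |b - d| := by
  have : a * b - c * d = a * (b - d) + (a - c) * d := by ring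
  rw [this]
  refine (abs_add_le _ _).trans ?_
  rw [abs_mul, abs_mul]
  have h1 : |a| * |b - d| ≤ 1 * |b - d| := by gcongr
  have h2 : |a - c| * |d| ≤ |a - c| * 1 := by gcongr
  linarith

theorem exists_lip_chi {ν : ℝ} (hν : 0 < ν) : ∃ C : ℝ, 0 < C ∧ ∀ s t : ℝ,
    |chi ν s - chi ν t| ≤ C * |s - t| := by
  obtain ⟨C, hC, h⟩ := exists_lip_st
  refine ⟨8 * C / ν, by positivity, fun s t => ?_⟩
  have hb : ∀ x, |Real.smoothTransition x| ≤ 1 := fun x => by
    rw [abs_of_nonneg (Real.smoothTransition.nonneg _)]; exact Real.smoothTransition.le_one _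
  unfold chi
  refine (abs_mul_sub_mul_le (hb _) (hb _)).trans ?_
  have h1 := h (4 * s / ν - 1) (4 * t / ν - 1)
  have h2 := h (4 * (1 - s) / ν - 1) (4 * (1 - t) / ν - 1)
  have e1 : 4 * s / ν - 1 - (4 * t / ν - 1) = 4 / ν * (s - t) := by ring
  have e2 : 4 * (1 - s) / ν - 1 - (4 * (1 - t) / ν - 1) = 4 / ν * (t - s) := by ring
  rw [e1, abs_mul, abs_of_pos (by positivity : 0 < 4 / ν)] at h1
  rw [e2, abs_mul, abs_of_pos (by positivity : 0 < 4 / ν), abs_sub_comm t s] at h2
  calc _ ≤ C * (4 / ν * |s - t|) + C * (4 / ν * |s - t|) := add_le_add h1 h2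
    _ = 8 * C / ν * |s - t| := by ring

theorem abs_prod_sub_prod_le {ι : Type*} (s : Finset ι) (f g : ι → ℝ)
    (hf : ∀ i, 0 ≤ f i ∧ f i ≤ 1) (hg : ∀ i, 0 ≤ g i ∧ g i ≤ 1) :
    |∏ i ∈ s, f i - ∏ i ∈ s, g i| ≤ ∑ i ∈ s, |f i - g i| := by
  classical
  induction s using Finset.induction_on with
  | empty => simp
  | insert i s hi ih =>
    rw [Finset.prod_insert hi, Finset.prod_insert hi, Finset.sum_insert hi]
    refine (abs_mul_sub_mul_le ?_ ?_).trans (by linarith)
    · rw [abs_of_nonneg (hf i).1]; exact (hf i).2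
    · rw [abs_of_nonneg (Finset.prod_nonneg fun j _ => (hg j).1)]
      exact Finset.prod_le_one (fun j _ => (hg j).1) fun j _ => (hg j).2

/-- The lateral cut-off for the box with sides `a`, direction `k`. -/
structure Lat (k : Fin 3) (a : V) (ν M : ℝ) (L : V → ℝ) : Prop where
  smooth : ContDiff ℝ ∞ L
  nonneg : ∀ x, 0 ≤ L x
  le_one : ∀ x, L x ≤ 1
  indep : ∀ x s, L (Function.update x k s) = L x
  der : ∀ x, ‖fderiv ℝ L x‖ ≤ M
  zero : ∀ x, (∃ i, i ≠ k ∧ (x i ≤ ν / 4 * a i ∨ (1 - ν / 4) * a i ≤ x i)) → L x = 0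
  one : ∀ x, (∀ i, i ≠ k → ν / 2 * a i ≤ x i ∧ x i ≤ (1 - ν / 2) * a i) → L x = 1

theorem exists_lat (k : Fin 3) (a : V) (ha : ∀ i, i ≠ k → 0 < a i) {ν : ℝ} (hν : 0 < ν) :
    ∃ (M : ℝ) (L : V → ℝ), 0 ≤ M ∧ Lat k a ν M L := by
  obtain ⟨C, hC, hchi⟩ := exists_lip_chi hν
  set L : V → ℝ := fun x => ∏ i ∈ Finset.univ.erase k, chi ν (x i / a i) with hL
  set M : ℝ := ∑ i ∈ Finset.univ.erase k, C / a i with hM
  have hM0 : 0 ≤ M := Finset.sum_nonneg fun i hi =>
    div_nonneg hC.le (ha i (Finset.ne_of_mem_erase hi)).le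
  have hlip : ∀ x y, |L x - L y| ≤ M * ‖x - y‖ := by
    intro x y
    refine (abs_prod_sub_prod_le _ _ _ (fun i => ⟨chi_nonneg _ _, chi_le_one _ _⟩)
      (fun i => ⟨chi_nonneg _ _, chi_le_one _ _⟩)).trans ?_
    rw [hM, Finset.sum_mul]
    refine Finset.sum_le_sum fun i hi => ?_
    have hai := ha i (Finset.ne_of_mem_erase hi)
    refine (hchi _ _).trans ?_
    have e : x i / a i - y i / a i = (x - y) i / a i := by rw [Pi.sub_apply]; ring
    rw [e, abs_div, abs_of_pos hai]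
    have h1 : |(x - y) i| ≤ ‖x - y‖ := norm_le_pi_norm (x - y) i
    calc C * (|(x - y) i| / a i) ≤ C * (‖x - y‖ / a i) := by gcongr
      _ = C / a i * ‖x - y‖ := by ring
  refine ⟨M, L, hM0, ?_, ?_, ?_, ?_, ?_, ?_, ?_⟩
  · refine contDiff_prod fun i _ => ?_
    exact (contDiff_chi ν).comp ((contDiff_apply ℝ ℝ i).div_const (a i))
  · exact fun x => Finset.prod_nonneg fun i _ => chi_nonneg _ _
  · exact fun x => Finset.prod_le_one (fun i _ => chi_nonneg _ _) fun i _ => chi_le_one _ _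
  · intro x s
    refine Finset.prod_congr rfl fun i hi => ?_
    rw [Function.update_of_ne (Finset.ne_of_mem_erase hi)]
  · intro x
    have h1 : LipschitzWith ⟨M, hM0⟩ L := LipschitzWith.of_dist_le_mul fun x y => by
      rw [Real.dist_eq, dist_eq_norm]
      exact hlip x y
    exact norm_fderiv_le_of_lipschitz ℝ h1
  · rintro x ⟨i, hik, hi⟩
    have hai := ha i hik
    refine Finset.prod_eq_zero (Finset.mem_erase.2 ⟨hik, Finset.mem_univ i⟩) (chi_zero hν ?_)
    rcases hi with h | h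
    · left; rw [div_le_iff₀ hai]; exact h
    · right; rw [le_div_iff₀ hai]; exact h
  · intro x hx
    refine Finset.prod_eq_one fun i hi => ?_
    have hik := Finset.ne_of_mem_erase hi
    have hai := ha i hik
    obtain ⟨h1, h2⟩ := hx i hik
    refine chi_one hν ?_ ?_
    · rw [le_div_iff₀ hai]; exact h1
    · rw [div_le_iff₀ hai]; exact h2

/-! ### The map -/

section

variable {θ δ τ ν M : ℝ} {k : Fin 3} {a : V} {L : V → ℝ}

/-- thickness of the layers -/
noncomputable def uu (θ : ℝ) (L : V → ℝ) (x : V) : ℝ := 1 / 2 - (1 / 2 - θ) * L x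

/-- the un-collapse -/
noncomputable def Dm (θ δ τ : ℝ) (k : Fin 3) (L : V → ℝ) (x : V) : V :=
  Function.update x k (dpr θ δ τ (uu θ L x) (x k))

theorem uu_ge (hL : Lat k a ν M L) (hθ : θ ≤ 1 / 2) (x : V) : θ ≤ uu θ L x := by
  unfold uu
  have := mul_le_mul_of_nonneg_left (hL.le_one x) (by linarith : 0 ≤ 1 / 2 - θ)
  linarith

theorem uu_le (hL : Lat k a ν M L) (hθ : θ ≤ 1 / 2) (x : V) : uu θ L x ≤ 1 / 2 := by
  unfold uu
  have := mul_nonneg (by linarith : 0 ≤ 1 / 2 - θ) (hL.nonneg x)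
  linarith

theorem uu_update (hL : Lat k a ν M L) (x : V) (s : ℝ) :
    uu θ L (Function.update x k s) = uu θ L x := by
  unfold uu; rw [hL.indep]

theorem contDiff_uu (hL : Lat k a ν M L) : ContDiff ℝ ∞ (uu θ L) :=
  contDiff_const.sub (contDiff_const.mul hL.smooth)

theorem fderiv_uu (hL : Lat k a ν M L) (x v : V) :
    fderiv ℝ (uu θ L) x v = -((1 / 2 - θ) * fderiv ℝ L x v) := by
  have h1 : DifferentiableAt ℝ L x := (hL.smooth.differentiable (by simp)).differentiableAt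
  have h2 : HasFDerivAt (uu θ L) (-((1 / 2 - θ) • fderiv ℝ L x)) x := by
    have := (h1.hasFDerivAt.const_mul (1 / 2 - θ)).const_sub (1 / 2)
    exact this
  rw [h2.fderiv]
  simp

theorem fderiv_uu_k (hL : Lat k a ν M L) (x : V) : fderiv ℝ (uu θ L) x (ev k) = 0 := by
  have h1 : DifferentiableAt ℝ (uu θ L) x :=
    ((contDiff_uu hL).differentiable (by simp)).differentiableAt
  have h2 : HasDerivAt (fun t : ℝ => uu θ L (x + t • ev k)) (fderiv ℝ (uu θ L) x (ev k)) 0 := by
    have h3 : HasFDerivAt (uu θ L) (fderiv ℝ (uu θ L) x) (x + (0:ℝ) • ev k) := by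
      rw [zero_smul, add_zero]; exact h1.hasFDerivAt
    have h4 : HasDerivAt (fun t : ℝ => x + t • ev k) (ev k) 0 := by
      simpa using ((hasDerivAt_id (0:ℝ)).smul_const (ev k)).const_add x
    exact h3.comp_hasDerivAt (0:ℝ) h4
  have h3 : (fun t : ℝ => uu θ L (x + t • ev k)) = fun _ => uu θ L x := by
    funext t
    have : x + t • ev k = Function.update x k (x k + t) := by
      ext i
      by_cases h : i = k
      · subst h; simp [ev]
      · simp [ev, h]
    rw [this, uu_update hL]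
  rw [h3] at h2
  exact (hasDerivAt_const (0:ℝ) (uu θ L x)).unique h2 |>.symm

theorem norm_ev (j : Fin 3) : ‖ev j‖ = 1 := by
  unfold ev
  rw [Pi.norm_single, norm_one]

theorem abs_fderiv_uu_le (hL : Lat k a ν M L) (hθ0 : 0 < θ) (hθ : θ ≤ 1 / 2) (x : V)
    (j : Fin 3) : |fderiv ℝ (uu θ L) x (ev j)| ≤ M := by
  rw [fderiv_uu hL, abs_neg, abs_mul, abs_of_nonneg (by linarith : 0 ≤ 1 / 2 - θ)]
  have h1 : |fderiv ℝ L x (ev j)| ≤ M := by
    have := (fderiv ℝ L x).le_opNorm (ev j)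
    rw [norm_ev, mul_one] at this
    exact this.trans (hL.der x)
  have hM : 0 ≤ M := (abs_nonneg _).trans h1
  calc (1 / 2 - θ) * |fderiv ℝ L x (ev j)| ≤ 1 * M := by gcongr; linarith
    _ = M := one_mul M

/-- in the open core the thickness is constant -/
theorem fderiv_uu_core (hL : Lat k a ν M L) (ha : ∀ i, i ≠ k → 0 < a i) (hν : 0 < ν) {x : V}
    (hx : ∀ i, i ≠ k → ν * a i < x i ∧ x i < (1 - ν) * a i) (v : V) :
    fderiv ℝ (uu θ L) x v = 0 := by
  have h1 : uu θ L =ᶠ[𝓝 x] fun _ => 1 / 2 - (1 / 2 - θ) * 1 := by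
    have hev : ∀ᶠ y in 𝓝 x, ∀ i, i ≠ k → ν * a i < y i ∧ y i < (1 - ν) * a i := by
      rw [Filter.eventually_all]
      intro i
      by_cases hik : i = k
      · exact Filter.Eventually.of_forall fun y h => absurd hik h
      · have hc : Tendsto (fun y : V => y i) (𝓝 x) (𝓝 (x i)) := (continuous_apply i).tendsto x
        filter_upwards [hc.eventually (lt_mem_nhds (hx i hik).1),
          hc.eventually (gt_mem_nhds (hx i hik).2)] with y h1 h2 _ using ⟨h1, h2⟩
    filter_upwards [hev] with y hy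
    unfold uu
    rw [hL.one y]
    intro i hik
    obtain ⟨h3, h4⟩ := hy i hik
    have := mul_pos hν (ha i hik)
    constructor <;> nlinarith
  rw [h1.fderiv_eq]
  simp

theorem Dm_apply_ne {i : Fin 3} (h : i ≠ k) (x : V) : Dm θ δ τ k L x i = x i := by
  unfold Dm; rw [Function.update_of_ne h]

theorem Dm_apply (x : V) : Dm θ δ τ k L x k = dpr θ δ τ (uu θ L x) (x k) := by
  unfold Dm; rw [Function.update_self]

theorem Dm_update (hL : Lat k a ν M L) (x : V) (s : ℝ) :
    Dm θ δ τ k L (Function.update x k s) = Function.update x k (dpr θ δ τ (uu θ L x) s) := by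
  unfold Dm; rw [uu_update hL, Function.update_self, Function.update_idem]

theorem contDiff_dpr2 (hL : Lat k a ν M L) (hθ0 : 0 < θ) (hθ : θ ≤ 1 / 2) (hτ : 0 < τ) :
    ContDiff ℝ ∞ fun x : V => dpr θ δ τ (uu θ L x) (x k) := by
  have hu := contDiff_uu (θ := θ) hL
  have hk : ContDiff ℝ ∞ fun x : V => x k := contDiff_apply ℝ ℝ k
  unfold dpr Apr
  refine ContDiff.div ?_ ?_ ?_
  · refine contDiff_const.mul ?_
    refine (((hu.sub (contDiff_const.mul (contDiff_Sg.comp ((hu.sub hk).div_const δ)))).add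
      (contDiff_const.mul (contDiff_Sg.comp (((hk.sub contDiff_const).add hu).div_const δ)))).add
      (contDiff_const.mul hk))
  · exact (contDiff_const.mul hu).add contDiff_const
  · intro x
    have := uu_ge hL hθ x
    linarith

theorem contDiff_Dm (hL : Lat k a ν M L) (hθ0 : 0 < θ) (hθ : θ ≤ 1 / 2) (hτ : 0 < τ) :
    ContDiff ℝ ∞ (Dm θ δ τ k L) := by
  rw [contDiff_pi]
  intro i
  by_cases h : i = k
  · subst h
    simp only [Dm_apply]
    exact contDiff_dpr2 hL hθ0 hθ hτ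
  · simp only [Dm_apply_ne h]
    exact contDiff_apply ℝ ℝ i

theorem hasFDerivAt_dpr2 (hL : Lat k a ν M L) (hθ0 : 0 < θ) (hθ : θ ≤ 1 / 2) (hτ : 0 < τ)
    (hδ : δ ≠ 0) (x : V) :
    HasFDerivAt (fun x : V => dpr θ δ τ (uu θ L x) (x k))
      (du θ δ τ (uu θ L x) (x k) • fderiv ℝ (uu θ L) x +
        dx θ δ τ (uu θ L x) (x k) • (ContinuousLinearMap.proj k : V →L[ℝ] ℝ)) x := by
  have h2 : 2 * uu θ L x + τ ≠ 0 := by have := uu_ge hL hθ x; linarith
  -- the function of two variables is differentiable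
  have hd : DifferentiableAt ℝ (fun z : ℝ × ℝ => dpr θ δ τ z.1 z.2) (uu θ L x, x k) := by
    have h1 : ContDiffAt ℝ ∞ (fun z : ℝ × ℝ => dpr θ δ τ z.1 z.2) (uu θ L x, x k) := by
      unfold dpr Apr
      refine ContDiffAt.div ?_ ?_ h2
      · refine ContDiff.contDiffAt ?_
        refine contDiff_const.mul ?_
        refine (((contDiff_fst.sub (contDiff_const.mul (contDiff_Sg.comp
          ((contDiff_fst.sub contDiff_snd).div_const δ)))).add
          (contDiff_const.mul (contDiff_Sg.comp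
            (((contDiff_snd.sub contDiff_const).add contDiff_fst).div_const δ)))).add
          (contDiff_const.mul contDiff_snd))
      · exact ((contDiff_const.mul contDiff_fst).add contDiff_const).contDiffAt
    exact h1.differentiableAt (by simp)
  set T := fderiv ℝ (fun z : ℝ × ℝ => dpr θ δ τ z.1 z.2) (uu θ L x, x k) with hT
  have hf := hd.hasFDerivAt
  rw [← hT] at hf
  have e1 : T (1, 0) = du θ δ τ (uu θ L x) (x k) := by
    have h3 : HasDerivAt (fun u : ℝ => (u, x k)) ((1 : ℝ), (0 : ℝ)) (uu θ L x) :=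
      (hasDerivAt_id _).prodMk (hasDerivAt_const _ _)
    have h4 : HasDerivAt ((fun z : ℝ × ℝ => dpr θ δ τ z.1 z.2) ∘ fun u : ℝ => (u, x k))
        (T (1, 0)) (uu θ L x) :=
      HasFDerivAt.comp_hasDerivAt (uu θ L x) (f := fun u : ℝ => (u, x k)) hf h3
    exact h4.unique (hasDerivAt_dpr_u hδ h2)
  have e2 : T (0, 1) = dx θ δ τ (uu θ L x) (x k) := by
    have h3 : HasDerivAt (fun t : ℝ => (uu θ L x, t)) ((0 : ℝ), (1 : ℝ)) (x k) :=
      (hasDerivAt_const _ _).prodMk (hasDerivAt_id _)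
    have h4 : HasDerivAt ((fun z : ℝ × ℝ => dpr θ δ τ z.1 z.2) ∘ fun t : ℝ => (uu θ L x, t))
        (T (0, 1)) (x k) :=
      HasFDerivAt.comp_hasDerivAt (x k) (f := fun t : ℝ => (uu θ L x, t)) hf h3
    exact h4.unique (hasDerivAt_dpr hδ)
  have h5 : HasFDerivAt (uu θ L) (fderiv ℝ (uu θ L) x) x :=
    ((contDiff_uu hL).differentiable (by simp)).differentiableAt.hasFDerivAt
  have h6 : HasFDerivAt (fun x : V => x k) (ContinuousLinearMap.proj k : V →L[ℝ] ℝ) x :=
    (ContinuousLinearMap.proj k : V →L[ℝ] ℝ).hasFDerivAt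
  have h7 := HasFDerivAt.comp x (f := fun x : V => (uu θ L x, x k)) hf (h5.prodMk h6)
  have h8 : du θ δ τ (uu θ L x) (x k) • fderiv ℝ (uu θ L) x +
      dx θ δ τ (uu θ L x) (x k) • (ContinuousLinearMap.proj k : V →L[ℝ] ℝ) =
      T ∘SL (fderiv ℝ (uu θ L) x).prod (ContinuousLinearMap.proj k : V →L[ℝ] ℝ) := ?_
  · rw [h8]; exact h7
  refine ContinuousLinearMap.ext fun v => ?_
  have : ((fderiv ℝ (uu θ L) x).prod (ContinuousLinearMap.proj k : V →L[ℝ] ℝ)) v =
      (fderiv ℝ (uu θ L) x v) • ((1 : ℝ), (0 : ℝ)) + (v k) • ((0 : ℝ), (1 : ℝ)) := by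
    ext <;> simp
  rw [ContinuousLinearMap.comp_apply, this, map_add, map_smul, map_smul, e1, e2]
  simp only [ContinuousLinearMap.add_apply, ContinuousLinearMap.smul_apply,
    ContinuousLinearMap.proj_apply, smul_eq_mul]
  ring

theorem fderiv_Dm (hL : Lat k a ν M L) (hθ0 : 0 < θ) (hθ : θ ≤ 1 / 2) (hτ : 0 < τ)
    (hδ : δ ≠ 0) (x v : V) :
    fderiv ℝ (Dm θ δ τ k L) x v = Function.update v k
      (du θ δ τ (uu θ L x) (x k) * fderiv ℝ (uu θ L) x v + dx θ δ τ (uu θ L x) (x k) * v k) := by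
  have hD : DifferentiableAt ℝ (Dm θ δ τ k L) x :=
    ((contDiff_Dm hL hθ0 hθ hτ).differentiable (by simp)).differentiableAt
  ext i
  have h1 : fderiv ℝ (Dm θ δ τ k L) x v i = fderiv ℝ (fun x => Dm θ δ τ k L x i) x v := by
    have h2 : HasFDerivAt (fun x => Dm θ δ τ k L x i)
        ((ContinuousLinearMap.proj i : V →L[ℝ] ℝ).comp (fderiv ℝ (Dm θ δ τ k L) x)) x :=
      (ContinuousLinearMap.proj i : V →L[ℝ] ℝ).hasFDerivAt.comp x hD.hasFDerivAt
    rw [h2.fderiv]
    simp
  rw [h1]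
  by_cases h : i = k
  · subst h
    rw [Function.update_self]
    simp only [Dm_apply]
    rw [(hasFDerivAt_dpr2 hL hθ0 hθ hτ hδ x).fderiv]
    simp
  · rw [Function.update_of_ne h]
    simp only [Dm_apply_ne h]
    have : HasFDerivAt (fun x : V => x i) (ContinuousLinearMap.proj i : V →L[ℝ] ℝ) x :=
      (ContinuousLinearMap.proj i : V →L[ℝ] ℝ).hasFDerivAt
    rw [this.fderiv]
    simp

theorem fderiv_Dm_ne (hL : Lat k a ν M L) (hθ0 : 0 < θ) (hθ : θ ≤ 1 / 2) (hτ : 0 < τ)
    (hδ : δ ≠ 0) (x : V) {j : Fin 3} (hj : j ≠ k) :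
    fderiv ℝ (Dm θ δ τ k L) x (ev j) = ev j +
      (du θ δ τ (uu θ L x) (x k) * fderiv ℝ (uu θ L) x (ev j)) • ev k := by
  rw [fderiv_Dm hL hθ0 hθ hτ hδ]
  ext i
  by_cases h : i = k
  · subst h
    have h1 : (ev j : V) i = 0 := by unfold ev; rw [Pi.single_eq_of_ne (Ne.symm hj)]
    have h2 : (ev i : V) i = 1 := by unfold ev; rw [Pi.single_eq_same]
    simp [h1, h2]
  · simp [h, ev]

theorem fderiv_Dm_k (hL : Lat k a ν M L) (hθ0 : 0 < θ) (hθ : θ ≤ 1 / 2) (hτ : 0 < τ)
    (hδ : δ ≠ 0) (x : V) :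
    fderiv ℝ (Dm θ δ τ k L) x (ev k) = dx θ δ τ (uu θ L x) (x k) • ev k := by
  rw [fderiv_Dm hL hθ0 hθ hτ hδ, fderiv_uu_k hL]
  ext i
  by_cases h : i = k
  · subst h; simp [ev]
  · simp [h, ev]

end

end Vale.Agent.P073.H235
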