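import Vale.Agent.P073.H235.Unc

/-!
# P073: statements about the un-collapse map (pieces of `SpecUncollapse`, `SpecUncollapse1`)
-/

namespace Vale.Agent.P073.H235

open MeasureTheory Set Filter Topology Metric Vale.Agent.P073.LOC
open Vale.Agent.P073.St (V Mat)
open Vale.Agent.P073.SQ (ev)
open Vale.Agent.P073.AB (cl)
open scoped ContDiff ENNReal

/-- the standing hypotheses -/
structure Par (θ δ τ ν M : ℝ) (k : Fin 3) (a : V) (L : V → ℝ) : Prop where
  lat : Lat k a ν M L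
  hθ : 0 < θ
  hθ' : θ ≤ 1 / 2
  hδ : 0 < δ
  hδ' : δ ≤ θ
  hτ : 0 < τ
  hτ' : τ ≤ θ
  hν : 0 < ν
  hν' : ν ≤ 1 / 4
  ha : ∀ i, i ≠ k → 0 < a i

/-- the thin part: the lenses over the core and the neighbourhood of the lateral boundary -/
def Thin (θ δ : ℝ) (k : Fin 3) (L : V → ℝ) : Set V := {x | 1 / 2 ≤ Spr δ (uu θ L x) (x k)}

/-- **(U1)** -/
def SpecU1 : Prop :=
  ∀ (θ δ τ ν M : ℝ) (k : Fin 3) (a : V) (L : V → ℝ), Par θ δ τ ν M k a L →
    St.IsDiffeo (Bx (Function.update a k 1)) (Bx (Function.update a k (2 * θ))) (Dm θ δ τ k L)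

/-- **(U2)** -/
def SpecU2 : Prop :=
  ∀ (θ δ τ ν M : ℝ) (k : Fin 3) (a : V) (L : V → ℝ) (f g : V → V), Par θ δ τ ν M k a L →
    ContinuousOn f (closure Q1) →
    BdClose (Bx (Function.update a k (2 * θ))) (cmp (Function.update a k (2 * θ)) f) g →
    BdClose (Bx (Function.update a k 1)) (cmp (Function.update a k 1) f)
      (fun x => g (Dm θ δ τ k L x))

/-- **(U3)** energy in the thin part (change of variables on the lines of direction `k`) -/
def SpecU3 : Prop :=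
  ∀ p : ℝ, 1 ≤ p → ∃ C > 0, ∀ (θ δ τ ν M : ℝ) (k : Fin 3) (a : V) (L : V → ℝ) (g : V → V),
    Par θ δ τ ν M k a L → ContDiffOn ℝ ∞ g (Bx (Function.update a k (2 * θ))) →
    En p (fun x => g (Dm θ δ τ k L x)) Finset.univ
        (Bx (Function.update a k 1) ∩ Thin θ δ k L) ≤
      ENNReal.ofReal C * (En p g Finset.univ (Bx (Function.update a k (2 * θ))) +
        ENNReal.ofReal (1 / θ + M ^ p) * En p g Finset.univ
          (Bx (Function.update a k (2 * θ)) ∩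
            Fr (Function.update a k (2 * θ)) ν (Finset.univ.erase k)))

/-- **(U4)** uniform closeness to the middle plane in the fat part -/
def SpecU4 : Prop :=
  ∀ (θ ν M : ℝ) (k : Fin 3) (a : V) (L : V → ℝ) (g : V → V) (e : ℝ), 0 < e → 0 < ν →
    ContDiffOn ℝ ∞ g (Bx (Function.update a k (2 * θ))) →
    ∃ τ₀ > 0, ∀ δ τ : ℝ, Par θ δ τ ν M k a L → τ ≤ τ₀ →
      ∀ x ∈ Bx (Function.update a k 1),
        (∀ i, i ≠ k → ν / 4 * a i ≤ x i ∧ x i ≤ (1 - ν / 4) * a i) →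
        uu θ L x + δ ≤ x k → x k ≤ 1 - uu θ L x - δ →
        ∀ j, ‖fderiv ℝ (fun x => g (Dm θ δ τ k L x)) x (ev j) -
          (if j = k then 0 else fderiv ℝ g (Function.update x k θ) (ev j))‖ ≤ e

/-- **(U5)** energy outside of the thin part -/
def SpecU5 : Prop :=
  ∀ (p θ ν M : ℝ) (k : Fin 3) (a : V) (L : V → ℝ) (g : V → V) (e : ℝ), 1 ≤ p → 0 < e → 0 < ν →
    ContDiffOn ℝ ∞ g (Bx (Function.update a k (2 * θ))) →
    ∃ δ₀ > 0, ∀ δ τ : ℝ, Par θ δ τ ν M k a L → δ ≤ δ₀ → τ ≤ δ₀ →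
      ∑ j, ∫⁻ x in Bx (Function.update a k 1) \ Thin θ δ k L,
        ENNReal.ofReal (‖fderiv ℝ (fun x => g (Dm θ δ τ k L x)) x (ev j) -
          (if j = k then 0 else fderiv ℝ g (Function.update x k θ) (ev j))‖ ^ p) ≤
        ENNReal.ofReal e

/-- **(U6)** outside of the thin part the lateral coordinates are in the compact core, and `x k` is
between the lenses -/
def SpecU6 : Prop :=
  ∀ (θ δ τ ν M : ℝ) (k : Fin 3) (a : V) (L : V → ℝ), Par θ δ τ ν M k a L →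
    ∀ x, x ∉ Thin θ δ k L →
      (∀ i, i ≠ k → ν / 4 * a i < x i ∧ x i < (1 - ν / 4) * a i) ∧
        uu θ L x - δ < x k ∧ x k < 1 - uu θ L x + δ

end Vale.Agent.P073.H235
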